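import Crest.Agent.N265.M.Fam
import Crest.Agent.N265.Fib.H1
import Crest.Agent.N265.Fib.R1
import Crest.Agent.N265.Fib.P5

/-!
# Row 265 (helper2): the dictionary between `KK L p j` and the syzygy lattice `B = 𝔞.SZ L p`

`co U j` (coordinates in the frame `fu U` of `U = pc L p`) identifies `KK L p j` with `Γ(B(j))` and
`V_z KK j` with `Γ(𝔪_x B(j + 1))`.
-/

set_option autoImplicit false
set_option linter.dupNamespace false
set_option linter.unusedSectionVars false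
noncomputable section
open Module TensorProduct

namespace Crest.Agent.N265.Fib
open Crest.Agent.R274
open Cx_781 Defs_781 Ses_781 Lat_781 Ser_781 SnapA_99 SnapB_99 SnapC_99 SnapD_99 SnapE_99 Gen7_750
open Xs1_781 Filter SkDefs_474 Pnt
universe u

section
variable {k : Type u} [Field k] {F : Type u} [Field F] [Algebra k F] {n : ℕ}
  {X : Defs_781.Var k F n}
  {U : Type u} [AddCommGroup U] [Module k U] [Module F U] [IsScalarTower k F U]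
  {V : Type u} [AddCommGroup V] [Module k V] [Module F V] [IsScalarTower k F V]
  {W : Type u} [AddCommGroup W] [Module k W] [Module F W] [IsScalarTower k F W]
  {ι : Type} [Fintype ι]

theorem H1_of_surj {M₁ : Fam k U n} {M₂ : Fam k V n} {M₃ : Fam k W n} {f : U →ₗ[k] V}
    {g : V →ₗ[k] W} (E : Exact M₁ M₂ M₃ f g) (hs : ∀ z ∈ Γ M₃, ∃ y ∈ Γ M₂, g y = z)
    (h : Subsingleton (M₂.H 1)) : Subsingleton (M₁.H 1) := by
  refine subsingleton_of_forall_eq 0 fun a => ?_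
  obtain ⟨c, rfl⟩ := E.ses.δ_surjective 0 h a
  obtain ⟨z, rfl⟩ := (H0_bijective M₃).2 c
  obtain ⟨y, hy, e⟩ := hs z z.2
  exact (E.ses.exact_C 0 _).2 ⟨_, (Gg_413.H0_map E.maps' ⟨y, hy⟩).trans
    (congrArg _ (Subtype.ext e))⟩

theorem Gens.exact [IsAlgClosed k] {u : ι → V} {M : XLat X V} (hg : Gens u M) :
    Exact (syz X u).toFam (OP X ι).toFam M.toFam (kl k (LinearMap.ker (lc F u)).subtype)
      (kl k (lc F u)) where
  maps _ _ _ h := h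
  maps' := maps_of_loc fun x _ hc => (hg x _).2 ⟨_, mem_loc_OP.1 hc, rfl⟩
  inj _ _ _ _ h := Subtype.ext h
  comp _ _ s _ := s.2
  ex _ _ y hy h := ⟨⟨y, h⟩, hy, rfl⟩
  surj _ hI := surj_of_loc (fun x v hv => let ⟨c, hc, e⟩ := (hg x v).1 hv
    ⟨c, mem_loc_OP.2 hc, e⟩) hI

theorem exists_lc {u : ι → V} {M : XLat X V} {p : ℤ} (hr : RegL M.toLat p)
    (hs : Submodule.span k (Set.range u) = Gm M.toLat p) (j : ℕ) {v : V}
    (hv : v ∈ Gm M.toLat (j + p)) : ∃ c : ι → F, (∀ a, c a ∈ AA X j) ∧ lc F u c = v := by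
  rw [gen_AA (fun _ he => hr.gen he) le_rfl, ← hs] at hv
  refine Submodule.smul_induction_on (p := fun v => ∃ c : ι → F, (∀ a, c a ∈ AA X j) ∧
    lc F u c = v) hv (fun a ha w hw => ?_) ?_
  · obtain ⟨c, rfl⟩ := (Submodule.mem_span_range_iff_exists_fun k).1 hw
    exact ⟨fun b => c b • a, fun b => Submodule.smul_mem _ _ ha, by
      simp only [lc_apply, Finset.smul_sum, smul_comm a, smul_assoc]⟩
  · rintro _ _ ⟨c, hc, rfl⟩ ⟨d, hd, rfl⟩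
    exact ⟨c + d, fun a => add_mem (hc a) (hd a), map_add _ _ _⟩
end

theorem reg_syz (Sg : Br.Surf) {V : Type} [AddCommGroup V] [Module ℂ V] [Module Sg.F V]
    [IsScalarTower ℂ Sg.F V] {ι : Type} [Fintype ι] {u : ι → V} {M : XLat Sg.V.X V} {p : ℤ}
    (hr : RegL M.toLat p) (hs : Submodule.span ℂ (Set.range u) = Gm M.toLat p) :
    RegL (syz Sg.V.X u).toLat 2 := by
  have E := (gens_of_span (fun _ hd => hr.gen hd) hs).exact
  refine regL_iff.2 ⟨H1_of_surj (exact_tw E _) (fun z hz => ?_) (van_OP Sg ι (by norm_num) one_pos),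
    (exact_tw E _).ses.subsingleton_A 1 (hr.twX.van one_pos (by norm_num))
      (van_OP Sg ι (by norm_num) two_pos)⟩
  obtain ⟨c, hc, e⟩ := exists_lc hr hs 1 (v := z) (by
    have := (Gm_tw M.toLat p (2 - 1)).le hz
    rwa [add_comm] at this)
  exact ⟨c, mem_Gm_OP.2 hc, e⟩
end Crest.Agent.N265.Fib

namespace Crest.Agent.N265.M
open Crest.Agent.R274
open Defs_781 Lat_781 SnapA_99 SnapB_99 SnapE_99 Gen7_750 Xs1_781 SkDefs_474
open Alg GV Br N Fib Hm _root_.Crest.Agent.N265.Pow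
variable {Sg : Surf}

namespace Hm
variable {V M : Type} [AddCommGroup V] [Module ℂ V] [AddCommGroup M] [Module ℂ M] [Module Sg.F M]
  [IsScalarTower ℂ Sg.F M] {U : Submodule ℂ V} [FiniteDimensional ℂ U] {k b : ℕ} {z : Pt}

lemma span_fu (U : Submodule ℂ V) [FiniteDimensional ℂ U] :
    Submodule.span ℂ (Set.range (fu U)) = U := span_finBasis U
lemma lc_co (f : V →ₗ[ℂ] M) {t : V ⊗[ℂ] SA Sg k} (ht : t ∈ tens U ⊤) :
    lc Sg.F (fun l => f (fu U l)) (co U k t) = mF f k t := (lc_apply _ _).trans (mF_co f ht).symm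
lemma co_AA (t : V ⊗[ℂ] SA Sg k) (l : Ix U) : co U k t l ∈ AA Sg.V.X k :=
  (SA_eq k).le (co_mem U t l)
lemma mF_muW (f : V →ₗ[ℂ] M) (l : SA Sg 1) (t : V ⊗[ℂ] SA Sg k) :
    mF f (k + 1) (muW Sg V k (l ⊗ₜ t)) = l.1 • mF f k t := by
  induction t using TensorProduct.induction_on with
  | zero => simp
  | tmul v a => simp [muW, smul_smul]
  | add t t' h h' => rw [tmul_add, map_add, map_add, h, h', map_add, smul_add]
lemma mF_lT (f : V →ₗ[ℂ] M) {m : ℕ} (a : SA Sg m) (t : V ⊗[ℂ] SA Sg k) :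
    mF f (m + k) (LinearMap.lTensor V ((mulA Sg k m).flip a) t) = a.1 • mF f k t := by
  induction t using TensorProduct.induction_on with
  | zero => simp
  | tmul v c => simp [smul_smul, mul_comm]
  | add t t' h h' => rw [map_add, map_add, h, h', map_add, smul_add]
lemma muW_mem (l : SA Sg 1) {t : V ⊗[ℂ] SA Sg k} (ht : t ∈ tens U ⊤) :
    muW Sg V k (l ⊗ₜ t) ∈ tens U ⊤ := by
  refine tens_ind ht (by simp) (fun v hv a _ => ?_) fun _ _ h h' => by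
    rw [tmul_add, map_add]; exact add_mem h h'
  simpa [muW] using tmul_mem hv Submodule.mem_top
lemma mulS_le {P : Submodule ℂ (SA Sg 1)} {N : Submodule ℂ (V ⊗[ℂ] SA Sg k)} (h : N ≤ tens U ⊤) :
    mulS Sg P N ≤ tens U ⊤ :=
  Submodule.map_le_iff_le_comap.2 (tens_le.2 fun l _ _ ht => muW_mem l (h ht))
lemma map_mF_mulS (f : V →ₗ[ℂ] M) (P : Submodule ℂ (SA Sg 1)) (N : Submodule ℂ (V ⊗[ℂ] SA Sg k)) :
    (mulS Sg P N).map (mF f (k + 1)) = P.map (SA Sg 1).subtype • N.map (mF f k) := by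
  refine le_antisymm ?_ (Submodule.smul_le.2 ?_)
  · rw [mulS, ← Submodule.map_comp, Submodule.map_le_iff_le_comap]
    refine tens_le.2 fun l hl t ht => ?_
    rw [Submodule.mem_comap, LinearMap.comp_apply, mF_muW]
    exact Submodule.smul_mem_smul ⟨l, hl, rfl⟩ ⟨t, ht, rfl⟩
  · rintro _ ⟨l, hl, rfl⟩ _ ⟨t, ht, rfl⟩
    exact ⟨_, ⟨_, tmul_mem hl ht, rfl⟩, mF_muW f l t⟩
/-- a subspace of `U ⊗ A_k` is determined by its coordinates -/
lemma mem_of_co {N : Submodule ℂ (V ⊗[ℂ] SA Sg k)} (h : N ≤ tens U ⊤) {t : V ⊗[ℂ] SA Sg k}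
    (ht : t ∈ tens U ⊤) (h1 : co U k t ∈ N.map (co U k)) : t ∈ N := by
  obtain ⟨s, hs, e⟩ := h1
  rwa [← sub_eq_zero.1 (co_inj (sub_mem (h hs) ht) (by rw [map_sub, e, sub_self]))]
lemma fc_evz (t : V ⊗[ℂ] SA Sg k) (l : Ix U) :
    fc U (evz Sg b V k z t) l = evP Sg b k z ⟨co U k t l, co_mem U t l⟩ := by
  induction t using TensorProduct.induction_on with
  | zero => simp only [map_zero]; exact (map_zero _).symm
  | tmul v a =>
    rw [show (⟨_, co_mem U (v ⊗ₜ a) l⟩ : SA Sg k) = fc U v l • a from Subtype.ext (co_tmul U v a l)]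
    simp [mul_comm]
  | add t t' h h' =>
    rw [map_add, map_add, Pi.add_apply, h, h', ← map_add]
    exact congrArg _ (Subtype.ext (congrFun (map_add (co U k) t t') l).symm)
lemma evz_eq {t : V ⊗[ℂ] SA Sg k} (ht : t ∈ tens U ⊤) :
    evz Sg b V k z t = ∑ l, evP Sg b k z ⟨co U k t l, co_mem U t l⟩ • fu U l := by
  rw [← sum_fc (evT_mem _ ht)]
  exact Finset.sum_congr rfl fun l _ => by rw [← fc_evz]
lemma evz_eq_zero_iff (hz : z ∈ (Sg.S b).pts) {t : V ⊗[ℂ] SA Sg k} (ht : t ∈ tens U ⊤) :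
    evz Sg b V k z t = 0 ↔ ∀ l, co U k t l ∈ van (pnt Sg b z hz) k := by
  refine ⟨fun h l => (mem_mP_iff (f := ⟨_, co_mem U t l⟩)).1 ?_, fun h => ?_⟩
  · rw [mP, LinearMap.mem_ker, ← fc_evz, h, map_zero, Pi.zero_apply]
  · rw [evz_eq ht]
    exact Finset.sum_eq_zero fun l _ => by
      rw [show evP Sg b k z _ = 0 from (mem_mP_iff (f := ⟨_, co_mem U t l⟩)).2 (h l), zero_smul]
end Hm

namespace Amb
variable (𝔞 : Amb Sg) (L : XL Sg 𝔞.M) (p : ℕ)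
/-- the frame of `pc L p` -/
abbrev fr : Ix (𝔞.pc L p) → 𝔞.M := fun l => 𝔞.inc p (fu (𝔞.pc L p) l)
/-- the syzygy lattice; `Γ(B(j)) = KK L p j` -/
abbrev SZ : XL Sg (LinearMap.ker (lc Sg.F (𝔞.fr L p))) := syz Sg.V.X (𝔞.fr L p)
variable {𝔞 L p} {j b : ℕ} {z : Pt} {t : (WA Sg (𝔞.G p) j).V}

lemma fr_mem (l : Ix (𝔞.pc L p)) : 𝔞.fr L p l ∈ Gm L.toLat p := fu_mem (𝔞.pc L p) l
lemma span_fr (le : LeL L 𝔞.O) : Submodule.span ℂ (Set.range (𝔞.fr L p)) = Gm L.toLat p := by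
  rw [← map_pc le]
  conv_rhs => rw [← span_fu (𝔞.pc L p), Submodule.map_span, ← Set.range_comp]
  rfl
lemma gens_fr (le : LeL L 𝔞.O) (hr : RegL L.toLat p) : Gens (𝔞.fr L p) (twX L p) :=
  gens_of_span (fun _ hd => hr.gen hd) (span_fr le)
lemma reg_SZ (le : LeL L 𝔞.O) (hr : RegL L.toLat p) : RegL (𝔞.SZ L p).toLat 2 :=
  reg_syz Sg hr (span_fr le)
lemma locF_SZ : LocF (𝔞.SZ L p) := locF_syz _
lemma lc_fr (ht : t ∈ tens (𝔞.pc L p) ⊤) :
    lc Sg.F (𝔞.fr L p) (co (𝔞.pc L p) j t) = mF (𝔞.inc p) j t := lc_co _ ht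
lemma co_ker (ht : t ∈ 𝔞.KK L p j) : co (𝔞.pc L p) j t ∈ LinearMap.ker (lc Sg.F (𝔞.fr L p)) :=
  (lc_fr ht.1).trans ht.2
/-- a syzygy as a section of `B(j)` -/
def cz (ht : t ∈ 𝔞.KK L p j) : LinearMap.ker (lc Sg.F (𝔞.fr L p)) := ⟨_, co_ker ht⟩
@[simp] lemma cz_val (ht : t ∈ 𝔞.KK L p j) : (cz ht).1 = co (𝔞.pc L p) j t := rfl
lemma cz_mem (ht : t ∈ 𝔞.KK L p j) : cz ht ∈ Gm (𝔞.SZ L p).toLat j := mem_Gm_syz.2 (co_AA t)
lemma exists_KK {s} (hs : s ∈ Gm (𝔞.SZ L p).toLat j) : ∃ t, ∃ ht : t ∈ 𝔞.KK L p j, cz ht = s := by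
  obtain ⟨t, ht, e⟩ := exists_co (U := 𝔞.pc L p) fun l => (SA_eq j).ge (mem_Gm_syz.1 hs l)
  exact ⟨t, ⟨ht, (lc_fr ht).symm.trans (e ▸ s.2)⟩, Subtype.ext e⟩
lemma map_co_KK (j : ℕ) : (𝔞.KK L p j).map (co (𝔞.pc L p) j) =
    (Gm (𝔞.SZ L p).toLat j).map (kl ℂ (LinearMap.ker (lc Sg.F (𝔞.fr L p))).subtype) := by
  refine le_antisymm ?_ ?_
  · rintro _ ⟨t, ht, rfl⟩
    exact ⟨_, cz_mem ht, rfl⟩
  · rintro _ ⟨s, hs, rfl⟩
    obtain ⟨t, ht, rfl⟩ := exists_KK hs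
    exact ⟨t, ht, rfl⟩
lemma map_co_mulS (P : Submodule ℂ (SA Sg 1)) (j : ℕ) :
    (mulS Sg P (𝔞.KK L p j)).map (co (𝔞.pc L p) (j + 1)) =
      (P.map (SA Sg 1).subtype • Gm (𝔞.SZ L p).toLat j).map
        (kl ℂ (LinearMap.ker (lc Sg.F (𝔞.fr L p))).subtype) := by
  refine (map_mF_mulS _ P _).trans ((congrArg _ (map_co_KK j)).trans (le_antisymm ?_ ?_))
  · refine Submodule.smul_le.2 ?_
    rintro a ha _ ⟨s, hs, rfl⟩
    exact ⟨_, Submodule.smul_mem_smul ha hs, rfl⟩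
  · exact Submodule.map_le_iff_le_comap.2 (Submodule.smul_le.2 fun a ha s hs =>
      Submodule.smul_mem_smul ha ⟨s, hs, rfl⟩)
lemma mem_mulS_iff {P : Submodule ℂ (SA Sg 1)} {t : (WA Sg (𝔞.G p) (j + 1)).V}
    (ht : t ∈ 𝔞.KK L p (j + 1)) : t ∈ mulS Sg P (𝔞.KK L p j) ↔
      cz ht ∈ P.map (SA Sg 1).subtype • Gm (𝔞.SZ L p).toLat j := by
  refine ⟨fun h => ?_, fun h => mem_of_co (mulS_le inf_le_left) ht.1
    ((map_co_mulS P j).ge ⟨_, h, rfl⟩)⟩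
  obtain ⟨s, hs, e⟩ := (map_co_mulS P j).le ⟨t, h, rfl⟩
  rwa [← show s = cz ht from Subtype.ext e]
/-- **`V_z KK j = Γ(𝔪_x B (j + 1))`** -/
lemma mem_ZK_iff (le : LeL L 𝔞.O) (hr : RegL L.toLat p) (hj : 2 ≤ j) (hz : z ∈ (Sg.S b).pts)
    {t : (WA Sg (𝔞.G p) (j + 1)).V} (ht : t ∈ 𝔞.KK L p (j + 1)) :
    t ∈ mulS Sg (mP Sg b 1 z) (𝔞.KK L p j) ↔ Sg.V.X.t (pnt Sg b z hz).i ^ (-((j + 1 : ℕ) : ℤ)) •
      cz ht ∈ (pnt Sg b z hz).m • (pnt Sg b z hz).loc (𝔞.SZ L p) := by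
  rw [mem_mulS_iff ht, Fib.map_mP hz, Nat.cast_one,
    ← (ng Sg).Gm_mX _ (reg_SZ le hr) (by exact_mod_cast hj), ← Nat.cast_succ, mem_Gm_mX,
    and_iff_right (cz_mem ht)]
end Amb

end Crest.Agent.N265.M
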