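import Mathlib
import Crest.Agent.N265.Ch.Num
import Crest.Agent.N265.N.Sig
import Crest.Agent.N265.Fib.Reg
import Crest.Agent.N265.Fib.P0
import Crest.Agent.N265.K.AB3
import Crest.Agent.N265.K.Wt
import Crest.Agent.N265.V.Defs

-- ▼ part N265/Ch/Choice
section

/-!
# Row 265, CHOICE (helper2): step 2 of notes 130/133

`V : SmV k F 2`, `PgQ V`.  `Choice V`: an effective divisor `b0` with `χ(b0) = N + 1 ≥ 2` of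
minimal degree among effective classes with `χ ≥ 2`, and of minimal `χ` among those.

For a splitting `I_{Z₁}(-b₁) ⊕ I_{Z₂}(-b₂)` (`n = |Z₁| + |Z₂|` points) inside the Quot scheme `Q_l`
(Hilbert polynomial of `O(-b0)²` minus `2 - l`):
* `Hilb C b₁ b₂ n l` (equality of Hilbert polynomials) `↔` degrees add up and `n = nTop - l`,
* `vdim b₁ b₂ n = χ(SS, O²/SS)`; `vdim = 4N + 4 - 2l ↔ Phi b₁ b₂ = Phi b0 b0`,
* `tri`: `χ(b₁) ≤ 1`, or `χ(b₂) ≤ 1`, or `nTop ≤ 1`, or `Top` (`nTop = 2`, `χ(b_i) = N + 1`,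
  `χ(±(b₁ - b₂)) = 1`, `b₁ - b₂` numerically trivial); `top_self : Top b0 b0`.
-/

set_option autoImplicit false
set_option linter.unusedSectionVars false

noncomputable section

namespace Crest.Agent.N265.Ch

open Crest.Agent.R274 SkDefs_474

universe u

variable {k : Type u} [Field k] {F : Type u} [Field F] [Algebra k F]

/-- the choice of `b0` -/
structure Choice (V : SmV k F 2) where
  b0 : V.G
  N : ℕ
  N_pos : 1 ≤ N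
  eff : V.Eff b0
  chi_b0 : V.chi b0 = N + 1
  min_dg : ∀ b, HasSec V b → 2 ≤ V.chi b → dg V b0 ≤ dg V b
  min_chi : ∀ b, HasSec V b → 2 ≤ V.chi b → dg V b = dg V b0 → (N : ℤ) + 1 ≤ V.chi b

variable {V : SmV k F 2}

theorem exists_big [Infinite k] (V : SmV k F 2) : ∃ b : V.G, HasSec V b ∧ 2 ≤ V.chi b := by
  obtain ⟨e0, he0⟩ := chi_eq_h0 V 0
  refine ⟨max e0 1 • V.h, hasSec_nsmul_h _, ?_⟩
  have h1 := he0 (max e0 1) (le_max_left _ _)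
  rw [zero_add] at h1
  have h2 := Gen9_750.h0_hyp two_pos V.hyp (max e0 1)
  rw [← hh_eq] at h2
  have h3 := le_max_right e0 1
  omega

theorem exists_choice [Infinite k] (V : SmV k F 2) : Nonempty (Choice V) := by
  classical
  obtain ⟨b, hb, hb2⟩ := exists_big V
  have hex : ∃ d : ℕ, ∃ b, HasSec V b ∧ 2 ≤ V.chi b ∧ dg V b = d :=
    ⟨(dg V b).toNat, b, hb, hb2, (Int.toNat_of_nonneg (dg_nonneg hb)).symm⟩
  set d := Nat.find hex with hd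
  have hmin : ∀ b, HasSec V b → 2 ≤ V.chi b → (d : ℤ) ≤ dg V b := by
    intro b hb hb2
    have h1 := Nat.find_min' hex (m := (dg V b).toNat)
      ⟨b, hb, hb2, (Int.toNat_of_nonneg (dg_nonneg hb)).symm⟩
    have h2 := Int.toNat_of_nonneg (dg_nonneg hb)
    omega
  have hex2 : ∃ N : ℕ, ∃ b, HasSec V b ∧ 2 ≤ V.chi b ∧ dg V b = d ∧ V.chi b = N + 1 := by
    obtain ⟨b, h1, h2, h3⟩ := Nat.find_spec hex
    exact ⟨(V.chi b - 1).toNat, b, h1, h2, h3, by omega⟩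
  obtain ⟨b1, h1, h2, h3, h4⟩ := Nat.find_spec hex2
  obtain ⟨s, hs, he⟩ := h1.eff
  have h5 : dg V (b1 + V.div s hs) = d := by rw [dg_add, dg_div, h3, add_zero]
  refine ⟨⟨b1 + V.div s hs, Nat.find hex2, by omega, he, by rw [chi_div, h4], ?_, ?_⟩⟩
  · intro b hb hb2
    rw [h5]
    exact hmin b hb hb2
  · intro b hb hb2 hbd
    rw [h5] at hbd
    have h6 := Nat.find_min' hex2 (m := (V.chi b - 1).toNat) ⟨b, hb, hb2, hbd, by omega⟩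
    omega

/-- the invariant which fixes the virtual dimension -/
def Phi (V : SmV k F 2) (b₁ b₂ : V.G) : ℤ :=
  2 * V.chi b₁ + 2 * V.chi b₂ - V.chi (b₁ - b₂) - V.chi (b₂ - b₁) - 2 +
    2 * (V.chi (-b₁) + V.chi (-b₂))

/-- `χ(SS, O²) - χ(SS, SS)` for `SS = I_{Z₁}(-b₁) ⊕ I_{Z₂}(-b₂)`, `n = |Z₁| + |Z₂|` -/
def vdim (V : SmV k F 2) (b₁ b₂ : V.G) (n : ℤ) : ℤ :=
  2 * V.chi b₁ + 2 * V.chi b₂ - 2 - V.chi (b₁ - b₂) - V.chi (b₂ - b₁) + 2 * n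

theorem Phi_eq [Infinite k] [IsAlgClosed k] (h : PgQ V) (b₁ b₂ : V.G) :
    Phi V b₁ b₂ = 4 + ip V (b₁ + b₂) (b₁ + b₂) := by
  have h1 := chi_neg V b₁
  have h2 := chi_neg V b₂
  have h3 := chi_neg V (b₁ - b₂)
  rw [neg_sub] at h3
  rw [h.chi_zero] at h1 h2 h3
  rw [ip_sub_left, ip_sub_right, ip_sub_right, ip_comm V b₂ b₁] at h3
  unfold Phi
  rw [ip_add_left, ip_add_right, ip_add_right, ip_comm V b₂ b₁]
  omega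

namespace Choice

variable (C : Choice V)

theorem hasSec : HasSec V C.b0 := hasSec_of_eff C.eff

/-- the number of points on the top level `l = 0` -/
def nTop (b₁ b₂ : V.G) : ℤ := V.chi (-b₁) + V.chi (-b₂) - 2 * V.chi (-C.b0) + 2

/-- the Hilbert polynomial of the kernel sheaves parametrised by `Q_l` -/
def hp (l : ℤ) (m : ℤ) : ℤ := 2 * V.chi (-C.b0 + m • V.h) - (2 - l)

/-- `I_{Z₁}(-b₁) ⊕ I_{Z₂}(-b₂)` with `n` points has Hilbert polynomial `hp l` -/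
def Hilb (b₁ b₂ : V.G) (n l : ℤ) : Prop :=
  ∀ m : ℤ, V.chi (-b₁ + m • V.h) + V.chi (-b₂ + m • V.h) - n = C.hp l m

theorem hilb_iff [Infinite k] {b₁ b₂ : V.G} {n l : ℤ} :
    C.Hilb b₁ b₂ n l ↔ dg V b₁ + dg V b₂ = 2 * dg V C.b0 ∧ n = C.nTop b₁ b₂ - l := by
  unfold Hilb hp nTop
  simp only [chi_tw V (-_), dg_neg]
  constructor
  · intro h
    have h0 := h 0
    have h1 := h 1
    constructor <;> linarith
  · rintro ⟨h1, h2⟩ m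
    rw [h2]
    linear_combination (-m) * h1


theorem nTop_self : C.nTop C.b0 C.b0 = 2 := by
  unfold nTop
  ring

theorem hilb_self [Infinite k] (l : ℤ) : C.Hilb C.b0 C.b0 (2 - l) l :=
  C.hilb_iff.2 ⟨by ring, by rw [nTop_self]⟩

theorem Phi_self [IsAlgClosed k] (h : PgQ V) :
    Phi V C.b0 C.b0 = 4 * C.N + 4 * V.chi (-C.b0) := by
  unfold Phi
  rw [sub_self, h.chi_zero, C.chi_b0]
  ring

theorem vdim_iff [IsAlgClosed k] (h : PgQ V) {b₁ b₂ : V.G} {l : ℤ} :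
    vdim V b₁ b₂ (C.nTop b₁ b₂ - l) = 4 * C.N + 4 - 2 * l ↔ Phi V b₁ b₂ = Phi V C.b0 C.b0 := by
  rw [C.Phi_self h]
  unfold vdim Phi nTop
  constructor <;> intro h1 <;> linarith

theorem vdim_self [IsAlgClosed k] (h : PgQ V) (l : ℤ) :
    vdim V C.b0 C.b0 (2 - l) = 4 * C.N + 4 - 2 * l := by
  have := (C.vdim_iff h (b₁ := C.b0) (b₂ := C.b0) (l := l)).2 rfl
  rwa [nTop_self] at this

/-- the surviving splittings -/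
structure Top (b₁ b₂ : V.G) : Prop where
  nTop : C.nTop b₁ b₂ = 2
  chi₁ : V.chi b₁ = C.N + 1
  chi₂ : V.chi b₂ = C.N + 1
  chi₁₂ : V.chi (b₁ - b₂) = 1
  chi₂₁ : V.chi (b₂ - b₁) = 1
  num : ∀ D, ip V (b₁ - b₂) D = 0

theorem top_self [Infinite k] [IsAlgClosed k] (h : PgQ V) : C.Top C.b0 C.b0 where
  nTop := C.nTop_self
  chi₁ := C.chi_b0
  chi₂ := C.chi_b0
  chi₁₂ := by rw [sub_self, h.chi_zero]
  chi₂₁ := by rw [sub_self, h.chi_zero]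
  num := fun D => by rw [sub_self, ip_zero_left]

/-- **the trichotomy** -/
theorem tri [Infinite k] [IsAlgClosed k] (h : PgQ V) {b₁ b₂ : V.G} (h₁ : HasSec V b₁)
    (h₂ : HasSec V b₂) (hd : dg V b₁ + dg V b₂ = 2 * dg V C.b0)
    (hP : Phi V b₁ b₂ = Phi V C.b0 C.b0) :
    V.chi b₁ ≤ 1 ∨ V.chi b₂ ≤ 1 ∨ C.nTop b₁ b₂ ≤ 1 ∨ C.Top b₁ b₂ := by
  by_cases c1 : V.chi b₁ ≤ 1
  · exact Or.inl c1
  by_cases c2 : V.chi b₂ ≤ 1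
  · exact Or.inr (Or.inl c2)
  by_cases c3 : C.nTop b₁ b₂ ≤ 1
  · exact Or.inr (Or.inr (Or.inl c3))
  refine Or.inr (Or.inr (Or.inr ?_))
  have d1 := C.min_dg b₁ h₁ (by omega)
  have d2 := C.min_dg b₂ h₂ (by omega)
  have e1 := C.min_chi b₁ h₁ (by omega) (by omega)
  have e2 := C.min_chi b₂ h₂ (by omega) (by omega)
  have hx : dg V (b₁ - b₂) = 0 := by rw [dg_sub]; omega
  have hx2 := hodge V hx
  rw [Phi_eq h, Phi_eq h] at hP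
  have n1 := chi_neg V b₁
  have n2 := chi_neg V b₂
  have n0 := chi_neg V C.b0
  have n3 := chi_neg V (b₁ - b₂)
  rw [neg_sub] at n3
  rw [h.chi_zero] at n1 n2 n0 n3
  rw [C.chi_b0] at n0
  have hxx : ip V (b₁ - b₂) (b₁ - b₂) = ip V b₁ b₁ - 2 * ip V b₁ b₂ + ip V b₂ b₂ := by
    rw [ip_sub_left, ip_sub_right, ip_sub_right, ip_comm V b₂ b₁]
    ring
  simp only [ip_add_left, ip_add_right, ip_comm V b₂ b₁] at hP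
  have hn : C.nTop b₁ b₂ = V.chi (-b₁) + V.chi (-b₂) - 2 * V.chi (-C.b0) + 2 := rfl
  have hxx0 : ip V (b₁ - b₂) (b₁ - b₂) = 0 := by omega
  have hnum := hodge_eq V hx hxx0
  have f1 : V.chi b₁ = C.N + 1 := by omega
  have f2 : V.chi b₂ = C.N + 1 := by omega
  have g1 := chi_add V (b₁ - b₂) b₂
  rw [sub_add_cancel, hnum, h.chi_zero] at g1
  exact ⟨by omega, f1, f2, by omega, by omega, hnum⟩

/-- the form used on `Q_l`: Hilbert polynomial and virtual dimension fixed -/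
theorem tri' [Infinite k] [IsAlgClosed k] (h : PgQ V) {b₁ b₂ : V.G} (h₁ : HasSec V b₁)
    (h₂ : HasSec V b₂) {n l : ℤ} (hH : C.Hilb b₁ b₂ n l)
    (hv : vdim V b₁ b₂ n = 4 * C.N + 4 - 2 * l) : n = C.nTop b₁ b₂ - l ∧
    (V.chi b₁ ≤ 1 ∨ V.chi b₂ ≤ 1 ∨ C.nTop b₁ b₂ ≤ 1 ∨ C.Top b₁ b₂) := by
  obtain ⟨hd, hn⟩ := C.hilb_iff.1 hH
  rw [hn, C.vdim_iff h] at hv
  exact ⟨hn, C.tri h h₁ h₂ hd hv⟩


end Choice

end Crest.Agent.N265.Ch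
end
end

-- ▼ part N265/M/Defs

/-!
# Row 265, the common interface of the geometry

* `Amb`  : an ambient sheaf `O^ι` with weights; `𝔞.G j` its sections of degree `j`;
* `pc K j`, `KK K p k` : graded pieces of a lattice and of its syzygy module;
* `LFam` : families of lattices over a space; classes `ucl, Acl, Bcl, SS, dcl`;
* `den ≤ Hb` (`Hb / den = Hom(B_K, O'/K')`), `res`, `stab ≤ Tv` (`Tv / stab = Hom(K, O'/K')`);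
* `Ty I β n`, `lS`, `Uni` : ideals of type `(β, n)` and the universal pairs of ideals;
* `QL` : the Quot scheme of level `l`.
-/

set_option autoImplicit false
set_option linter.dupNamespace false
noncomputable section
open MvPolynomial Module TensorProduct

namespace Crest.Agent.N265.M
open Crest.Agent.R274
open Defs_781 Lat_781 SnapA_99 SnapB_99 SnapE_99 Gen7_750 Xs1_781 SkDefs_474
open Alg GV Br N Fib _root_.Crest.Agent.N265.Pow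

/-- an `F`-vector space with coordinates and weights -/
structure Amb (Sg : Surf) where
  M : Type
  [acg : AddCommGroup M]
  [mC : Module ℂ M]
  [mL : Module Sg.F M]
  [st : IsScalarTower ℂ Sg.F M]
  ι : Type
  [fin : Fintype ι]
  wt : ι → ℤ
  e : M ≃ₗ[Sg.F] (ι → Sg.F)
attribute [instance] Amb.acg Amb.mC Amb.mL Amb.st Amb.fin

variable {Sg : Surf}
/-- lattices -/
abbrev XL (Sg : Surf) (M : Type) [AddCommGroup M] [Module ℂ M] [Module Sg.F M]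
    [IsScalarTower ℂ Sg.F M] : Type := XLat Sg.V.X M
/-- inclusion of lattices -/
abbrev LeL {M : Type} [AddCommGroup M] [Module ℂ M] [Module Sg.F M] [IsScalarTower ℂ Sg.F M]
    (L L' : XL Sg M) : Prop := L.toFam.LE L'.toFam
/-- equality of lattices -/
abbrev EqL {M : Type} [AddCommGroup M] [Module ℂ M] [Module Sg.F M] [IsScalarTower ℂ Sg.F M]
    (L L' : XL Sg M) : Prop := Ser_781.Eqv L.toFam L'.toFam
/-- `O t^k` -/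
abbrev r1 (Sg : Surf) (k : ℤ) : Amb Sg :=
  { M := Sg.F, ι := Unit, wt := fun _ => k, e := (LinearEquiv.funUnique Unit Sg.F Sg.F).symm }
/-- `O ⊕ O t` -/
abbrev r2 (Sg : Surf) : Amb Sg :=
  { M := Fin 2 → Sg.F, ι := Fin 2, wt := fun i => (i : ℕ), e := LinearEquiv.refl _ _ }
/-- `v ⊗ a ↦ a • f v` -/
def mF {V M : Type} [AddCommGroup V] [Module ℂ V] [AddCommGroup M] [Module ℂ M] [Module Sg.F M]
    [IsScalarTower ℂ Sg.F M] (f : V →ₗ[ℂ] M) (k : ℕ) : V ⊗[ℂ] SA Sg k →ₗ[ℂ] M :=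
  TensorProduct.lift (LinearMap.mk₂ ℂ (fun v a => a.1 • f v)
    (fun _ _ _ => by rw [map_add, smul_add]) (fun c _ _ => by rw [map_smul, smul_comm])
    (fun _ _ _ => add_smul _ _ _) fun _ _ _ => smul_assoc _ _ _)
@[simp] lemma mF_tmul {V M : Type} [AddCommGroup V] [Module ℂ V] [AddCommGroup M] [Module ℂ M]
    [Module Sg.F M] [IsScalarTower ℂ Sg.F M] (f : V →ₗ[ℂ] M) (k : ℕ) (v : V) (a : SA Sg k) :
    mF f k (v ⊗ₜ a) = a.1 • f v := rfl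
/-- `(v ⊗ a) ⊗ b ↦ v ⊗ a b` -/
def mm (V : Type) [AddCommGroup V] [Module ℂ V] (e k : ℕ) :
    (V ⊗[ℂ] SA Sg e) ⊗[ℂ] SA Sg k →ₗ[ℂ] V ⊗[ℂ] SA Sg (k + e) :=
  LinearMap.lTensor V (TensorProduct.lift (mulA Sg e k)) ∘ₗ (TensorProduct.assoc ℂ _ _ _).toLinearMap

namespace Amb
variable (𝔞 𝔟 : Amb Sg)
/-- the ambient lattice -/
def O : XL Sg 𝔞.M := comapX (OP Sg.V.X 𝔞.ι) 𝔞.e.toLinearMap 𝔞.e.injective
/-- sections of degree `j` -/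
abbrev G (j : ℕ) : GV := GV.pi fun a => (triv (SA Sg j)).shift (𝔞.wt a • eT)
/-- sections as vectors -/
def inc (j : ℕ) : (𝔞.G j).V →ₗ[ℂ] 𝔞.M :=
  (𝔞.e.symm.toLinearMap.restrictScalars ℂ) ∘ₗ (SA Sg j).subtype.compLeft 𝔞.ι
lemma inc_apply (j : ℕ) (w : (𝔞.G j).V) : 𝔞.inc j w = 𝔞.e.symm fun a => (w a).1 := rfl
/-- multiplication of sections -/
def mul (j k : ℕ) : (𝔞.G j).V ⊗[ℂ] SA Sg k →ₗ[ℂ] (𝔞.G (k + j)).V :=
  LinearMap.pi fun a => TensorProduct.lift (mulA Sg j k) ∘ₗ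
    LinearMap.rTensor _ (LinearMap.proj (R := ℂ) (φ := fun _ : 𝔞.ι => SA Sg j) a)
/-- the class `∑ t^(wt a)` -/
def V (X : Spc) : K X := ∑ a, Top.tK X (𝔞.wt a)
/-- the piece of degree `j` -/
def pc (L : XL Sg 𝔞.M) (j : ℕ) : Submodule ℂ (𝔞.G j).V := (Gm L.toLat j).comap (𝔞.inc j)
/-- syzygies of degree `k` of the piece of degree `p` -/
def KK (L : XL Sg 𝔞.M) (p k : ℕ) : Submodule ℂ (WA Sg (𝔞.G p) k).V :=
  tens (𝔞.pc L p) ⊤ ⊓ LinearMap.ker (mF (𝔞.inc p) k)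
/-- maps `W_p ⊗ A_3 → W'_(p+3)` -/
abbrev HG (p : ℕ) : GV := (WA Sg (𝔞.G p) 3).hom (𝔟.G (3 + p))
/-- maps that are zero in `Hom(KK_3, W' / U')` -/
def den (L : XL Sg 𝔞.M) (L' : XL Sg 𝔟.M) (p : ℕ) : Submodule ℂ (𝔞.HG 𝔟 p).V :=
  homMap (𝔞.KK L p 3) (𝔟.pc L' (3 + p))
/-- maps `KK_3 → W'/U'` that kill all relations: `Hb / den = Hom(B_L, O'/L')` -/
def Hb (L : XL Sg 𝔞.M) (L' : XL Sg 𝔟.M) (p : ℕ) : Submodule ℂ (𝔞.HG 𝔟 p).V where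
  carrier := {θ | ∀ (k : ℕ) (t : ((𝔞.G p).V ⊗[ℂ] SA Sg 3) ⊗[ℂ] SA Sg k), t ∈ tens (𝔞.KK L p 3) ⊤ →
    mm _ 3 k t = 0 → 𝔟.mul (3 + p) k (LinearMap.rTensor _ θ t) ∈ 𝔟.pc L' (k + (3 + p))}
  add_mem' := fun h h' k t h1 h2 => by
    rw [LinearMap.rTensor_add, LinearMap.add_apply, map_add]
    exact add_mem (h k t h1 h2) (h' k t h1 h2)
  zero_mem' := fun k t _ _ => by
    rw [LinearMap.rTensor_zero, LinearMap.zero_apply, map_zero]; exact zero_mem _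
  smul_mem' := fun c _ h k t h1 h2 => by
    rw [LinearMap.rTensor_smul, LinearMap.smul_apply, map_smul]
    exact Submodule.smul_mem _ c (h k t h1 h2)
/-- maps `W_p → W'_p` -/
abbrev EG (p : ℕ) : GV := (𝔞.G p).hom (𝔟.G p)
/-- `φ ↦ mul ∘ (φ ⊗ 1)` -/
def res (p : ℕ) : (𝔞.EG 𝔟 p).V →ₗ[ℂ] (𝔞.HG 𝔟 p).V :=
  LinearMap.llcomp ℂ _ _ _ (𝔟.mul p 3) ∘ₗ LinearMap.rTensorHom (SA Sg 3)
lemma res_apply (p : ℕ) (φ : (𝔞.EG 𝔟 p).V) (t : (WA Sg (𝔞.G p) 3).V) :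
    𝔞.res 𝔟 p φ t = 𝔟.mul p 3 (LinearMap.rTensor _ φ t) := rfl
/-- maps that are zero in `Hom(U_p, W'_p / U'_p)` -/
def stab (L : XL Sg 𝔞.M) (L' : XL Sg 𝔟.M) (p : ℕ) : Submodule ℂ (𝔞.EG 𝔟 p).V :=
  homMap (𝔞.pc L p) (𝔟.pc L' p)
/-- multiplicative maps: `Tv / stab = Hom(L, O'/L')` -/
def Tv (L : XL Sg 𝔞.M) (L' : XL Sg 𝔟.M) (p : ℕ) : Submodule ℂ (𝔞.EG 𝔟 p).V :=
  (𝔞.den 𝔟 L L' p).comap (𝔞.res 𝔟 p)
end Amb

/-- a family of `p`-regular sublattices with constant Hilbert polynomial -/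
structure LFam (𝔞 : Amb Sg) (X : Spc) (p : ℕ) (L : Pt → XL Sg 𝔞.M) : Prop where
  two : 2 ≤ p
  le : ∀ x ∈ X.pts, LeL (L x) 𝔞.O
  reg : ∀ x ∈ X.pts, RegL (L x).toLat p
  hp : ∃ (d : ℕ) (c : ℤ), ∀ x ∈ X.pts, cL (L x).toLat = HP Sg (Fintype.card 𝔞.ι) d c
  ab : ∀ j ≥ p, IsAB X (𝔞.G j) fun x => 𝔞.pc (L x) j

section classes
variable (𝔞 𝔟 : Amb Sg) (X : Spc) (p : ℕ) (L : Pt → XL Sg 𝔞.M) (L' : Pt → XL Sg 𝔟.M)
/-- `[U_j]` -/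
def ucl (j : ℕ) : K X := kc X (𝔞.G j) fun x => 𝔞.pc (L x) j
/-- `det U_p`, `r = dim U_p` -/
def dcl (r : ℕ) : K X := kc X (lam r (𝔞.G p)) fun x => lamS r (𝔞.pc (L x) p)
/-- `U_p ⊗ O(-p)` -/
def Acl : K (X.fib (Sg.S 0)) := lbK _ (-(p • eB 0)) * K.pull (Spc.fib_fst X _) (ucl 𝔞 X L p)
/-- the syzygy bundle -/
def Bcl : K (X.fib (Sg.S 0)) :=
  lbK _ (-(p • eB 0)) * bcl Sg 0 X (𝔞.G p) (fun k x => 𝔞.KK (L x) p k) 2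
/-- the universal sheaf -/
def SS : K (X.fib (Sg.S 0)) := Acl 𝔞 X p L - Bcl 𝔞 X p L
/-- `Hom(U_p, W'_p / U'_p)` -/
def hmc : K X := kc X (𝔞.EG 𝔟 p) (fun _ => ⊤) - kc X (𝔞.EG 𝔟 p) fun x => 𝔞.stab 𝔟 (L x) (L' x) p
/-- `Hom(B_L, O'/L')` -/
def hbc : K X := kc X (𝔞.HG 𝔟 p) (fun x => 𝔞.Hb 𝔟 (L x) (L' x) p) -
  kc X (𝔞.HG 𝔟 p) fun x => 𝔞.den 𝔟 (L x) (L' x) p
/-- `Hom(L, O'/L')` (if it is a bundle) -/
def tvc : K X := kc X (𝔞.EG 𝔟 p) (fun x => 𝔞.Tv 𝔟 (L x) (L' x) p) -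
  kc X (𝔞.EG 𝔟 p) fun x => 𝔞.stab 𝔟 (L x) (L' x) p
/-- `χ(L, O'/L')` -/
def chiK : K X :=
  piK X (Sg.S 0) 0 (K.dual _ (SS 𝔞 X p L) * (𝔟.V _ - SS 𝔟 X p L'))
end classes

/-- `I ≤ f O(-β)` of finite colength `n` -/
def Ty (I : XL Sg Sg.F) (β : Sg.V.G) (n : ℕ) : Prop := ∃ (f : Sg.F) (hf : f ≠ 0),
  FC I (OL Sg.V.T (-(β + Sg.V.div f hf))) ∧ len I (OL Sg.V.T (-(β + Sg.V.div f hf))) = n
/-- `H⁰(β)` -/
abbrev SB (Sg : Surf) (β : Sg.V.G) : Submodule ℂ Sg.F := Sec Sg.V.T β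
instance (β : Sg.V.G) : FiniteDimensional ℂ (SB Sg β) := Ch.finite_Sec Sg.V β
/-- `H⁰(β) t^k` -/
abbrev LG (Sg : Surf) (β : Sg.V.G) (k : ℤ) : GV := (triv (SB Sg β)).shift (k • eT)
/-- the line spanned by the equation of the divisorial part of `I` -/
def lS (β : Sg.V.G) (I : XL Sg Sg.F) : Submodule ℂ (SB Sg β) := Submodule.span ℂ
  {f | ∃ hf : f.1 ≠ 0, LeL I (OL Sg.V.T (-(β + Sg.V.div f.1 hf)))}
/-- the determinant line -/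
def lcl (X : Spc) (β : Sg.V.G) (k : ℤ) (I : Pt → XL Sg Sg.F) : K X :=
  kc X (LG Sg β k) fun x => lS β (I x)
/-- a family of ideals of type `(β, n)` and weight `k` -/
structure IFam (X : Spc) (p : ℕ) (β : Sg.V.G) (n : ℕ) (k : ℤ) (I : Pt → XL Sg Sg.F) : Prop where
  fam : LFam (r1 Sg k) X p I
  ty : ∀ x ∈ X.pts, Ty (I x) β n
/-- `φ` is the first order variation of the family `L` along `ξ` -/
def KS (X : Spc) {V : GV} (L : Pt → Submodule ℂ V.V) {x : Pt} (hx : x ∈ X.pts) (ξ : Pt)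
    (φ : V.V →ₗ[ℂ] V.V) : Prop := IsVar X.fn ⟨x, hx⟩ (X.pd x ξ) (fun y => L y.1) φ

/-- the universal pair of ideals of types `(β₁, n₁)`, `(β₂, n₂)` and weights `k₁, k₂` -/
structure Uni (Sg : Surf) (p : ℕ) (β₁ β₂ : Sg.V.G) (n₁ n₂ : ℕ) (k₁ k₂ : ℤ) (b : ℕ) where
  F : Spc
  B : F.B = {b}
  b0 : b ≠ 0
  w : ℤ
  tt : F.TTriv fun _ => w
  I₁ : Pt → XL Sg Sg.F
  I₂ : Pt → XL Sg Sg.F
  f₁ : IFam F p β₁ n₁ k₁ I₁
  f₂ : IFam F p β₂ n₂ k₂ I₂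
  ex : ∀ J₁ J₂ : XL Sg Sg.F, LeL J₁ (OX Sg.V.X) → LeL J₂ (OX Sg.V.X) →
    Ty J₁ β₁ n₁ → Ty J₂ β₂ n₂ → ∃ x ∈ F.pts, EqL (I₁ x) J₁ ∧ EqL (I₂ x) J₂
  uniq : ∀ x ∈ F.pts, ∀ x' ∈ F.pts, EqL (I₁ x) (I₁ x') →
    EqL (I₂ x) (I₂ x') → ∃ c : ℂ, c ≠ 0 ∧ x' = c • x
  graph : ∀ (Z : Spc) (J₁ J₂ : Pt → XL Sg Sg.F), b ∉ Z.B → IFam Z p β₁ n₁ k₁ J₁ →
    IFam Z p β₂ n₂ k₂ J₂ → ∃ (P : Spc) (A : Bun Z) (y : A.ι → Var), IsPSub P A 0 b y ∧ A.Rk 1 ∧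
      ∀ z, z ∈ P.pts ↔ z ∈ (Z.fib F).pts ∧ EqL (I₁ (restr F.B z)) (J₁ (restr Z.B z)) ∧
        EqL (I₂ (restr F.B z)) (J₂ (restr Z.B z))
  tan : ∀ x (hx : x ∈ F.pts), ∀ ξ ∈ F.Tan x,
    KS F (V := (r1 Sg k₁).G p) (fun y => (r1 Sg k₁).pc (I₁ y) p) hx ξ 0 →
    KS F (V := (r1 Sg k₂).G p) (fun y => (r1 Sg k₂).pc (I₂ y) p) hx ξ 0 →
    ξ ∈ Submodule.span ℂ {x}

namespace Uni
variable {p : ℕ} {β₁ β₂ : Sg.V.G} {n₁ n₂ : ℕ} {k₁ k₂ : ℤ} {b : ℕ}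
  (u : Uni Sg p β₁ β₂ n₁ n₂ k₁ k₂ b)
/-- exchange the two ideals -/
def swap : Uni Sg p β₂ β₁ n₂ n₁ k₂ k₁ b where
  F := u.F
  B := u.B
  b0 := u.b0
  w := u.w
  tt := u.tt
  I₁ := u.I₂
  I₂ := u.I₁
  f₁ := u.f₂
  f₂ := u.f₁
  ex := fun J₁ J₂ h₁ h₂ t₁ t₂ => (u.ex J₂ J₁ h₂ h₁ t₂ t₁).imp fun _ h => ⟨h.1, h.2.2, h.2.1⟩
  uniq := fun x hx x' hx' h₁ h₂ => u.uniq x hx x' hx' h₂ h₁
  graph := fun Z J₁ J₂ hb h₁ h₂ => by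
    obtain ⟨P, A, y, h, hr, hm⟩ := u.graph Z J₂ J₁ hb h₂ h₁
    exact ⟨P, A, y, h, hr, fun z => (hm z).trans (and_congr_right fun _ => and_comm)⟩
  tan := fun x hx ξ hξ h₁ h₂ => u.tan x hx ξ hξ h₂ h₁
lemma nb : 0 ∉ u.F.B := by rw [u.B, Finset.mem_singleton]; exact u.b0.symm
lemma dis : Disjoint u.F.B (Sg.S 0).B := (base_S Sg 0).disj u.nb
/-- the expected dimension of the cone -/
def dim (_ : Uni Sg p β₁ β₂ n₁ n₂ k₁ k₂ b) : ℕ :=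
  Sg.V.hh β₁ 0 + Sg.V.hh β₂ 0 - 1 + 2 * (n₁ + n₂)
/-- smooth and irreducible of the expected dimension -/
def Good : Prop := u.F.Irred ∧ u.F.Sm u.dim
/-- variables -/
def vars : Finset Var := u.F.fin.choose
lemma hvars : u.F.Vars u.vars := u.F.fin.choose_spec
/-- the tangent class -/
def tcl (h : u.Good) : K u.F := (Bun.tan u.F u.vars u.hvars _ h.2).kl
/-- fixed part of the virtual tangent bundle -/
def fixK : K u.F :=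
  chiK (r1 Sg k₁) (r1 Sg k₁) u.F p u.I₁ u.I₁ + chiK (r1 Sg k₂) (r1 Sg k₂) u.F p u.I₂ u.I₂
/-- moving part of the virtual tangent bundle -/
def movK : K u.F :=
  chiK (r1 Sg k₁) (r1 Sg k₂) u.F p u.I₁ u.I₂ + chiK (r1 Sg k₂) (r1 Sg k₁) u.F p u.I₂ u.I₁
/-- obstruction class -/
def obK (h : u.Good) : K u.F := u.tcl h - 1 - u.fixK
/-- `dim U_p(I)` for `I` of type `(β, n)` -/
def rkU (Sg : Surf) (p : ℕ) (β : Sg.V.G) (n : ℕ) : ℕ :=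
  (Sg.V.chi (-β + p • Sg.V.h) - n).toNat
/-- `det U_p(I₁) det U_p(I₂)` -/
def ddK : K u.F :=
  dcl (r1 Sg k₁) u.F p u.I₁ (rkU Sg p β₁ n₁) * dcl (r1 Sg k₂) u.F p u.I₂ (rkU Sg p β₂ n₂)
/-- restriction to the point `q` -/
def atP (q : Pt) (hq : q ∈ (Sg.S 0).pts) : K (u.F.fib (Sg.S 0)) →+* K u.F :=
  K.atPt u.dis (Sg.S_ttriv 0) q hq

lemma dim_swap : u.swap.dim = u.dim := by simp only [dim]; omega
lemma Good.swap {u : Uni Sg p β₁ β₂ n₁ n₂ k₁ k₂ b} (h : u.Good) : u.swap.Good :=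
  ⟨h.1, u.dim_swap ▸ h.2⟩

/-- the bundles and classes of a piece; `2 N - 2` is the exponent in the insertion -/
structure PData (h : u.Good) (N : ℕ) where
  hk : (k₁ = 0 ∧ k₂ = 1) ∨ (k₁ = 1 ∧ k₂ = 0)
  r₁ : ℕ
  r₂ : ℕ
  U1 : Pt → Bun u.F
  B1 : Pt → Bun u.F
  U2 : Pt → Bun u.F
  B2 : Pt → Bun u.F
  l1 : Bun u.F
  l2 : Bun u.F
  Nm : Bun u.F
  Em : Bun u.F
  Ob : Bun u.F
  σ : K (u.F.fib (Sg.S 0))
  X0 : Op u.F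
  hr₁ : r₁ + 1 = rkU Sg p β₁ n₁
  hr₂ : r₂ + 1 = rkU Sg p β₂ n₂
  rl1 : l1.Rk 1
  rl2 : l2.Rk 1
  pl1 : l1.Pure (fun _ => u.w) k₁
  pl2 : l2.Pure (fun _ => u.w) k₂
  rU1 : ∀ q ∈ (Sg.S 0).pts, (U1 q).Rk (r₁ + 1)
  rB1 : ∀ q ∈ (Sg.S 0).pts, (B1 q).Rk r₁
  rU2 : ∀ q ∈ (Sg.S 0).pts, (U2 q).Rk (r₂ + 1)
  rB2 : ∀ q ∈ (Sg.S 0).pts, (B2 q).Rk r₂
  pU1 : ∀ q ∈ (Sg.S 0).pts, (U1 q).Pure (fun _ => u.w) k₁
  pB1 : ∀ q ∈ (Sg.S 0).pts, (B1 q).Pure (fun _ => u.w) k₁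
  pU2 : ∀ q ∈ (Sg.S 0).pts, (U2 q).Pure (fun _ => u.w) k₂
  pB2 : ∀ q ∈ (Sg.S 0).pts, (B2 q).Pure (fun _ => u.w) k₂
  det1 : ∀ q (hq : q ∈ (Sg.S 0).pts),
    ((U1 q).det _ (rU1 q hq)).kl = l1.kl * ((B1 q).det _ (rB1 q hq)).kl
  det2 : ∀ q (hq : q ∈ (Sg.S 0).pts),
    ((U2 q).det _ (rU2 q hq)).kl = l2.kl * ((B2 q).det _ (rB2 q hq)).kl
  hNm : ∀ i, Bun.nwt u.F.B (fun _ => u.w) (Nm.deg i) ≠ 0
  hEm : ∀ i, Bun.nwt u.F.B (fun _ => u.w) (Em.deg i) ≠ 0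
  eU1 : ∀ q hq, (U1 q).kl = u.atP q hq (Acl (r1 Sg k₁) u.F p u.I₁)
  eB1 : ∀ q hq, (B1 q).kl = u.atP q hq (Bcl (r1 Sg k₁) u.F p u.I₁)
  eU2 : ∀ q hq, (U2 q).kl = u.atP q hq (Acl (r1 Sg k₂) u.F p u.I₂)
  eB2 : ∀ q hq, (B2 q).kl = u.atP q hq (Bcl (r1 Sg k₂) u.F p u.I₂)
  el1 : l1.kl = lcl u.F β₁ k₁ u.I₁
  el2 : l2.kl = lcl u.F β₂ k₂ u.I₂
  emov : Nm.kl - Em.kl = u.movK
  eOb : Ob.kl = u.obK h
  eσ : σ = SS (r1 Sg k₁) u.F p u.I₁ + SS (r1 Sg k₂) u.F p u.I₂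
  eX0 : X0 = op _ u.ddK ^ 2 * (1 - op _ l1.kl * op _ l2.kl * Top.tO u.F (-1)) ^ (2 * N - 2)

namespace PData
variable {u} {h : u.Good} {N : ℕ} (d : u.PData h N)
/-- the piece -/
def piece : Top.Piece (Sg.S 0) where
  F := u.F
  w := fun _ => u.w
  hw := u.tt
  dis := u.dis
  k1 := k₁
  k2 := k₂
  hk := d.hk
  r1 := d.r₁
  r2 := d.r₂
  U1 := d.U1
  B1 := d.B1
  U2 := d.U2
  B2 := d.B2
  l1 := d.l1
  l2 := d.l2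
  rl1 := d.rl1
  rl2 := d.rl2
  pl1 := d.pl1
  pl2 := d.pl2
  rU1 := d.rU1
  rB1 := d.rB1
  rU2 := d.rU2
  rB2 := d.rB2
  pU1 := d.pU1
  pB1 := d.pB1
  pU2 := d.pU2
  pB2 := d.pB2
  det1 := d.det1
  det2 := d.det2
  σ := d.σ
  Nm := d.Nm
  Em := d.Em
  Ob := d.Ob
  hNm := d.hNm
  hEm := d.hEm
  X0 := d.X0
/-- exchange the two ideals -/
def swap : u.swap.PData h.swap N :=
  { d with
    hk := by rcases d.hk with e | e <;> simp [e.1, e.2]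
    r₁ := d.r₂, r₂ := d.r₁, U1 := d.U2, B1 := d.B2, U2 := d.U1, B2 := d.B1, l1 := d.l2, l2 := d.l1
    hr₁ := d.hr₂, hr₂ := d.hr₁, rl1 := d.rl2, rl2 := d.rl1, pl1 := d.pl2, pl2 := d.pl1
    rU1 := d.rU2, rB1 := d.rB2, rU2 := d.rU1, rB2 := d.rB1
    pU1 := d.pU2, pB1 := d.pB2, pU2 := d.pU1, pB2 := d.pB1, det1 := d.det2, det2 := d.det1
    eU1 := d.eU2, eB1 := d.eB2, eU2 := d.eU1, eB2 := d.eB1, el1 := d.el2, el2 := d.el1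
    emov := d.emov.trans (add_comm _ _)
    eOb := d.eOb.trans (congrArg (u.tcl h - 1 - ·) (add_comm _ _))
    eσ := d.eσ.trans (add_comm _ _)
    eX0 := d.eX0.trans (by
      rw [mul_comm (op _ d.l1.kl) (op _ d.l2.kl)]
      exact congrArg (fun z => op _ z ^ 2 * _) (mul_comm _ _)) }
lemma piece_swap : d.swap.piece = d.piece.swap := rfl
end PData
end Uni

/-- the types of the fixed points of `Q_l` -/
structure OK (C : Ch.Choice Sg.V) (l : ℕ) (β₁ β₂ : Sg.V.G) (n₁ n₂ : ℕ) : Prop where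
  s₁ : Ch.HasSec Sg.V β₁
  s₂ : Ch.HasSec Sg.V β₂
  hilb : C.Hilb β₁ β₂ (n₁ + n₂ : ℕ) l
  vd : Ch.vdim Sg.V β₁ β₂ (n₁ + n₂ : ℕ) = 4 * C.N + 4 - 2 * (l : ℤ)

/-- the Quot scheme of level `l` in the block `b` -/
structure QL (C : Ch.Choice Sg.V) (p l b : ℕ) where
  Y : Spc
  Q : Spc
  n : ℕ
  r : ℕ
  V : Finset Var
  hY : Y.Sm n
  hV : Y.Vars V
  E : Bun Q
  hE : E.Rk r
  s : E.ι → R
  cone : Cone Y Q E s
  B : Q.B = {b}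
  L : Pt → XL Sg (Fin 2 → Sg.F)
  fam : LFam (r2 Sg) Q p L
  tv : ((Bun.tan Y V hV n hY).pull cone.sub.proj).kl = E.kl + 1 + chiK (r2 Sg) (r2 Sg) Q p L L
  U : ∀ {β₁ β₂ : Sg.V.G} {n₁ n₂ : ℕ}, OK C l β₁ β₂ n₁ n₂ → Uni Sg p β₁ β₂ n₁ n₂ 0 1 b
  sub : ∀ {β₁ β₂ n₁ n₂} (h : OK C l β₁ β₂ n₁ n₂), (U h).F.Sub Q
  eqv : ∀ {β₁ β₂ n₁ n₂} (h : OK C l β₁ β₂ n₁ n₂), ∀ x ∈ (U h).F.pts,
    EqL (L x) (piX ![(U h).I₁ x, (U h).I₂ x])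
  mem : ∀ {β₁ β₂ n₁ n₂} (h : OK C l β₁ β₂ n₁ n₂), ∀ x ∈ Q.pts, ∀ J₁ J₂ : XL Sg Sg.F,
    Ty J₁ β₁ n₁ → Ty J₂ β₂ n₂ → EqL (L x) (piX ![J₁, J₂]) → x ∈ (U h).F.pts
  cover : ∀ x ∈ Q.pts, ∀ w : ℕ → ℤ, (∀ v : Var, x v ≠ 0 → v.2.2 = w v.1) →
    ∃ (J₁ J₂ : XL Sg Sg.F) (β₁ β₂ : Sg.V.G) (n₁ n₂ : ℕ), OK C l β₁ β₂ n₁ n₂ ∧ Ty J₁ β₁ n₁ ∧
      Ty J₂ β₂ n₂ ∧ EqL (L x) (piX ![J₁, J₂])
  ht : ∀ {β₁ β₂ n₁ n₂} (h : OK C l β₁ β₂ n₁ n₂), ∀ z ∈ (U h).F.pts,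
    finrank ℂ (Y.Tan z ⊓ N265.V.fixS (fun _ => (U h).w) ⊓ LinearMap.ker (N265.V.dS z s) : Submodule ℂ Pt) ≤
      (U h).dim

end Crest.Agent.N265.M
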