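import Crest.Agent.N265.M.Dic
import Crest.Agent.N265.M.Ty0
import Crest.Agent.N265.Fib.R2
import Crest.Agent.N265.M.Defs
import Crest.Agent.N265.Fib.P4

-- ▼ part N265/M/Ty1
section

/-! # Row 265, task M-TY (helper2): the dimensions of `Tv / stab` and `Hb / den` -/

set_option autoImplicit false
set_option linter.dupNamespace false
set_option linter.unusedSectionVars false
noncomputable section
open Module TensorProduct

namespace Crest.Agent.N265.M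
open Crest.Agent.R274
open Defs_781 Lat_781 SnapA_99 SnapB_99 SnapE_99 Gen7_750 Xs1_781 SkDefs_474
open Alg GV Br N Fib Hm _root_.Crest.Agent.N265.Pow
variable {Sg : Surf}

namespace Hm
variable {V W M : Type} [AddCommGroup V] [Module ℂ V] [AddCommGroup W] [Module ℂ W]
  [AddCommGroup M] [Module ℂ M] [FiniteDimensional ℂ V] [FiniteDimensional ℂ W]
  (U : Submodule ℂ V) (f : W →ₗ[ℂ] M)
/-- the values on the frame -/
def evF : (V →ₗ[ℂ] W) →ₗ[ℂ] (Ix U → M) := LinearMap.pi fun l => f ∘ₗ LinearMap.applyₗ (fu U l)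
lemma evF_apply (θ : V →ₗ[ℂ] W) (l : Ix U) : evF U f θ l = f (θ (fu U l)) := rfl
lemma fu_ne (l : Ix U) : fu U l ≠ 0 := fun h => (finBasis ℂ U).ne_zero l (Subtype.ext h)
variable {U f}
lemma exists_evF {φ : Ix U → M} (h : ∀ l, φ l ∈ LinearMap.range f) : ∃ θ, evF U f θ = φ := by
  choose y hy using h
  exact ⟨fext U y, funext fun l => by rw [evF_apply, fext_fu, hy]⟩
lemma finrank_evF {P : Submodule ℂ (V →ₗ[ℂ] W)} {T : Submodule ℂ (Ix U → M)}
    (h1 : ∀ θ, θ ∈ P ↔ evF U f θ ∈ T) (h2 : ∀ φ ∈ T, ∀ l, φ l ∈ LinearMap.range f) :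
    finrank ℂ P = finrank ℂ T + finrank ℂ (LinearMap.ker (evF U f)) := by
  have h3 := finrank_map_add_inf_ker P (evF U f)
  rw [inf_eq_right.2 fun θ hθ => (h1 θ).2 (by rw [LinearMap.mem_ker.1 hθ]; exact zero_mem _),
    show P.map (evF U f) = T from le_antisymm (Submodule.map_le_iff_le_comap.2 fun θ => (h1 θ).1)
      fun φ hφ => let ⟨θ, e⟩ := exists_evF (h2 φ hφ); ⟨θ, (h1 θ).2 (e ▸ hφ), e⟩] at h3
  exact h3.symm
end Hm

section
variable {M : Type} [AddCommGroup M] [Module ℂ M] [Module Sg.F M] [IsScalarTower ℂ Sg.F M]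
lemma mem_tw {L : XL Sg M} {a b c : ℤ} (h : a + b = c) {v : M} :
    v ∈ Gm (twX L a).toLat b ↔ v ∈ Gm L.toLat c := by rw [← h, ← Gm_tw]; rfl
lemma mem_tw2 {L : XL Sg M} {a b c d : ℤ} (h : a + b + c = d) {v : M} :
    v ∈ Gm (twX (twX L a) b).toLat c ↔ v ∈ Gm L.toLat d :=
  (mem_tw rfl).trans (mem_tw ((add_assoc _ _ _).symm.trans h))
lemma lc_val {ι : Type} [Fintype ι] {P : Submodule Sg.F M} (s : ι → P) (c : ι → Sg.F) :
    (lc Sg.F s c : M) = ∑ a, c a • (s a : M) := by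
  rw [lc_apply, AddSubmonoidClass.coe_finsetSum]
  rfl
end

namespace Amb
variable {𝔞 𝔟 : Amb Sg} {L : XL Sg 𝔞.M} {L' : XL Sg 𝔟.M} {p : ℕ}

lemma inc_mem (𝔟 : Amb Sg) {j : ℕ} (w : (𝔟.G j).V) : 𝔟.inc j w ∈ Gm 𝔟.O.toLat j :=
  (range_inc 𝔟 j).le ⟨w, rfl⟩

lemma finrank_homMap {V : Type} [AddCommGroup V] [Module ℂ V] [FiniteDimensional ℂ V]
    (U : Submodule ℂ V) (le : LeL L' 𝔟.O) {j : ℕ} {N : XL Sg 𝔟.M}
    (e : ∀ v, v ∈ Gm N.toLat 0 ↔ v ∈ Gm L'.toLat j) : finrank ℂ (homMap U (𝔟.pc L' j)) =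
      (piX fun _ : Ix U => N).toFam.cech.h 0 + finrank ℂ (LinearMap.ker (evF U (𝔟.inc j))) := by
  rw [h_Gm]
  exact finrank_evF (fun θ => mem_homMap_fu.trans ((forall_congr' fun l => (e _).symm).trans
    Gm_pi.symm)) fun φ hφ l => (range_inc 𝔟 j).ge (Gm_mono le _ ((e _).1 (Gm_pi.1 hφ l)))

lemma lc_evF {V : Type} [AddCommGroup V] [Module ℂ V] [FiniteDimensional ℂ V] {U : Submodule ℂ V}
    {j k : ℕ} (θ : V →ₗ[ℂ] (𝔟.G j).V) {t : V ⊗[ℂ] SA Sg k} (ht : t ∈ tens U ⊤) :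
    lc Sg.F (evF U (𝔟.inc j) θ) (co U k t) = 𝔟.inc _ (𝔟.mul j k (θ.rTensor _ t)) := by
  rw [inc_mul, mF_rT]
  exact lc_co (𝔟.inc j ∘ₗ θ) ht

lemma mem_Tv_iff (le : LeL L 𝔞.O) (hr : RegL L.toLat p) {θ : (𝔞.EG 𝔟 p).V} :
    θ ∈ 𝔞.Tv 𝔟 L L' p ↔ evF (𝔞.pc L p) (𝔟.inc p) θ ∈
      Gm (MT (𝔞.fr L p) (twX 𝔟.O p) (twX L' p)).toLat 0 := by
  have e : (p : ℤ) + (0 + (3 : ℕ)) = (3 + p : ℕ) := by push_cast; ring
  refine ⟨fun h => mem_Gm_MT_of (j := (3 : ℕ)) (fun d hd => (reg_SZ le hr).gen (by omega))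
    (fun l => (mem_tw (add_zero _)).2 (𝔟.inc_mem _)) fun s hs => ?_, fun h t ht => ?_⟩
  · obtain ⟨t, ht, rfl⟩ := exists_KK hs
    rw [cz_val, lc_evF θ ht.1, mem_tw e]
    exact h t ht
  · have := (mem_Gm_MT.1 h).2 3 _ (cz_mem ht)
    rwa [cz_val, lc_evF θ ht.1, mem_tw e] at this

lemma finrank_Tv (le : LeL L 𝔞.O) (hr : RegL L.toLat p) : finrank ℂ (𝔞.Tv 𝔟 L L' p) =
    (MT (𝔞.fr L p) (twX 𝔟.O p) (twX L' p)).toFam.cech.h 0 +
      finrank ℂ (LinearMap.ker (evF (𝔞.pc L p) (𝔟.inc p))) := by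
  rw [h_Gm]
  exact finrank_evF (fun θ => mem_Tv_iff le hr) fun φ hφ l =>
    (range_inc 𝔟 p).ge ((mem_tw (add_zero _)).1 ((mem_Gm_MT.1 hφ).1 l))

lemma finrank_stab (le : LeL L' 𝔟.O) : finrank ℂ (𝔞.stab 𝔟 L L' p) =
    Fintype.card (Ix (𝔞.pc L p)) * (twX L' p).toFam.cech.h 0 +
      finrank ℂ (LinearMap.ker (evF (𝔞.pc L p) (𝔟.inc p))) :=
  (finrank_homMap _ le fun _ => mem_tw (add_zero _)).trans (congrArg (· + _) (h_piX _ 0))

variable (𝔟 L) in
lemma finrank_EG : finrank ℂ (𝔞.EG 𝔟 p).V =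
    Fintype.card (Ix (𝔞.pc L p)) * (twX 𝔟.O p).toFam.cech.h 0 +
      finrank ℂ (LinearMap.ker (evF (𝔞.pc L p) (𝔟.inc p))) := by
  rw [← finrank_stab Fam.LE.rfl, ← finrank_top, show 𝔞.stab 𝔟 L 𝔟.O p = ⊤ from
    eq_top_iff.2 fun _ _ _ _ => 𝔟.inc_mem _]

variable (𝔞 L p) in
/-- the frame of `KK L p 3` -/
def fs (a : Ix (𝔞.KK L p 3)) : LinearMap.ker (lc Sg.F (𝔞.fr L p)) := cz (fu_mem (𝔞.KK L p 3) a)

lemma lc_fs {k : ℕ} {t : (WA Sg (𝔞.G p) 3).V ⊗[ℂ] SA Sg k} (ht : t ∈ tens (𝔞.KK L p 3) ⊤) :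
    (lc Sg.F (𝔞.fs L p) (co (𝔞.KK L p 3) k t)).1 = co (𝔞.pc L p) (k + 3) (mm _ 3 k t) :=
  (lc_val _ _).trans ((mF_co (V := (WA Sg (𝔞.G p) 3).V) (co (𝔞.pc L p) 3) ht).symm.trans
    (mF_mm _ t).symm)

lemma gens_fs (le : LeL L 𝔞.O) (hr : RegL L.toLat p) :
    Gens (𝔞.fs L p) (twX (𝔞.SZ L p) (3 : ℕ)) := by
  refine gens_of_span (fun d hd => (reg_SZ le hr).gen (by omega)) (le_antisymm
    (Submodule.span_le.2 (Set.range_subset_iff.2 fun a => cz_mem _)) fun s hs => ?_)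
  obtain ⟨t, ht, rfl⟩ := exists_KK hs
  refine (Submodule.mem_span_range_iff_exists_fun ℂ).2 ⟨fc (𝔞.KK L p 3) t, Subtype.ext ?_⟩
  rw [cz_val, AddSubmonoidClass.coe_finsetSum]
  conv_rhs => rw [← sum_fc ht, map_sum]
  exact Finset.sum_congr rfl fun a _ => (map_smul _ _ _).symm

lemma mem_Hb_iff {θ : (𝔞.HG 𝔟 p).V} : θ ∈ 𝔞.Hb 𝔟 L L' p ↔ evF (𝔞.KK L p 3) (𝔟.inc (3 + p)) θ ∈
    Gm (MT (𝔞.fs L p) (twX (twX 𝔟.O p) (3 : ℕ)) (twX (twX L' p) (3 : ℕ))).toLat 0 := by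
  have e : ∀ k : ℕ, (p : ℤ) + (3 : ℕ) + (0 + k) = (k + (3 + p) : ℕ) := fun k => by push_cast; ring
  refine ⟨fun h => mem_Gm_MT.2 ⟨fun l => (mem_tw2 (by push_cast; ring)).2 (𝔟.inc_mem _),
    fun k c hc => ?_⟩, fun h k t ht h0 => ?_⟩
  · obtain ⟨t, ht, e1⟩ := exists_co (U := 𝔞.KK L p 3) fun l => (SA_eq k).ge (mem_Gm_syz.1 hc l)
    rw [← e1, lc_evF θ ht, mem_tw2 (e k)]
    refine h k t ht (co_inj (mm_mem inf_le_left ht) ?_)
    rw [← lc_fs ht, e1, show lc Sg.F (𝔞.fs L p) c.1 = 0 from c.2, ZeroMemClass.coe_zero]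
  · have := (mem_Gm_MT.1 h).2 k ⟨co _ k t, Subtype.ext ((lc_fs ht).trans ((congrArg _ h0).trans
      (map_zero _)))⟩ (mem_Gm_syz.2 (co_AA (U := 𝔞.KK L p 3) t))
    rwa [lc_evF θ ht, mem_tw2 (e k)] at this

/-- `dim Hb / den = h⁰ Hom(B, O'/L')` -/
lemma finrank_Hb (le : LeL L 𝔞.O) (hr : RegL L.toLat p) (le' : LeL L' 𝔟.O)
    (hr' : RegL L'.toLat p) : finrank ℂ (𝔞.Hb 𝔟 L L' p) = finrank ℂ (𝔞.den 𝔟 L L' p) +
      hq (HB (𝔞.fr L p) (twX L' p)) (HB (𝔞.fr L p) (twX 𝔟.O p)) 0 := by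
  have h1 := finrank_homMap (𝔞.KK L p 3) le' (j := 3 + p) (N := twX (twX L' p) (3 : ℕ))
    fun v => mem_tw2 (by push_cast; ring)
  have h2 := finrank_evF (fun θ => mem_Hb_iff (L := L) (L' := L') (p := p) (θ := θ)) fun φ hφ l =>
    (range_inc 𝔟 _).ge ((mem_tw2 (by push_cast; ring)).1 ((mem_Gm_MT.1 hφ).1 l))
  have h3 := twX_mono (twX_mono le' p) (3 : ℕ)
  have hB := xfull_twX (xfull_syz (X := Sg.V.X) (𝔞.fr L p)) (3 : ℕ)
  have h4 := (hq_MT hB (locF_of_s2 hB fun x => (locF_SZ.s2 x).twX _) (gens_fs le hr) h3).symm.trans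
    (hq_congr (homX_mono h3) (homX_tw (xfull_syz _) _ _) (homX_tw (xfull_syz _) _ _))
  have h5 := h0_pair (pi_le_MT (𝔞.fs L p) h3) ((h_piX _ 1).trans (mul_eq_zero_of_right _
    (h_eq_zero_iff.2 (hr'.twX.van one_pos (by norm_num)))))
  rw [← h_Gm, h5, h4, add_right_comm, ← h1] at h2
  exact h2
end Amb

variable {I J : XL Sg Sg.F} {β β' : Sg.V.G} {n n' p : ℕ} {k k' : ℤ}

lemma fc_twh {D : Sg.V.G} (h : FC I (OL Sg.V.T D)) (e : ℤ) :
    FC (twX I e) (OL Sg.V.T (D + e • Sg.V.h)) ∧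
      len (twX I e) (OL Sg.V.T (D + e • Sg.V.h)) = len I (OL Sg.V.T D) :=
  ⟨(h.twX e).congr (fun _ _ => rfl) (tw_OL' Sg.V D e),
    (len_congr (M' := OL _ _) (h.twX e).le (fun _ _ => rfl) (tw_OL' Sg.V D e)).symm.trans
      (h.len_tw e)⟩
lemma tw_r1_O (k e : ℤ) : EqL (twX (r1 Sg k).O e) (OL Sg.V.T (e • Sg.V.h)) :=
  (eqv_tw (r1_O k) e).trans (tw_OX Sg.V e)
lemma chi_tw_eq {M : Type} [AddCommGroup M] [Module ℂ M] [Module Sg.F M] [IsScalarTower ℂ Sg.F M]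
    {L : XL Sg M} (hr : RegL L.toLat p) : (twX L p).toFam.chi = (twX L p).toFam.cech.h 0 :=
  (cL_eq_of_van fun _ hq => hr.van hq (by omega)).trans (congrArg _ (hL_zero _ _).symm)

namespace Ty
lemma fr_ne (h : Ty I β n) (le : LeL I (OX Sg.V.X)) (hr : RegL I.toLat p) :
    (r1 Sg k).fr I p ≠ 0 := fun h0 => by
  have h1 := h.rkU_pos le hr
  rw [← h.finrank_pc (k := k) le hr] at h1
  have h2 : fu ((r1 Sg k).pc I p) ⟨0, h1⟩ = 0 :=
    (r1 Sg k).inc_inj p ((congrFun h0 _).trans (map_zero _).symm)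
  exact fu_ne _ _ h2

theorem finrank_Tv' (h : Ty I β n) (le : LeL I (OX Sg.V.X)) (hr : RegL I.toLat p) :
    finrank ℂ ((r1 Sg k).Tv (r1 Sg k) I I p) + 1 ≤
      finrank ℂ ((r1 Sg k).stab (r1 Sg k) I I p) + Sg.V.hh β 0 + 2 * n := by
  have h0 := h.fr_ne (k := k) le hr
  obtain ⟨f, hf, h1, rfl⟩ := h
  have le1 : LeL I (r1 Sg k).O := Fam.LE.trans le (r1_O k).symm.le
  have h2 := h0_MT_le h0 (Amb.gens_fr le1 hr) hr.twX (fc_twh h1 p).1 (tw_r1_O k p) (pgq Sg).2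
  rw [(fc_twh h1 p).2, (pgq Sg).chi_zero, chi_tw_eq hr, sub_add_cancel_right, neg_neg,
    ← (lin_div β hf).hh] at h2
  rw [Amb.finrank_Tv le1 hr, Amb.finrank_stab le1]
  zify
  omega

theorem finrank_Hb' (h : Ty I β n) (h' : Ty J β' n') (le : LeL I (OX Sg.V.X))
    (le' : LeL J (OX Sg.V.X)) (hp : 2 ≤ p) (hr : RegL I.toLat p) (hr' : RegL J.toLat p) :
    ((finrank ℂ ((r1 Sg k).EG (r1 Sg k') p).V : ℤ) - finrank ℂ ((r1 Sg k).stab (r1 Sg k') I J p)) -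
      (finrank ℂ ((r1 Sg k).Hb (r1 Sg k') I J p) - finrank ℂ ((r1 Sg k).den (r1 Sg k') I J p)) =
      Sg.V.chi β - Sg.V.chi (β - β') + n' := by
  have h0 := h.fr_ne (k := k) le hr
  have hs := h.hasSec le
  obtain ⟨f, hf, h1, -⟩ := h
  obtain ⟨g, hg, h2, rfl⟩ := h'
  have le1 : LeL I (r1 Sg k).O := Fam.LE.trans le (r1_O k).symm.le
  have le2 : LeL J (r1 Sg k').O := Fam.LE.trans le' (r1_O k').symm.le
  have hO : RegL (r1 Sg k').O.toLat p := (r1 Sg k').reg_O.mono (by exact_mod_cast hp)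
  have h3 := hq_HB h0 (Amb.gens_fr le1 hr) hr.twX (fc_twh h1 p).1 (fc_twh h2 p).1 (twX_mono le2 p)
    (tw_r1_O k' p) (h_eq_zero_iff.2 (hr'.van two_pos (by omega)))
    (h_eq_zero_iff.2 (hO.van one_pos (by omega))) (h_eq_zero_iff.2 (hO.van two_pos (by omega)))
    (by rw [sub_add_cancel_right, neg_neg, ← (lin_div β hf).hh]; exact (pgq Sg).h2_eff hs)
  rw [(fc_twh h2 p).2, chi_tw_eq hr', chi_tw_eq hO, sub_add_cancel_right, neg_neg,
    ← (lin_div β hf).chi, add_sub_add_right_eq_sub, neg_sub_neg,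
    ← ((lin_div β hf).sub (lin_div β' hg)).chi] at h3
  rw [Amb.finrank_Hb le1 hr le2 hr', Amb.finrank_stab le2, Amb.finrank_EG _ I]
  push_cast
  linear_combination -h3
end Ty

end Crest.Agent.N265.M
end
end

-- ▼ part N265/M/Ty3
section

/-! # Row 265, task M-TY (helper32): existence of types -/

set_option autoImplicit false
set_option linter.dupNamespace false
noncomputable section
open MvPolynomial Module TensorProduct

namespace Crest.Agent.N265.M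
open Crest.Agent.R274
open Defs_781 Lat_781 SnapA_99 SnapB_99 SnapD_99 SnapE_99 Gen7_750 Xs1_781 SkDefs_474
open Alg GV Br N Fib _root_.Crest.Agent.N265.Pow
variable {Sg : Surf} {I : XL Sg Sg.F} {β : Sg.V.G}

/-- every non-zero ideal has a type -/
theorem exists_ty' (h0 : ∃ e, Gm I.toLat e ≠ ⊥) : ∃ β n, Ty I β n :=
  let ⟨D, hD⟩ := exists_hull h0
  ⟨-D - Sg.V.div 1 one_ne_zero, _, 1, one_ne_zero, by rwa [sub_add_cancel, neg_neg], rfl⟩

/-- sublattices of given colength -/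
theorem exists_sub {L : XL Sg Sg.F} (hL : XFull L) (n : ℕ) :
    ∃ I : XL Sg Sg.F, XFull I ∧ FC I L ∧ len I L = n := by
  induction n with
  | zero => exact ⟨L, hL, FC.refl L, len_self L⟩
  | succ n ih =>
    obtain ⟨I, h1, h2, h3⟩ := ih
    obtain ⟨x, J, h4, -⟩ := exists_one_top (N := SnapA_99.bot Sg.V.X Sg.F) (M := I)
      (fun _ _ => bot_le) fun h => by
        obtain ⟨b, -, h0, hb⟩ := XFull.exists_smul h1 (sne 0) (1 : Sg.F)
        exact smul_ne_zero h0 one_ne_zero ((Submodule.mem_bot ℂ).1 (h _ (sne 0) hb))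
    exact ⟨J, xfull_mono h4.mX_le (xfull_mX two_pos x h1), h4.fc.trans h2, by
      rw [h4.fc.len_trans h2, h3, h4.len, add_comm]⟩

theorem exists_of_hasSec' (hs : Ch.HasSec Sg.V β) (n : ℕ) :
    ∃ I : XL Sg Sg.F, LeL I (OX Sg.V.X) ∧ Ty I β n := by
  obtain ⟨s, h0, he⟩ := hs.eff
  obtain ⟨I, -, h1, h2⟩ := exists_sub (L := OL Sg.V.T (-(β + Sg.V.div s h0))) (Ch.xfull_OL _) n
  refine ⟨I, h1.le.trans ((Ch.fam_le (V := Sg.V) (E := 0) fun v => ?_).trans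
    (OL_zero (T := Sg.V.T)).le), s, h0, h1, h2⟩
  exact neg_nonpos.2 (he v)

end Crest.Agent.N265.M
end
end

-- ▼ part N265/M/TyFin
section

/-! # Row 265, task M-TY (helper32): finitely many classes of regular ideals -/

set_option autoImplicit false
set_option linter.dupNamespace false
set_option linter.unusedSectionVars false
noncomputable section
open MvPolynomial Module

namespace Crest.Agent.N265.M.TyFin
open Crest.Agent.R274
open Defs_781 Ses_781 Lat_781 SnapA_99 SnapB_99 SnapD_99 SnapE_99 Gen7_750 Xs1_781 SkDefs_474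
open Br Fib Fib.Pnt Filter

section Lin
variable {k : Type*} [Field k] {V : Type*} [AddCommGroup V] [Module k V]

/-- subspaces of `W` are parametrised by matrices -/
theorem exists_param (W : Submodule k V) [Module.Finite k W] : ∃ (r : ℕ)
    (u : Fin r → (Fin r × Fin r → k) →ₗ[k] V), ∀ U ≤ W,
      ∃ x, Submodule.span k (Set.range fun i => u i x) = U := by
  let b := Module.finBasis k W
  refine ⟨finrank k W, fun i =>
    W.subtype ∘ₗ b.equivFun.symm.toLinearMap ∘ₗ LinearMap.funLeft k k fun j => (i, j), fun U hU => ?_⟩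
  have : Module.Finite k U := Submodule.finiteDimensional_of_le hU
  obtain ⟨v, hv⟩ : ∃ v : Fin (finrank k W) → U, Submodule.span k (Set.range v) = ⊤ := by
    have h1 : finrank k U ≤ finrank k W := Submodule.finrank_mono hU
    refine ⟨Function.extend (Fin.castLE h1) (Module.finBasis k U) 0, top_le_iff.1 ?_⟩
    rw [← (Module.finBasis k U).span_eq]
    refine Submodule.span_mono (Set.range_subset_iff.2 fun i => ⟨Fin.castLE h1 i, ?_⟩)
    exact (Fin.castLE_injective h1).extend_apply _ _ i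
  refine ⟨fun p => b.equivFun ⟨v p.1, hU (v p.1).2⟩ p.2, ?_⟩
  refine Eq.trans ?_ U.map_subtype_top
  rw [← hv, Submodule.map_span, ← Set.range_comp]
  congr 2
  funext i
  exact congrArg Subtype.val (b.equivFun.symm_apply_apply ⟨v i, hU (v i).2⟩)

/-- the rank is lower semicontinuous -/
theorem exists_open {σ κ : Type*} [Fintype σ] (v : κ → (σ → k) →ₗ[k] V) (y : σ → k)
    [Module.Finite k (Submodule.span k (Set.range fun c => v c y))] :
    ∃ P : MvPolynomial σ k, eval y P ≠ 0 ∧ ∀ x, eval x P ≠ 0 →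
      Module.Finite k (Submodule.span k (Set.range fun c => v c x)) →
      finrank k (Submodule.span k (Set.range fun c => v c y)) ≤
        finrank k (Submodule.span k (Set.range fun c => v c x)) := by
  classical
  choose P hP using fun (c : κ) (f : V →ₗ[k] k) => exists_poly_of_lin (f ∘ₗ v c)
  obtain ⟨s, h⟩ := not_forall.1 (mt (finrank_le_iff_det (k := k) (fun c => v c y) _).2 (lt_irrefl _))
  obtain ⟨f, h⟩ := not_forall.1 h
  have key : ∀ x, eval x (Matrix.of fun i j => P (s j) (f i)).det =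
      (Matrix.of fun i j => f i (v (s j) x)).det := fun x => by
    rw [RingHom.map_det]
    congr 1
    ext i l
    exact hP _ _ x
  refine ⟨_, (key y).symm ▸ h, fun x hx _ => not_lt.1 fun hlt => hx ?_⟩
  rw [key]
  exact (finrank_le_iff_det (fun c => v c x) _).1 hlt s f

/-- a cover by basic open sets has a finite subcover -/
theorem finite_cover {Y C σ : Type*} [Finite σ] [Finite C] (col : Y → C) (pt : Y → σ → k)
    (P : Y → MvPolynomial σ k) (h : ∀ y, eval (pt y) (P y) ≠ 0) :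
    ∃ T : Set Y, T.Finite ∧ ∀ x, ∃ y ∈ T, col y = col x ∧ eval (pt x) (P y) ≠ 0 := by
  classical
  have H : ∀ c, ∃ s : Finset Y, ↑s ⊆ col ⁻¹' {c} ∧ Submodule.span (MvPolynomial σ k)
      (P '' (col ⁻¹' {c})) = Submodule.span (MvPolynomial σ k) (P '' s) := fun c => by
    obtain ⟨s, h1, h2⟩ := (Submodule.fg_span_iff_fg_span_finset_subset _).1
      (IsNoetherian.noetherian (Submodule.span (MvPolynomial σ k) (P '' (col ⁻¹' {c}))))
    obtain ⟨s', h3, rfl⟩ := Finset.subset_set_image_iff.1 h1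
    exact ⟨s', h3, by rw [h2, Finset.coe_image]⟩
  choose s h1 h2 using H
  refine ⟨⋃ c, s c, Set.finite_iUnion fun c => (s c).finite_toSet, fun x => ?_⟩
  by_contra hc
  push Not at hc
  refine h x ((Ideal.span_le (I := RingHom.ker (eval (pt x)))).2 ?_
    ((h2 (col x)).le (Submodule.subset_span ⟨x, rfl, rfl⟩)))
  rintro _ ⟨y, hy, rfl⟩
  exact hc y (Set.mem_iUnion.2 ⟨_, hy⟩) (h1 _ hy)

theorem finrank_inf_add {Z : Type*} [AddCommGroup Z] [Module k Z] (q : V →ₗ[k] Z)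
    (C : Submodule k V) [Module.Finite k C] :
    finrank k (C.map q) + finrank k (C ⊓ LinearMap.ker q : Submodule k V) = finrank k C := by
  have h := (q.domRestrict C).finrank_range_add_finrank_ker
  rw [LinearMap.range_domRestrict, LinearMap.ker_domRestrict,
    show (LinearMap.ker q).comap C.subtype = (C ⊓ LinearMap.ker q).comap C.subtype by
      rw [Submodule.comap_inf, Submodule.comap_subtype_self, top_inf_eq],
    (Submodule.comapSubtypeEquivOfLe inf_le_left).finrank_eq] at h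
  exact h

/-- semicontinuity of `H⁰` of a complex that is exact in the middle at the base point -/
theorem exists_ker {V' Z : Type*} [AddCommGroup V'] [Module k V'] [AddCommGroup Z] [Module k Z]
    {d : V →ₗ[k] V'} {q : V' →ₗ[k] Z} (hq : ∀ v, q (d v) = 0) {C0 D0 : Submodule k V}
    {C1 D1 : Submodule k V'} [Module.Finite k C0] [Module.Finite k D0] [Module.Finite k C1]
    [Module.Finite k D1] (h0 : finrank k C0 = finrank k D0) (h1 : finrank k C1 = finrank k D1)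
    (hm : ∀ v ∈ D0, d v ∈ D1) (hr : finrank k (C1.map q) ≤ finrank k (D1.map q))
    (hs : ∀ w ∈ C1, q w = 0 → ∃ v ∈ C0, d v = w) {g : V} (hg : g ∈ C0) (g0 : g ≠ 0)
    (gd : d g = 0) : ∃ φ ∈ D0, φ ≠ 0 ∧ d φ = 0 := by
  by_contra hc
  push Not at hc
  have a1 := finrank_inf_add d C0
  have a2 := finrank_inf_add d D0
  have a3 := finrank_inf_add q C1
  have a4 := finrank_inf_add q D1
  have a5 : D0 ⊓ LinearMap.ker d = ⊥ := eq_bot_iff.2 fun v hv => by_contra fun h => hc v hv.1 h hv.2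
  have : Module.Finite k (D1 ⊓ LinearMap.ker q : Submodule k V') :=
    Submodule.finiteDimensional_of_le inf_le_left
  have : Module.Finite k (C0 ⊓ LinearMap.ker d : Submodule k V) :=
    Submodule.finiteDimensional_of_le inf_le_left
  have a6 : finrank k (D0.map d) ≤ finrank k (D1 ⊓ LinearMap.ker q : Submodule k V') :=
    Submodule.finrank_mono (by rintro _ ⟨v, hv, rfl⟩; exact ⟨hm v hv, hq v⟩)
  have a7 : finrank k (C1 ⊓ LinearMap.ker q : Submodule k V') ≤ finrank k (C0.map d) :=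
    Submodule.finrank_mono fun w hw => hs w hw.1 hw.2
  have a8 : finrank k (C0 ⊓ LinearMap.ker d : Submodule k V) ≠ 0 := fun h =>
    g0 ((Submodule.finrank_eq_zero.1 h).le (show g ∈ C0 ⊓ LinearMap.ker d from ⟨hg, gd⟩))
  rw [a5, finrank_bot] at a2
  omega

theorem map_pi_span {ι κ Z : Type*} [Finite ι] [DecidableEq ι] [AddCommGroup Z] [Module k Z]
    (q : (ι → V) →ₗ[k] Z) (w : κ → V) :
    (Submodule.pi Set.univ fun _ : ι => Submodule.span k (Set.range w)).map q =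
      Submodule.span k (Set.range fun c : ι × κ => q (Pi.single c.1 (w c.2))) := by
  rw [← Submodule.iSup_map_single, Submodule.map_iSup]
  simp only [Submodule.map_span, ← Submodule.span_iUnion, ← Set.range_comp]
  congr 1
  ext z
  simp

end Lin

variable {Sg : Surf}

/-- one of the generators of an invertible lattice generates its stalk -/
theorem exists_idx (x : Pnt Sg.V.X) {D : Sg.V.G} {ι : Type} [Fintype ι] {g : ι → Sg.F} {p : ℤ}
    (hg : ∀ a, g a ∈ Gm (OL Sg.V.T D).toLat p)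
    (hle : (OL Sg.V.T D).toFam.LE (genX Sg.V.X g p).toFam) : ∃ a, g a ≠ 0 ∧
      ∀ f, f ∈ x.loc (OL Sg.V.T D) ↔ (Sg.V.X.t x.i ^ (-p) * g a)⁻¹ * f ∈ x.O := by
  obtain ⟨γ, h0, hγ⟩ := exists_gen_OL x D
  obtain ⟨c, hc, e⟩ := mem_loc_genX.1 (loc_mono hle ((hγ γ).2 (by
    rw [inv_mul_cancel₀ h0]; exact one_mem _)))
  have h1 : ∀ a, γ⁻¹ * (Sg.V.X.t x.i ^ (-p) * g a) ∈ x.O := fun a => (hγ _).1 (Gm_mem_loc (hg a))
  obtain ⟨a, ha⟩ : ∃ a, x.val (γ⁻¹ * (Sg.V.X.t x.i ^ (-p) * g a)) ≠ 0 := by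
    by_contra h
    push Not at h
    have h2 : ∑ a, c a * (γ⁻¹ * (Sg.V.X.t x.i ^ (-p) * g a)) = 1 := by
      rw [← inv_mul_cancel₀ h0, ← e, Finset.mul_sum, e]
      exact Finset.sum_congr rfl fun a _ => by simp only [smul_eq_mul]; ring
    have h3 := congrArg x.val h2
    rw [val_sum _ fun a => mul_mem (hc a) (h1 a), val_one] at h3
    simp only [val_mul (hc _) (h1 _), h, mul_zero, Finset.sum_const_zero] at h3
    exact zero_ne_one h3
  have h2 := right_ne_zero_of_mul (ne_of_val ha)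
  refine ⟨a, right_ne_zero_of_mul h2, fun f => ?_⟩
  rw [hγ, ← mem_loc_OX, ← mem_loc_OX, ← smul_mem_iff ha (v := (_ * g a)⁻¹ * f), smul_eq_mul,
    mul_assoc γ⁻¹, mul_inv_cancel_left₀ h2]

section Key
variable {D : Sg.V.G} {ι κ : Type} [Fintype ι] [Fintype κ] {g : ι → Sg.F} {p e : ℤ}

variable (g) in
/-- relations -/
abbrev RW : Submodule Sg.F (ι → Sg.F) := LinearMap.ker (Fintype.linearCombination Sg.F g)
variable (g) in
/-- the lattice of relations -/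
abbrev RL : XLat Sg.V.X (RW g) := comapX (OP Sg.V.X ι) (RW g).subtype (RW g).subtype_injective
/-- the differential -/
def dd (s : κ → RW g) : (ι → Sg.F) →ₗ[Sg.F] (κ → Sg.F) :=
  LinearMap.pi fun b => Fintype.linearCombination Sg.F (s b).1
theorem dd_apply (s : κ → RW g) (φ : ι → Sg.F) (b : κ) : dd s φ b = ∑ a, φ a * (s b).1 a :=
  Fintype.linearCombination_apply _ _ _
theorem dd_g (s : κ → RW g) : dd s g = 0 := funext fun b => by
  have := (s b).2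
  rw [LinearMap.mem_ker, Fintype.linearCombination_apply] at this
  rw [dd_apply, Pi.zero_apply, ← this]
  exact Finset.sum_congr rfl fun a _ => mul_comm _ _

/-- local form of the exactness -/
theorem loc_formula (x : Pnt Sg.V.X) {s : κ → RW g}
    (hs : (RL g).toFam.LE (genX Sg.V.X s e).toFam) {a0 : ι} (h0 : g a0 ≠ 0)
    (h1 : ∀ a, (g a0)⁻¹ * g a ∈ x.O) (a : ι) : ∃ c : κ → Sg.F, (∀ b, c b ∈ x.O) ∧
      ∀ φ : ι → Sg.F, φ a - (g a0)⁻¹ * φ a0 * g a = ∑ b, c b * (Sg.V.X.t x.i ^ (-e) * dd s φ b) := by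
  classical
  let w : ι → Sg.F := Pi.single a 1 - ((g a0)⁻¹ * g a) • Pi.single a0 1
  have hw : w ∈ RW g := by
    simp only [w, LinearMap.mem_ker, map_sub, map_smul, Fintype.linearCombination_apply_single,
      smul_eq_mul, one_mul]
    rw [mul_right_comm, inv_mul_cancel₀ h0, one_mul, sub_self]
  have h2 : ∀ a a' : ι, (Pi.single a 1 : ι → Sg.F) a' ∈ x.O := fun a a' => by
    rw [Pi.single_apply]
    split_ifs
    exacts [one_mem _, zero_mem _]
  obtain ⟨c, hc, h⟩ := mem_loc_genX.1 (loc_mono hs (x := x) (show ⟨w, hw⟩ ∈ x.loc (RL g) from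
    mem_loc_comapX.2 (mem_loc_OP.2 fun l => sub_mem (h2 a l) (mul_mem (h1 a) (h2 a0 l)))))
  refine ⟨c, hc, fun φ => ?_⟩
  have h3 := congrArg (fun z : RW g => Fintype.linearCombination Sg.F φ z.1) h
  simp only [w, map_sub, map_smul, Fintype.linearCombination_apply_single, smul_eq_mul, one_mul,
    Submodule.coe_sum, Submodule.coe_smul, map_sum] at h3
  rw [mul_right_comm, ← h3]
  refine Finset.sum_congr rfl fun b _ => ?_
  rw [dd_apply, Fintype.linearCombination_apply]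
  simp only [smul_eq_mul, mul_comm]

variable (hg : ∀ a, g a ∈ Gm (OL Sg.V.T D).toLat p)
  (hle : (OL Sg.V.T D).toFam.LE (genX Sg.V.X g p).toFam) {s : κ → RW g}
  (hs : (RL g).toFam.LE (genX Sg.V.X s e).toFam)
include hg hle hs

theorem loc_data (x : Pnt Sg.V.X) : ∃ a0, g a0 ≠ 0 ∧
    (∀ f, f ∈ x.loc (OL Sg.V.T D) ↔ (Sg.V.X.t x.i ^ (-p) * g a0)⁻¹ * f ∈ x.O) ∧
    ∀ a, ∃ c : κ → Sg.F, (∀ b, c b ∈ x.O) ∧ ∀ φ : ι → Sg.F,
      φ a - (g a0)⁻¹ * φ a0 * g a = ∑ b, c b * (Sg.V.X.t x.i ^ (-e) * dd s φ b) := by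
  obtain ⟨a0, h0, h⟩ := exists_idx x hg hle
  refine ⟨a0, h0, h, loc_formula x hs h0 fun a => ?_⟩
  have := (h _).1 (Gm_mem_loc (hg a))
  rwa [smul_eq_mul, mul_inv, mul_mul_mul_comm, inv_mul_cancel₀ (zpow_ne_zero _ (Sg.V.X.t_ne _)),
    one_mul] at this

theorem g_ne : g ≠ 0 := fun h => by
  obtain ⟨x, -, -⟩ := exists_pnt (X := Sg.V.X) (sne 0) bot_ne_top
  obtain ⟨a, h0, -⟩ := loc_data hg hle hs x
  exact h0 (congrFun h a)

theorem ker_dd {φ : ι → Sg.F} (h : dd s φ = 0) : ∃ c : Sg.F, c • g = φ := by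
  obtain ⟨x, -, -⟩ := exists_pnt (X := Sg.V.X) (sne 0) bot_ne_top
  obtain ⟨a0, -, -, h1⟩ := loc_data hg hle hs x
  refine ⟨(g a0)⁻¹ * φ a0, funext fun a => ?_⟩
  obtain ⟨c, -, hc⟩ := h1 a
  have := hc φ
  simp only [h, Pi.zero_apply, mul_zero, Finset.sum_const_zero] at this
  exact (sub_eq_zero.1 this).symm

omit hg hle hs in
theorem dd_maps (hd : ∀ b, s b ∈ Gm (RL g).toLat e) (L : XLat Sg.V.X Sg.F) :
    (piX fun _ : ι => L).toFam.Maps (twX (piX fun _ : κ => L) e).toFam (kl ℂ (dd s)) := by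
  rintro I ⟨i, hi⟩ φ hφ
  refine (mem_twX hi).2 (mem_piFam.2 fun b => ?_)
  rw [Pi.smul_apply, kl_apply, dd_apply, Finset.smul_sum]
  refine Submodule.sum_mem _ fun a _ => ?_
  have := L.A_smul ⟨i, hi⟩ _ (mem_OP.1 (Gm_mem (hd b) hi) a) _ (mem_piFam.1 hφ a)
  rw [mul_comm, ← smul_mul_assoc]
  exact this

theorem exact_dd (hd : ∀ b, s b ∈ Gm (RL g).toLat e) :
    Exact (twX (OX Sg.V.X) (-p)).toFam (piX fun _ : ι => OL Sg.V.T D).toFam
      (comapX (twX (piX fun _ : κ => OL Sg.V.T D) e) (LinearMap.range (dd s)).subtype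
        (Submodule.subtype_injective _)).toFam
      (kl ℂ (LinearMap.toSpanSingleton Sg.F _ g)) (kl ℂ (dd s).rangeRestrict) where
  maps := maps_of_loc fun x c hc => mem_loc_piX.2 fun a => by
    have := smul_loc (mem_loc_OX.1 (mem_loc_twX.1 hc)) (Gm_mem_loc (x := x) (hg a))
    rwa [smul_smul, smul_eq_mul (_ ^ _), mul_right_comm, ← zpow_add₀ (Sg.V.X.t_ne _),
      neg_add_cancel, zpow_zero, one_mul] at this
  maps' := dd_maps hd _
  inj := fun _ _ _ _ h => (smul_eq_zero.1 h).resolve_right (g_ne hg hle hs)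
  comp := fun _ _ c _ => Subtype.ext (by
    change dd s (c • g) = 0
    rw [map_smul, dd_g, smul_zero])
  ex := fun I hI φ hφ h => by
    obtain ⟨c, rfl⟩ := ker_dd hg hle hs (congrArg Subtype.val h)
    refine ⟨c, mem_of_loc hI fun x hx => mem_loc_twX.2 (mem_loc_OX.2 ?_), rfl⟩
    obtain ⟨a0, h0, h1, -⟩ := loc_data hg hle hs x
    have := (h1 _).1 (mem_loc_piX.1 (hx.mem_loc hI hφ) a0)
    rwa [Pi.smul_apply, smul_eq_mul, mul_inv, mul_comm c, mul_assoc, inv_mul_cancel_left₀ h0,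
      ← zpow_neg] at this
  surj := fun I hI => surj_of_loc (fun x ⟨_, φ, rfl⟩ hw => by
    obtain ⟨a0, h0, -, h1⟩ := loc_data hg hle hs x
    refine ⟨φ - ((g a0)⁻¹ * φ a0) • g, mem_loc_piX.2 fun a => ?_, Subtype.ext ?_⟩
    · obtain ⟨c, hc, h⟩ := h1 a
      rw [Pi.sub_apply, Pi.smul_apply, smul_eq_mul, h]
      exact Submodule.sum_mem _ fun b _ => smul_loc (hc b)
        (mem_loc_piX.1 (mem_loc_twX.1 (mem_loc_comapX.1 hw)) b)
    · change dd s _ = dd s φ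
      rw [map_sub, map_smul, dd_g, smul_zero, sub_zero]) hI

/-- a section of the kernel gives a linear equivalence -/
theorem lin_of_ker {D' : Sg.V.G} (hc : cL (OL Sg.V.T D').toLat = cL (OL Sg.V.T D).toLat)
    {φ : ι → Sg.F} (h1 : ∀ a, φ a ∈ Gm (OL Sg.V.T D').toLat p) (h0 : φ ≠ 0) (h : dd s φ = 0) :
    ∃ (c : Sg.F) (hc : c ≠ 0), D = D' + Sg.V.div c hc := by
  obtain ⟨c, rfl⟩ := ker_dd hg hle hs h
  have c0 : c ≠ 0 := fun h => h0 (by rw [h, zero_smul])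
  refine ⟨c, c0, eq_of_OL_eqv (eqv_of_cL (hle.trans (genX_le fun a => mem_Gm.2 fun i =>
    (Ch.mem_O_div D' c0 (sne i) _).2 ?_)) (Eventually.of_forall fun j => ?_))⟩
  · have := mem_Gm.1 (h1 a) i
    rwa [Pi.smul_apply, smul_comm, smul_eq_mul] at this
  · rw [← hc, cL_OL, cL_OL, add_right_comm, Ch.chi_div]

end Key

theorem finrank_pi {L : XLat Sg.V.X Sg.F} {p j : ℤ} (h : RegL L.toLat p) (hj : p ≤ j) (ι : Type)
    [Fintype ι] : (finrank ℂ (Gm (piX fun _ : ι => L).toLat j) : ℤ) = ∑ _ : ι, cL L.toLat j :=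
  ((RegL.pi fun _ => h).finrank_eq (by omega)).trans (cL_pi _ j)

theorem exists_gens' {V : Type} [AddCommGroup V] [Module ℂ V] [Module Sg.F V]
    [IsScalarTower ℂ Sg.F V] {M : XLat Sg.V.X V} {p : ℤ}
    (h : ∀ e, p ≤ e → Gm M.toLat (e + 1) = T1 Sg.V.X.toCoord • Gm M.toLat e) :
    ∃ (r : ℕ) (g : Fin r → V), (∀ a, g a ∈ Gm M.toLat p) ∧ M.toFam.LE (genX Sg.V.X g p).toFam :=
  ⟨_, _, fun a => (Module.finBasis ℂ (Gm M.toLat p) a).2, le_genS_of_gen h⟩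

/-- **openness of a linear equivalence class** -/
theorem key {σ ι : Type} [Fintype σ] (u : ι → (σ → ℂ) →ₗ[ℂ] Sg.F) {p : ℤ} {D : Sg.V.G}
    (hr : RegL (OL Sg.V.T D).toLat p) {y : σ → ℂ}
    (hy : Submodule.span ℂ (Set.range fun i => u i y) = Gm (OL Sg.V.T D).toLat p) :
    ∃ P : MvPolynomial σ ℂ, eval y P ≠ 0 ∧ ∀ x D', eval x P ≠ 0 → RegL (OL Sg.V.T D').toLat p →
      Submodule.span ℂ (Set.range fun i => u i x) = Gm (OL Sg.V.T D').toLat p →
      cL (OL Sg.V.T D').toLat = cL (OL Sg.V.T D).toLat →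
      ∃ (c : Sg.F) (hc : c ≠ 0), D = D' + Sg.V.div c hc := by
  classical
  obtain ⟨r0, g, hg, hle⟩ := exists_gens' (p := p) fun _ => hr.gen
  obtain ⟨e0, he⟩ := eventually_atTop.1 (ev_gen (RL g).toLat)
  let e := e0.toNat
  obtain ⟨r, s, hd, hs⟩ := exists_gens' (p := e) fun j hj => he j ((Int.self_le_toNat e0).trans hj)
  let q := (LinearMap.range (dd s)).mkQ.restrictScalars ℂ
  let v := fun c : _ × AA Sg.V.X e × ι => q ∘ₗ LinearMap.single ℂ _ c.1 ∘ₗ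
    (LinearMap.mulLeft ℂ c.2.1.1) ∘ₗ u c.2.2
  have hv : ∀ x D', RegL (OL Sg.V.T D').toLat p →
      Submodule.span ℂ (Set.range fun i => u i x) = Gm (OL Sg.V.T D').toLat p →
      Submodule.span ℂ (Set.range fun c => v c x) =
        (Gm (piX fun _ => OL Sg.V.T D').toLat (e + p)).map q := fun x D' h1 h2 => by
    refine (map_pi_span q fun c : AA Sg.V.X e × ι => c.1.1 • u c.2 x).symm.trans ?_
    rw [← smul_span_eq (AA Sg.V.X e) fun i => u i x, h2, ← gen_AA (fun _ => h1.gen) le_rfl]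
    congr 1
    exact Submodule.ext fun _ => (Submodule.mem_pi.trans (by simp)).trans Gm_pi.symm
  have : Module.Finite ℂ (Submodule.span ℂ (Set.range fun c => v c y)) :=
    hv y D hr hy ▸ inferInstance
  obtain ⟨P, h1, h2⟩ := exists_open v y
  refine ⟨P, h1, fun x D' hx hr' hx' hc => ?_⟩
  have h3 := h2 x hx (hv x D' hr' hx' ▸ inferInstance)
  rw [hv y D hr hy, hv x D' hr' hx'] at h3
  obtain ⟨φ, h4, h5, h6⟩ := exists_ker (d := (dd s).restrictScalars ℂ) (q := q)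
    (fun φ => (Submodule.Quotient.mk_eq_zero _).2 ⟨φ, rfl⟩)
    (C0 := Gm (piX fun _ => OL Sg.V.T D).toLat p) (D0 := Gm (piX fun _ => OL Sg.V.T D').toLat p)
    (Nat.cast_injective (R := ℤ) (by rw [finrank_pi hr le_rfl, finrank_pi hr' le_rfl, hc]))
    (Nat.cast_injective (R := ℤ) (by rw [finrank_pi hr (by omega), finrank_pi hr' (by omega), hc]))
    (fun φ hφ => (Gm_tw _ e p).le (map_Gm_le (dd_maps hd _) hφ)) h3
    (fun w hw h0 => by
      obtain ⟨φ, h1, h2⟩ := Gm_surj_of_exact (exact_dd hg hle hs hd) (e := p)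
        (van_tw (van_OX Sg (by omega) one_pos)) (z := ⟨w, (Submodule.Quotient.mk_eq_zero _).1 h0⟩)
        ((mem_Gm_comap (hg := Submodule.subtype_injective _)).2 ((Gm_tw _ e p).ge hw))
      exact ⟨φ, h1, congrArg Subtype.val h2⟩)
    (Gm_pi.2 hg) (g_ne hg hle hs) (dd_g s)
  exact lin_of_ker hg hle hs hc (Gm_pi.1 h4) h5 h6

theorem finite_OL (Sg : Surf) (p : ℤ) : ∃ T : Set Sg.V.G, T.Finite ∧ ∀ D,
    (OL Sg.V.T D).toFam.LE (OX Sg.V.X).toFam → RegL (OL Sg.V.T D).toLat p →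
    ∃ D' ∈ T, ∃ (c : Sg.F) (hc : c ≠ 0), D' = D + Sg.V.div c hc := by
  obtain ⟨r, u, hu⟩ := exists_param (AA Sg.V.X p)
  let Y := {D // (OL Sg.V.T D).toFam.LE (OX Sg.V.X).toFam ∧ RegL (OL Sg.V.T D).toLat p}
  choose pt hpt using fun D : Y => hu _ (Gm_mono D.2.1 p)
  choose P h1 h2 using fun D : Y => key u D.2.2 (hpt D)
  let cl : ∀ j, Y → Fin (finrank ℂ (AA Sg.V.X j) + 1) := fun j D =>
    ⟨finrank ℂ (Gm (OL Sg.V.T D.1).toLat j),
      Nat.lt_succ_of_le (Submodule.finrank_mono (Gm_mono D.2.1 j))⟩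
  obtain ⟨T, hT, h⟩ := finite_cover (fun D => (cl p D, cl (p + 1) D)) pt P h1
  refine ⟨_, hT.image Subtype.val, fun D hD hr => ?_⟩
  obtain ⟨D', h3, h4, h5⟩ := h ⟨D, hD, hr⟩
  refine ⟨D', ⟨D', h3, rfl⟩, h2 D' _ D h5 hr (hpt ⟨D, hD, hr⟩) (funext fun j => ?_)⟩
  have h6 : ∀ j, p ≤ j → cl j D' = cl j ⟨D, hD, hr⟩ →
      Sg.V.chi (D'.1 + j • Sg.V.h) = Sg.V.chi (D + j • Sg.V.h) := fun j hj e => by
    rw [← cL_OL, ← cL_OL, ← D'.2.2.finrank_eq (by omega), ← hr.finrank_eq (by omega)]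
    exact congrArg (fun z : Fin _ => ((z : ℕ) : ℤ)) e
  have h7 := h6 p le_rfl (congrArg Prod.fst h4)
  have h8 := h6 (p + 1) (by omega) (congrArg Prod.snd h4)
  rw [cL_OL, cL_OL]
  simp only [Ch.chi_tw] at h7 h8 ⊢
  have h9 : Ch.dg Sg.V D'.1 = Ch.dg Sg.V D := by linarith
  rw [h9] at h7 ⊢
  linarith

end TyFin
open Crest.Agent.R274
open Defs_781 Lat_781 SnapE_99 Gen7_750 Br Fib

/-- finitely many classes -/
theorem finite_classes' (Sg : Surf) (p : ℕ) : ∃ T : Finset Sg.V.G, ∀ (I : XL Sg Sg.F) β n,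
    Ty I β n → LeL I (OX Sg.V.X) → RegL I.toLat p →
      ∃ γ ∈ T, ∃ (f : Sg.F) (hf : f ≠ 0), γ = β + Sg.V.div f hf := by
  obtain ⟨T, hT, h⟩ := TyFin.finite_OL Sg p
  refine ⟨(hT.image Neg.neg).toFinset, fun I β n ⟨f, hf, h1, _⟩ le hr => ?_⟩
  obtain ⟨D, h2, c, hc, rfl⟩ := h _ ((h1.le_OL (le.trans (OL_zero (T := Sg.V.T)).symm.le)).trans
    (OL_zero (T := Sg.V.T)).le) (h1.regL hr)
  refine ⟨_, (Set.Finite.mem_toFinset _).2 ⟨_, h2, rfl⟩, f / c, div_ne_zero hf hc, ?_⟩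
  ext v
  simp only [Finsupp.neg_apply, Finsupp.add_apply, Ch.div_apply, (Sg.V.pl.pl v).ord_div hf hc]
  ring

end Crest.Agent.N265.M
end
end

-- ▼ part N265/M/Ty

/-! # Row 265, task M-TY (helper2): ideals of type `(β, n)`, fibrewise -/

set_option autoImplicit false
set_option linter.dupNamespace false
noncomputable section
open MvPolynomial Module TensorProduct

namespace Crest.Agent.N265.M
open Crest.Agent.R274
open Defs_781 Lat_781 SnapA_99 SnapB_99 SnapE_99 Gen7_750 Xs1_781 SkDefs_474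
open Alg GV Br N Fib _root_.Crest.Agent.N265.Pow
variable {Sg : Surf} {I J : XL Sg Sg.F} {β β' : Sg.V.G} {n n' p : ℕ} {k k' : ℤ}

/-! `pgq`, `Lin.*`, `OK.lin`, `Ty.congr ... Ty.lS_eq`, `ty_OL`, `OL_le`, `eqv_of_pair` are in `Ty0`. -/

namespace Ty
/-- **tangent bound** `dim Hom(I, O/I) ≤ h⁰(β) - 1 + 2 n` -/
theorem finrank_Tv (h : Ty I β n) (le : LeL I (OX Sg.V.X)) (_hp : 2 ≤ p)
    (hr : RegL I.toLat p) : finrank ℂ ((r1 Sg k).Tv (r1 Sg k) I I p) + 1 ≤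
      finrank ℂ ((r1 Sg k).stab (r1 Sg k) I I p) + Sg.V.hh β 0 + 2 * n :=
  h.finrank_Tv' le hr
/-- `χ(I, O/J)` -/
theorem finrank_Hb (h : Ty I β n) (h' : Ty J β' n') (le : LeL I (OX Sg.V.X))
    (le' : LeL J (OX Sg.V.X)) (hp : 2 ≤ p) (hr : RegL I.toLat p) (hr' : RegL J.toLat p) :
    ((finrank ℂ ((r1 Sg k).EG (r1 Sg k') p).V : ℤ) - finrank ℂ ((r1 Sg k).stab (r1 Sg k') I J p)) -
      (finrank ℂ ((r1 Sg k).Hb (r1 Sg k') I J p) - finrank ℂ ((r1 Sg k).den (r1 Sg k') I J p)) =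
      Sg.V.chi β - Sg.V.chi (β - β') + n' := h.finrank_Hb' h' le le' hp hr hr'
end Ty
/-- every non-zero ideal has a type -/
theorem exists_ty (_le : LeL I (OX Sg.V.X)) (h0 : ∃ e, Gm I.toLat e ≠ ⊥) :
    ∃ β n, Ty I β n := exists_ty' h0
theorem exists_of_hasSec (hs : Ch.HasSec Sg.V β) (n : ℕ) :
    ∃ I : XL Sg Sg.F, LeL I (OX Sg.V.X) ∧ Ty I β n := exists_of_hasSec' hs n
/-- finitely many classes -/
theorem finite_classes (Sg : Surf) (p : ℕ) : ∃ T : Finset Sg.V.G, ∀ (I : XL Sg Sg.F) β n,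
    Ty I β n → LeL I (OX Sg.V.X) → RegL I.toLat p → ∃ γ ∈ T, Lin Sg β γ :=
  finite_classes' Sg p

end Crest.Agent.N265.M
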