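import Crest.Agent.N265.M.TV
import Crest.Agent.N265.M.Ty
import Crest.Agent.N265.Fx.Sc
import Crest.Agent.N265.Q.Plk
import Crest.Agent.N265.Fx.Glue
import Crest.Agent.N265.M.Dic
import Crest.Agent.N265.K.PB
import Crest.Agent.N265.Top.Model
import Crest.Agent.N265.K.Wt
import Crest.Agent.N265.V.Loc
import Crest.Agent.N265.M.Ty0
import Crest.Agent.N265.Fib.H1
import Crest.Agent.N265.Fib.P5
import Crest.Agent.N265.Fib.R1
import Crest.Agent.N265.N.Dim0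

-- ▼ part N265/Fx/I0
section

/-! # Row 265, M-FIX (helper94): families of ideals, basic facts -/

set_option autoImplicit false
set_option linter.dupNamespace false
noncomputable section
open MvPolynomial Module TensorProduct

namespace Crest.Agent.N265.M
open Crest.Agent.R274
open Defs_781 Lat_781 SnapA_99 SnapB_99 SnapE_99 Gen7_750 Xs1_781 SkDefs_474
open Alg GV Br N Fib _root_.Crest.Agent.N265.Pow
variable {Sg : Surf} {X Y : Spc} {p : ℕ} {β β' : Sg.V.G} {n n' : ℕ} {k k' : ℤ}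
  {I J : Pt → XL Sg Sg.F}

namespace IFam
lemma pull (h : IFam X p β n k I) (q : Proj Y X) : IFam Y p β n k fun y => I (restr X.B y) :=
  ⟨h.fam.pull q, fun y hy => h.ty _ (q.map y hy)⟩
lemma le (h : IFam X p β n k I) {x : Pt} (hx : x ∈ X.pts) : LeL (I x) (OX Sg.V.X) :=
  fun J hJ => (h.fam.le x hx J hJ).trans (r1_O k J hJ).le
lemma finrank_pc (h : IFam X p β n k I) {x : Pt} (hx : x ∈ X.pts) :
    finrank ℂ ((r1 Sg k).pc (I x) p) = Uni.rkU Sg p β n :=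
  (h.ty x hx).finrank_pc (h.le hx) (h.fam.reg x hx)
end IFam

end Crest.Agent.N265.M
end
end

-- ▼ part N265/Fx/Hart
section

/-! # Row 265, FIX layer, task FX-HART: determinants of sequences that are exact off codimension two -/

set_option autoImplicit false
noncomputable section
open MvPolynomial TensorProduct Module

namespace Crest.Agent.N265
open Alg _root_.Crest.Agent.N265.Pow GV Bun

variable {X Z : Spc} {V W W' T : GV}

namespace Hart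
section LA
variable {E F G E' F' H : Type} [AddCommGroup E] [Module ℂ E] [AddCommGroup F] [Module ℂ F]
  [AddCommGroup G] [Module ℂ G] [AddCommGroup E'] [Module ℂ E'] [AddCommGroup F'] [Module ℂ F']
  [AddCommGroup H] [Module ℂ H]

lemma tmul_ne_zero {v : E} {w : F} (hv : v ≠ 0) (hw : w ≠ 0) : v ⊗ₜ[ℂ] w ≠ 0 := fun h => by
  obtain ⟨ℓ, hℓ⟩ := Module.Projective.exists_dual_ne_zero ℂ hv
  have := congrArg (TensorProduct.lift ((LinearMap.lsmul ℂ F).comp ℓ)) h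
  simp only [TensorProduct.lift.tmul, LinearMap.comp_apply, LinearMap.lsmul_apply, map_zero,
    smul_eq_zero] at this
  exact this.elim hℓ hw

lemma finrank_ker_add (A : Submodule ℂ E) [FiniteDimensional ℂ A] (f : E →ₗ[ℂ] F) :
    finrank ℂ (A ⊓ LinearMap.ker f : Submodule ℂ E) + finrank ℂ (A.map f) = finrank ℂ A := by
  rw [← LinearMap.finrank_range_add_finrank_ker (f.domRestrict A), LinearMap.range_domRestrict,
    add_comm, LinearMap.ker_domRestrict, ← Submodule.finrank_map_subtype_eq,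
    Submodule.map_comap_subtype]

lemma finrank_map_of_inj (A : Submodule ℂ E) [FiniteDimensional ℂ A] {f : E →ₗ[ℂ] F}
    (h : ∀ u ∈ A, f u = 0 → u = 0) : finrank ℂ (A.map f) = finrank ℂ A := by
  rw [← finrank_ker_add A f, show A ⊓ LinearMap.ker f = ⊥ from
    eq_bot_iff.2 fun u hu => h u hu.1 hu.2, finrank_bot, zero_add]

lemma eq_span_of_one {A : Submodule ℂ E} (h : finrank ℂ A = 1) {v : E} (hv : v ∈ A) (h0 : v ≠ 0) :
    A = Submodule.span ℂ {v} := by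
  have := FiniteDimensional.of_finrank_eq_succ h
  exact (Submodule.eq_of_le_of_finrank_eq ((Submodule.span_singleton_le_iff_mem _ _).2 hv)
    (by rw [finrank_span_singleton h0, h])).symm

/-- `s ↦ (v ↦ (γ ↦ v ⊗ s γ))` -/
def tl (G E F : Type) [AddCommGroup E] [Module ℂ E] [AddCommGroup F] [Module ℂ F] [AddCommGroup G]
    [Module ℂ G] : (G →ₗ[ℂ] F) →ₗ[ℂ] E →ₗ[ℂ] G →ₗ[ℂ] E ⊗[ℂ] F :=
  (LinearMap.llcomp ℂ G F (E ⊗[ℂ] F) ∘ₗ TensorProduct.mk ℂ E F).flip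
/-- `s ↦ (w ↦ (γ ↦ s γ ⊗ w))` -/
def tr (G E F : Type) [AddCommGroup E] [Module ℂ E] [AddCommGroup F] [Module ℂ F] [AddCommGroup G]
    [Module ℂ G] : (G →ₗ[ℂ] E) →ₗ[ℂ] F →ₗ[ℂ] G →ₗ[ℂ] E ⊗[ℂ] F :=
  (LinearMap.llcomp ℂ G E (E ⊗[ℂ] F) ∘ₗ (TensorProduct.mk ℂ E F).flip).flip
lemma tl_apply (s : G →ₗ[ℂ] F) (v : E) (γ : G) : tl G E F s v γ = v ⊗ₜ[ℂ] s γ := rfl
lemma tr_apply (s : G →ₗ[ℂ] E) (w : F) (γ : G) : tr G E F s w γ = s γ ⊗ₜ[ℂ] w := rfl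

lemma map_tl {g₁ : G →ₗ[ℂ] E} {g₂ : G →ₗ[ℂ] F} (r₁ : finrank ℂ (LinearMap.range g₁) = 1)
    (r₂ : finrank ℂ (LinearMap.range g₂) = 1) (h : ∀ γ, g₁ γ = 0 ↔ g₂ γ = 0) :
    (LinearMap.range g₁).map (tl G E F g₂) ≠ ⊥ ∧
      (LinearMap.range g₁).map (tl G E F g₂) = (LinearMap.range g₂).map (tr G E F g₁) := by
  obtain ⟨_, ⟨γ₀, rfl⟩, h0⟩ := (LinearMap.range g₁).ne_bot_iff.1 fun e => by
    rw [e, finrank_bot] at r₁; omega
  have h0' : g₂ γ₀ ≠ 0 := fun e => h0 ((h _).2 e)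
  have e₁ := eq_span_of_one r₁ ⟨γ₀, rfl⟩ h0
  have e : tl G E F g₂ (g₁ γ₀) = tr G E F g₁ (g₂ γ₀) := LinearMap.ext fun γ => by
    obtain ⟨c, hc⟩ := Submodule.mem_span_singleton.1 (e₁.le ⟨γ, rfl⟩)
    have : g₂ (c • γ₀ - γ) = 0 := (h _).1 (by rw [map_sub, map_smul, hc, sub_self])
    rw [map_sub, map_smul, sub_eq_zero] at this
    rw [tl_apply, tr_apply, ← this, ← hc, TensorProduct.smul_tmul]
  rw [e₁, eq_span_of_one r₂ ⟨γ₀, rfl⟩ h0', Submodule.map_span, Submodule.map_span,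
    Set.image_singleton, Set.image_singleton, e]
  refine ⟨fun e' => tmul_ne_zero h0 h0' ?_, rfl⟩
  exact LinearMap.congr_fun (Submodule.span_singleton_eq_bot.1 e') γ₀

lemma mem_tens_span {y : E} {Q : Submodule ℂ F} {t : E ⊗[ℂ] F}
    (ht : t ∈ tens (Submodule.span ℂ {y}) Q) : ∃ u ∈ Q, y ⊗ₜ[ℂ] u = t := by
  refine (tens_le (N := Q.map (TensorProduct.mk ℂ E F y))).2 (fun v hv w hw => ?_) ht
  obtain ⟨c, rfl⟩ := Submodule.mem_span_singleton.1 hv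
  exact ⟨c • w, Q.smul_mem c hw, (TensorProduct.smul_tmul c y w).symm⟩

lemma lamM_congr {k : ℕ} {f g : E →ₗ[ℂ] F} {A : Submodule ℂ E} (h : ∀ v ∈ A, f v = g v)
    {y : Pow.Lam k E} (hy : y ∈ lamS k A) : lamM k f y = lamM k g y := by
  rw [lamS_eq_range] at hy
  obtain ⟨z, rfl⟩ := hy
  have : f ∘ₗ A.subtype = g ∘ₗ A.subtype := LinearMap.ext fun v => h v v.2
  rw [← LinearMap.comp_apply, ← lamM_comp, this, lamM_comp, LinearMap.comp_apply]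

lemma wg_mem {k : ℕ} {A : Submodule ℂ E} {y : Pow.Lam k E} (hy : y ∈ lamS k A) {u : E} (hu : u ∈ A) :
    Plk.wg k y u ∈ lamS (k + 1) A := by
  rw [mem_lamS, pow_succ', Plk.wg_coe]
  exact Submodule.mul_mem_mul ⟨u, hu, rfl⟩ (mem_lamS.1 hy)

lemma map_wg [FiniteDimensional ℂ E] {r : ℕ} {P U : Submodule ℂ E} (h : P ≤ U)
    (hP : finrank ℂ P = r) (hU : finrank ℂ U = r + 1) :
    (tens (lamS r P) U).map (TensorProduct.lift (Plk.wg r)) = lamS (r + 1) U := by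
  refine le_antisymm (Submodule.map_le_iff_le_comap.2 (tens_le.2 fun y hy u hu =>
    wg_mem (lamS_mono r h hy) hu)) ?_
  obtain ⟨y, hy, h0⟩ := Plk.exists_plk hP
  obtain ⟨u, hu, hu'⟩ := SetLike.exists_of_lt (lt_of_le_of_ne h fun e => by
    rw [e] at hP; omega)
  rw [Plk.lamS_eq_span_plk hU (wg_mem (lamS_mono r h hy) hu)
    (fun e => hu' (Plk.ann_eq hP hy h0 ▸ Plk.wg_eq_zero.1 e)), Submodule.span_singleton_le_iff_mem]
  exact ⟨_, tmul_mem hy hu, rfl⟩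

/-- the two quotients of `Λ^r M ⊗ U'` have the same kernel -/
lemma ker_iff [FiniteDimensional ℂ F] [FiniteDimensional ℂ E'] {r : ℕ} {M : Submodule ℂ E}
    {U' : Submodule ℂ F'} {φ : E →ₗ[ℂ] F} {π : E →ₗ[ℂ] E'} {μ : F' →ₗ[ℂ] F} {χ : F' →ₗ[ℂ] H}
    (hφ : finrank ℂ (M.map φ) = r) (hπ : finrank ℂ (M.map π) = r)
    (hk : ∀ m ∈ M, φ m = 0 → π m = 0) (hχ : ∀ u ∈ U', μ u ∈ M.map φ ↔ χ u = 0)
    {t : Pow.Lam r E ⊗[ℂ] F'} (ht : t ∈ tens (lamS r M) U') :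
    TensorProduct.lift (Plk.wg r) (TensorProduct.map (lamM r φ) μ t) = 0 ↔
      TensorProduct.map (lamM r π) χ t = 0 := by
  obtain ⟨j, hj⟩ := exists_comp_of_ker_le (φ := φ ∘ₗ M.subtype) (ψ := π ∘ₗ M.subtype)
    fun m hm => hk m m.2 hm
  have hj' : ∀ m ∈ M, π m = (j ∘ₗ φ) m := fun m hm => (LinearMap.congr_fun hj ⟨m, hm⟩).symm
  obtain ⟨y, hy, h0⟩ := Plk.exists_plk hφ
  have e := Plk.lamS_eq_span_plk hφ hy h0
  have h1 : lamM r j y ≠ 0 := fun h => by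
    have := Plk.finrank_lamS_self hπ
    have e' : M.map π = (M.map φ).map j := by
      rw [← Submodule.map_comp]
      exact SetLike.coe_injective (Set.image_congr hj')
    rw [e', ← lamS_map, e,
      Submodule.map_span, Set.image_singleton, h, Submodule.span_zero_singleton] at this
    simp at this
  obtain ⟨u, hu, hyu⟩ := mem_tens_span (y := y) (Q := U')
    (t := TensorProduct.map (lamM r φ) LinearMap.id t)
    (tmap_mem (fun v hv => e.le (lamM_mem r (fun m hm => Submodule.mem_map_of_mem hm) hv))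
      (fun _ h => h) ht)
  have e1 : TensorProduct.map (lamM r φ) μ t = y ⊗ₜ[ℂ] μ u := by
    have := congrArg (TensorProduct.map LinearMap.id μ) hyu
    rw [← LinearMap.comp_apply, ← TensorProduct.map_comp] at this
    exact this.symm
  have e2 : TensorProduct.map (lamM r π) χ t = lamM r j y ⊗ₜ[ℂ] χ u := by
    have := congrArg (TensorProduct.map (lamM r j) χ) hyu
    rw [← LinearMap.comp_apply, ← TensorProduct.map_comp, ← lamM_comp] at this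
    refine Eq.trans ?_ this.symm
    exact tens_eqOn (U := Pow.Lam r E' ⊗[ℂ] H) (f := TensorProduct.map (lamM r π) χ)
      (g := TensorProduct.map (lamM r (j ∘ₗ φ)) (χ ∘ₗ LinearMap.id))
      (fun v hv w _ => congrArg (· ⊗ₜ[ℂ] χ w) (lamM_congr hj' hv)) ht
  rw [e1, e2, TensorProduct.lift.tmul, Plk.wg_eq_zero, Plk.ann_eq hφ hy h0, hχ u hu]
  exact ⟨fun h => by rw [h, TensorProduct.tmul_zero], fun h => by_contra fun h' =>
    tmul_ne_zero h1 h' h⟩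
end LA

/-- basis-free form of `kl_hartogs` -/
theorem kc_eq_of_map {n : ℕ} (hX : X.Sm n) (hZ : Z.Sub X) (hc : ∀ z ∈ Z.pts, Z.ldim z + 2 ≤ n)
    {L₁ : Pt → Submodule ℂ V.V} {L₂ : Pt → Submodule ℂ W.V} (h₁ : IsAB X V L₁) (h₂ : IsAB X W L₂)
    (r₁ : ∀ x ∈ X.pts, finrank ℂ (L₁ x) = 1) (r₂ : ∀ x ∈ X.pts, finrank ℂ (L₂ x) = 1)
    (hT : T.In X.B) {f₁ : Pt → V.V →ₗ[ℂ] T.V} {f₂ : Pt → W.V →ₗ[ℂ] T.V} (hf₁ : IsRM X V T f₁)
    (hf₂ : IsRM X W T f₂) (h : ∀ x ∈ X.pts, x ∉ Z.pts → (L₁ x).map (f₁ x) ≠ ⊥ ∧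
      (L₁ x).map (f₁ x) = (L₂ x).map (f₂ x)) : kc X V L₁ = kc X W L₂ := by
  obtain ⟨A, hA⟩ := h₁.exists_pres
  obtain ⟨B, hB⟩ := h₂.exists_pres
  obtain ⟨m, u, e, -, hu⟩ := hT.exists_basis
  rw [← hA.kl, ← hB.kl]
  have rA : A.Rk 1 := fun x hx => (hA.finrank hx).trans (r₁ x hx)
  have rB : B.Rk 1 := fun x hx => (hB.finrank hx).trans (r₂ x hx)
  obtain ⟨b, hb, hb'⟩ := hA
  obtain ⟨c, hc', hc''⟩ := hB
  obtain ⟨f, hf, hf'⟩ := hf₁.exists_mat b u hb hu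
  obtain ⟨g, hg, hg'⟩ := hf₂.exists_mat c u hc' hu
  refine kl_hartogs hX hZ hc rA rB e f g hf hg fun x hx hx' => ?_
  rw [hb' x hx, hc'' x hx, AB.map_transfer (hf' x hx), AB.map_transfer (hg' x hx),
    ← (h x hx hx').2]
  exact ⟨fun e => (h x hx hx').1 (Submodule.map_eq_bot_iff.1 e), rfl⟩
end Hart
open Hart

/-- Two line bundles that are quotients of one bundle `N` off codimension two, with the same kernel.
Let `ρ : G → N` be onto (`IsAB.exists_range`), `g_i = f_i ∘ ρ`.  Apply `kl_hartogs` (presentations,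
`IsRM.exists_mat`) to `L₁ → Hom(G, V ⊗ W)`, `v ↦ (γ ↦ v ⊗ g₂ γ)` and `L₂ → Hom(G, V ⊗ W)`,
`w ↦ (γ ↦ g₁ γ ⊗ w)`: off `Z` one has `g_i = ℓ(·) q_i` with the same covector `ℓ ≠ 0`. -/
theorem kc_hartogs {n : ℕ} (hX : X.Sm n) (hZ : Z.Sub X) (hc : ∀ z ∈ Z.pts, Z.ldim z + 2 ≤ n)
    {N : Pt → Submodule ℂ T.V} {L₁ : Pt → Submodule ℂ V.V} {L₂ : Pt → Submodule ℂ W.V}
    (hN : IsAB X T N) (h₁ : IsAB X V L₁) (h₂ : IsAB X W L₂)
    (r₁ : ∀ x ∈ X.pts, finrank ℂ (L₁ x) = 1) (r₂ : ∀ x ∈ X.pts, finrank ℂ (L₂ x) = 1)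
    {f₁ : Pt → T.V →ₗ[ℂ] V.V} {f₂ : Pt → T.V →ₗ[ℂ] W.V} (hf₁ : IsRM X T V f₁) (hf₂ : IsRM X T W f₂)
    (h : ∀ x ∈ X.pts, x ∉ Z.pts → (N x).map (f₁ x) = L₁ x ∧ (N x).map (f₂ x) = L₂ x ∧
      ∀ t ∈ N x, f₁ x t = 0 ↔ f₂ x t = 0) : kc X V L₁ = kc X W L₂ := by
  obtain ⟨G, ρ, hG, hρ, e⟩ := hN.exists_range
  refine kc_eq_of_map (T := G.hom (V.tens W)) hX hZ hc h₁ h₂ r₁ r₂ (hG.hom (h₁.hin.tens h₂.hin))
    (IsRM.of_bilin (isRM_iff.1 (hf₂.comp hρ)) (tl G.V V.V W.V) fun _ _ => rfl)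
    (IsRM.of_bilin (isRM_iff.1 (hf₁.comp hρ)) (tr G.V V.V W.V) fun _ _ => rfl) fun x hx hx' => ?_
  obtain ⟨e₁, e₂, e₃⟩ := h x hx hx'
  rw [← e x hx, ← LinearMap.range_comp] at e₁ e₂
  rw [← e₁, ← e₂]
  exact map_tl (e₁ ▸ r₁ x hx) (e₂ ▸ r₂ x hx) fun γ => e₃ _ (e x hx ▸ ⟨γ, rfl⟩)

/-- A sequence `0 → M/M' → U → L → 0`; the second map is defined on a copy `U' ≅ U`. -/
structure Seq (X : Spc) (V W W' T : GV) (M M' : Pt → Submodule ℂ V.V) (U : Pt → Submodule ℂ W.V)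
    (U' : Pt → Submodule ℂ W'.V) (L : Pt → Submodule ℂ T.V) (φ : Pt → V.V →ₗ[ℂ] W.V)
    (μ : Pt → W'.V →ₗ[ℂ] W.V) (χ : Pt → W'.V →ₗ[ℂ] T.V) (r : ℕ) : Prop where
  hM : IsAB X V M
  hM' : IsAB X V M'
  hU : IsAB X W U
  hU' : IsAB X W' U'
  hL : IsAB X T L
  hφ : IsRM X V W φ
  hμ : IsRM X W' W μ
  hχ : IsRM X W' T χ
  le : ∀ x ∈ X.pts, M' x ≤ M x
  rM : ∀ x ∈ X.pts, finrank ℂ (M x) = finrank ℂ (M' x) + r
  rU : ∀ x ∈ X.pts, finrank ℂ (U x) = r + 1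
  rL : ∀ x ∈ X.pts, finrank ℂ (L x) = 1
  kill : ∀ x ∈ X.pts, ∀ m ∈ M' x, φ x m = 0
  into : ∀ x ∈ X.pts, ∀ m ∈ M x, φ x m ∈ U x
  inj : ∀ x ∈ X.pts, ∀ u ∈ U' x, μ x u = 0 → u = 0
  onto : ∀ x ∈ X.pts, (U' x).map (μ x) = U x
  val : ∀ x ∈ X.pts, ∀ u ∈ U' x, χ x u ∈ L x

namespace Seq
variable {M M' : Pt → Submodule ℂ V.V} {U : Pt → Submodule ℂ W.V} {U' : Pt → Submodule ℂ W'.V}
  {L : Pt → Submodule ℂ T.V} {φ : Pt → V.V →ₗ[ℂ] W.V} {μ : Pt → W'.V →ₗ[ℂ] W.V}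
  {χ : Pt → W'.V →ₗ[ℂ] T.V} {r : ℕ}

/-- count dimensions: `μ (U' ⊓ ker χ) ≤ φ M`, the left side has dimension `r`, the right side `≤ r` -/
theorem exact (h : Seq X V W W' T M M' U U' L φ μ χ r) {x : Pt} (hx : x ∈ X.pts)
    (h0 : ∃ u ∈ U' x, χ x u ≠ 0) (h1 : ∀ u ∈ U' x, χ x u = 0 → μ x u ∈ (M x).map (φ x)) :
    M x ⊓ LinearMap.ker (φ x) = M' x ∧ finrank ℂ ((M x).map (φ x)) = r ∧
      (U' x ⊓ LinearMap.ker (χ x)).map (μ x) = (M x).map (φ x) ∧ (U' x).map (χ x) = L x := by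
  obtain ⟨u, hu, h0⟩ := h0
  have e4 : (U' x).map (χ x) = L x := le_antisymm (Submodule.map_le_iff_le_comap.2 (h.val x hx))
    (by rw [eq_span_of_one (h.rL x hx) (h.val x hx u hu) h0, Submodule.span_singleton_le_iff_mem]
        exact ⟨u, hu, rfl⟩)
  have d1 := finrank_map_of_inj (U' x) (h.inj x hx)
  have d2 := finrank_ker_add (U' x) (χ x)
  have d3 := finrank_map_of_inj (U' x ⊓ LinearMap.ker (χ x)) fun u hu => h.inj x hx u hu.1
  have d4 := finrank_ker_add (M x) (φ x)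
  have l1 : (U' x ⊓ LinearMap.ker (χ x)).map (μ x) ≤ (M x).map (φ x) :=
    Submodule.map_le_iff_le_comap.2 fun u hu => h1 u hu.1 hu.2
  have l2 : M' x ≤ M x ⊓ LinearMap.ker (φ x) := le_inf (h.le x hx) (h.kill x hx)
  have d5 := Submodule.finrank_mono l1
  have d6 := Submodule.finrank_mono l2
  rw [h.onto x hx, h.rU x hx] at d1
  rw [e4, h.rL x hx] at d2
  rw [h.rM x hx] at d4
  exact ⟨(Submodule.eq_of_le_of_finrank_eq l2 (by omega)).symm, by omega,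
    Submodule.eq_of_le_of_finrank_eq l1 (by omega), e4⟩

/-- exact everywhere (`kc_map`, `kc_iso`) -/
theorem kc_eq (h : Seq X V W W' T M M' U U' L φ μ χ r)
    (he : ∀ x ∈ X.pts, (∃ u ∈ U' x, χ x u ≠ 0) ∧
      ∀ u ∈ U' x, χ x u = 0 → μ x u ∈ (M x).map (φ x)) :
    kc X W U = kc X T L + (kc X V M - kc X V M') := by
  have ex := fun x hx => h.exact hx (he x hx).1 (he x hx).2
  have hm := h.hL.congr fun x hx => (ex x hx).2.2.2.symm
  have hP := h.hM.map_of_rk h.hU.hin h.hφ fun x hx => (ex x hx).2.1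
  rw [← kc_iso h.hU' h.hU h.hμ fun x hx =>
      ⟨eq_bot_iff.2 fun u hu => h.inj x hx u hu.1 hu.2, h.onto x hx⟩,
    kc_map h.hU' h.hχ hm, kc_map h.hM h.hφ hP, kc_congr fun x hx => (ex x hx).2.2.2,
    kc_congr fun x hx => (ex x hx).1, kc_iso (h.hU'.ker_of_map h.hχ hm) hP h.hμ fun x hx =>
      ⟨eq_bot_iff.2 fun u hu => h.inj x hx u hu.1.1 hu.2, (ex x hx).2.2.1⟩]
  ring

/-- Exact off codimension two. Take `π` from `IsAB.exists_sq` (`ker π = M'`), `B` presenting `π M`,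
and apply `kc_hartogs` to `N = Λ^r M ⊗ U'`, `f₁ = wg ∘ (Λ^r φ ⊗ μ)` onto `Λ^(r+1) U`,
`f₂ = Λ^r π ⊗ χ` onto `Λ^r (π M) ⊗ L`. Off `Z` there is `j` with `j ∘ φ = π` on `M`, and
`(Λ^r φ ⊗ 1) t = y ⊗ u` for a Plücker vector `y` of `φ M` (`Plk.lamS_eq_span_plk`, `Plk.ann_eq`,
`Plk.wg_eq_zero`); `Pres.kl_det`, `kc_tens`. -/
theorem det (h : Seq X V W W' T M M' U U' L φ μ χ r) {n : ℕ} (hX : X.Sm n) (hZ : Z.Sub X)
    (hc : ∀ z ∈ Z.pts, Z.ldim z + 2 ≤ n)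
    (he : ∀ x ∈ X.pts, x ∉ Z.pts → (∃ u ∈ U' x, χ x u ≠ 0) ∧
      ∀ u ∈ U' x, χ x u = 0 → μ x u ∈ (M x).map (φ x)) :
    ∃ (A B : Bun X) (hA : A.Rk (r + 1)) (hB : B.Rk r), A.kl = kc X W U ∧
      B.kl = kc X V M - kc X V M' ∧ (A.det _ hA).kl = kc X T L * (B.det _ hB).kl := by
  obtain ⟨W₀, π, hπ, hP, hk, hkc⟩ := h.hM.exists_sq h.hM' h.le
  obtain ⟨A, hA⟩ := h.hU.exists_pres
  obtain ⟨B, hB⟩ := hP.exists_pres
  have rP : ∀ x ∈ X.pts, finrank ℂ ((M x).map (π x)) = r := fun x hx => by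
    have := finrank_ker_add (M x) (π x)
    rw [hk x hx, inf_eq_right.2 (h.le x hx), h.rM x hx] at this
    omega
  have rA : A.Rk (r + 1) := fun x hx => (hA.finrank hx).trans (h.rU x hx)
  have rB : B.Rk r := fun x hx => (hB.finrank hx).trans (rP x hx)
  refine ⟨A, B, rA, rB, hA.kl, hB.kl.trans hkc, ?_⟩
  rw [hA.kl_det, hB.kl_det, mul_comm, ← kc_tens (hP.lamS r) h.hL]
  have hw : Deg0 ((lam r W).tens W) (lam (r + 1) W) (TensorProduct.lift (Plk.wg r)) := fun t => by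
    induction t using TensorProduct.induction_on with
    | zero => simp only [map_zero]
    | tmul y w => exact Plk.wg_lamM r W.g.toLinearMap y w
    | add a b ha hb => simp only [map_add, ha, hb]
  refine kc_hartogs hX hZ hc ((h.hM.lamS r).tens h.hU') (h.hU.lamS _) ((hP.lamS r).tens h.hL)
    (fun x hx => Plk.finrank_lamS_self (h.rU x hx))
    (fun x hx => by rw [finrank_tens, Plk.finrank_lamS_self (rP x hx), h.rL x hx])
    ((IsRM.const hw).comp ((h.hφ.lamM r).tensor h.hμ)) ((hπ.lamM r).tensor h.hχ) fun x hx hx' => ?_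
  obtain ⟨e1, e2, e3, e4⟩ := h.exact hx (he x hx hx').1 (he x hx hx').2
  refine ⟨?_, ?_, fun t ht => ker_iff e2 (rP x hx) (fun m hm h0 => ?_) (fun u hu => ?_) ht⟩
  · rw [Submodule.map_comp, tens_map, lamS_map, h.onto x hx]
    exact map_wg (Submodule.map_le_iff_le_comap.2 (h.into x hx)) e2 (h.rU x hx)
  · rw [tens_map, lamS_map, e4]
  · exact (hk x hx).ge (e1.le ⟨hm, h0⟩)
  · refine ⟨fun hm => ?_, (he x hx hx').2 u hu⟩
    obtain ⟨u', hu', e⟩ := e3.ge hm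
    have := h.inj x hx _ (sub_mem hu hu'.1) (by rw [map_sub, e, sub_self])
    rw [sub_eq_zero.1 this]
    exact hu'.2
end Seq

end Crest.Agent.N265
end
end

-- ▼ part N265/Fx/Lam
section

/-!
# Row 265, M-FIX, task FX-LAM: the determinant line `l` and its dual

`U = pc I p`, `Q = Γ(O(-β)(p))`, `s` the equation of the divisorial part.  `HL` = maps `W → Q` whose
restriction to `U` is a multiplication, i.e. a constant multiple of `s⁻¹`; `H0` = maps that kill `U`.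
-/

set_option autoImplicit false
set_option linter.dupNamespace false
noncomputable section
open MvPolynomial Module TensorProduct

namespace Crest.Agent.N265.M
open Crest.Agent.R274
open Defs_781 Lat_781 SnapA_99 SnapB_99 SnapE_99 Gen7_750 Xs1_781 SkDefs_474
open Alg GV Br N Fib _root_.Crest.Agent.N265.Pow

variable {Sg : Surf} {X : Spc} {p : ℕ} {β β' : Sg.V.G} {n n' : ℕ} {k k' : ℤ}

/-- `Q t^k` -/
abbrev QG (Sg : Surf) (β : Sg.V.G) (p : ℕ) (k : ℤ) : GV := (triv (QS Sg β p)).shift (k • eT)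
/-- `Hom(W, Q)` -/
abbrev LH (Sg : Surf) (β : Sg.V.G) (p : ℕ) (k : ℤ) : GV := ((r1 Sg k).G p).hom (QG Sg β p k)
/-- maps that are multiplications on `U` -/
def HL (β : Sg.V.G) (p : ℕ) (k : ℤ) (I : XL Sg Sg.F) : Submodule ℂ (LH Sg β p k).V where
  carrier := {θ | ∀ u ∈ (r1 Sg k).pc I p, ∀ u' ∈ (r1 Sg k).pc I p,
    (θ u).1 * (r1 Sg k).inc p u' = (θ u').1 * (r1 Sg k).inc p u}
  add_mem' := fun h h' u hu u' hu' => by
    simp only [LinearMap.add_apply, Submodule.coe_add, add_mul, h u hu u' hu', h' u hu u' hu']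
  zero_mem' := fun u _ u' _ => by simp
  smul_mem' := fun c _ h u hu u' hu' => by
    simp only [LinearMap.smul_apply, Submodule.coe_smul, smul_mul_assoc, h u hu u' hu']
/-- maps that kill `U` -/
def H0 (β : Sg.V.G) (p : ℕ) (k : ℤ) (I : XL Sg Sg.F) : Submodule ℂ (LH Sg β p k).V :=
  homMap ((r1 Sg k).pc I p) ⊥

namespace FxL
variable {I J : XL Sg Sg.F}
lemma mem_HL' {θ : (LH Sg β p k).V} : θ ∈ HL β p k I ↔ ∀ u ∈ (r1 Sg k).pc I p,
    ∀ u' ∈ (r1 Sg k).pc I p, (θ u).1 * (r1 Sg k).inc p u' = (θ u').1 * (r1 Sg k).inc p u := Iff.rfl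
lemma mem_H0 {θ : (LH Sg β p k).V} : θ ∈ H0 β p k I ↔ ∀ u ∈ (r1 Sg k).pc I p, θ u = 0 := Iff.rfl
lemma HL_congr (e : (r1 Sg k).pc I p = (r1 Sg k).pc J p) : HL β p k I = HL β p k J :=
  Submodule.ext fun θ => by rw [mem_HL', mem_HL', e]
lemma le_O (le : LeL I (OX Sg.V.X)) (k : ℤ) : LeL I (r1 Sg k).O :=
  Fam.LE.trans le (r1_O k).symm.le
lemma mem_Gm_div {D : Sg.V.G} {f : Sg.F} (hf : f ≠ 0) {e : ℤ} {x : Sg.F} :
    x ∈ Gm (OL Sg.V.T (D + Sg.V.div f hf)).toLat e ↔ f * x ∈ Gm (OL Sg.V.T D).toLat e := by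
  rw [mem_Gm, mem_Gm]
  refine forall_congr' fun i => ?_
  refine (Ch.mem_O_div D hf (Finset.singleton_nonempty i) _).trans ?_
  rw [smul_eq_mul, smul_eq_mul, mul_left_comm]; rfl
lemma mem_QS {s : Sg.F} (hs : s ≠ 0) {x : Sg.F} :
    x ∈ QS Sg β p ↔ s * x ∈ Gm (OL Sg.V.T (-(β + Sg.V.div s hs))).toLat p := by
  rw [← mem_Gm_div hs, neg_add, neg_add_cancel_right]
/-- **Hartogs**: a multiplier of `U` into the hull is constant -/
lemma const_of_mul {D : Sg.V.G} (h : FC I (OL Sg.V.T D)) (le : LeL I (OX Sg.V.X))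
    (hr : RegL I.toLat p) {c : Sg.F}
    (hc : ∀ u ∈ (r1 Sg k).pc I p, c * (r1 Sg k).inc p u ∈ Gm (OL Sg.V.T D).toLat p) :
    ∃ a : ℂ, algebraMap ℂ Sg.F a = c := by
  by_cases h0 : c = 0
  · exact ⟨0, by rw [h0, map_zero]⟩
  have h1 := le_of_FC h (Amb.le_of_pc (𝔞 := r1 Sg k) (L₁ := OL Sg.V.T (D + Sg.V.div c h0))
    (le_O le k) hr le_rfl fun u hu => Amb.mem_pc.2 ((mem_Gm_div h0).2 (hc u hu)))
  refine Ch.const_of_sec (V := Sg.V) (Ch.sec_zero_iff.2 fun v => (Sg.V.pl.pl v).mem_O_of ?_)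
  have := h1 v
  rw [Finsupp.add_apply, Ch.div_apply] at this
  omega
lemma exists_ne (h : Ty I β n) (le : LeL I (OX Sg.V.X)) (hr : RegL I.toLat p) (k : ℤ) :
    ∃ u ∈ (r1 Sg k).pc I p, u ≠ 0 := by
  refine (Submodule.ne_bot_iff _).1 fun e => ?_
  have h1 := h.rkU_pos le hr
  rw [← h.finrank_pc (k := k) le hr, e, finrank_bot] at h1
  omega
lemma mul_mem_SA (a : SB Sg β) (q : QS Sg β p) : a.1 * q.1 ∈ SA Sg p := by
  have h1 := Chg1_750.sec_mul a.2 ((Gm_OL Sg.V (-β) p).le q.2)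
  rwa [add_neg_cancel_left, natCast_zsmul] at h1
/-- `a ⊗ q ↦ a q` -/
def mQ (β : Sg.V.G) (p : ℕ) (k : ℤ) : SB Sg β →ₗ[ℂ] QS Sg β p →ₗ[ℂ] ((r1 Sg k).G p).V :=
  LinearMap.mk₂ ℂ (fun a q _ => ⟨a.1 * q.1, mul_mem_SA a q⟩)
    (fun _ _ _ => _root_.funext fun _ => Subtype.ext (add_mul _ _ _))
    (fun _ _ _ => _root_.funext fun _ => Subtype.ext (smul_mul_assoc _ _ _))
    (fun _ _ _ => _root_.funext fun _ => Subtype.ext (mul_add _ _ _))
    fun _ _ _ => _root_.funext fun _ => Subtype.ext (mul_smul_comm _ _ _)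
/-- `θ ↦ (u ⊗ u' ↦ θ u u' - u θ u')` -/
def fL (β : Sg.V.G) (p : ℕ) (k : ℤ) :
    (LH Sg β p k).V →ₗ[ℂ] ((r1 Sg k).G p).V ⊗[ℂ] ((r1 Sg k).G p).V →ₗ[ℂ] Sg.F where
  toFun θ :=
    LinearMap.mul' ℂ Sg.F ∘ₗ TensorProduct.map ((QS Sg β p).subtype ∘ₗ θ) ((r1 Sg k).inc p) -
      LinearMap.mul' ℂ Sg.F ∘ₗ TensorProduct.map ((r1 Sg k).inc p) ((QS Sg β p).subtype ∘ₗ θ)
  map_add' θ θ' := by
    rw [LinearMap.comp_add, TensorProduct.map_add_left, TensorProduct.map_add_right,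
      LinearMap.comp_add, LinearMap.comp_add, add_sub_add_comm]
  map_smul' c θ := by
    rw [LinearMap.comp_smul, TensorProduct.map_smul_left, TensorProduct.map_smul_right,
      LinearMap.comp_smul, LinearMap.comp_smul, RingHom.id_apply]
    exact (smul_sub c _ _).symm
lemma fL_tmul (θ : (LH Sg β p k).V) (u u' : ((r1 Sg k).G p).V) : fL β p k θ (u ⊗ₜ u') =
    (θ u).1 * (r1 Sg k).inc p u' - (θ u').1 * (r1 Sg k).inc p u := by
  rw [mul_comm (θ u').1]; rfl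
lemma HL_eq : HL β p k I = killer (fL β p k) (tens ((r1 Sg k).pc I p) ((r1 Sg k).pc I p)) :=
  Submodule.ext fun θ => ⟨fun h => (tens_le (N := LinearMap.ker (fL β p k θ))).2 fun u hu u' hu' =>
      (fL_tmul θ u u').trans (sub_eq_zero.2 (h u hu u' hu')),
    fun h u hu u' hu' => sub_eq_zero.1 ((fL_tmul θ u u').symm.trans (h _ (tmul_mem hu hu')))⟩
lemma sc_LH : (LH Sg β p k).Sc (k • eT - k • eT) := (TV0.sc_G k p).hom (sc_shift _ _)
lemma kT (B : Finset ℕ) (k : ℤ) : k • eT ∈ DS B := zsmul_mem (eT_mem B) k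
end FxL
open FxL

section fib
variable {I : XL Sg Sg.F}
lemma H0_le_HL : H0 β p k I ≤ HL β p k I := fun θ h u hu u' hu' => by
  rw [mem_H0.1 h u hu, mem_H0.1 h u' hu', Submodule.coe_zero, zero_mul, zero_mul]
/-- the equation (`eff_of_FC`, `mem_SB_iff`, `lS_eq_span`) -/
lemma Ty.exists_eqn (h : Ty I β n) (le : LeL I (OX Sg.V.X)) : ∃ (s : SB Sg β) (hs : s.1 ≠ 0),
    FC I (OL Sg.V.T (-(β + Sg.V.div s.1 hs))) ∧ lS β I = Submodule.span ℂ {s} := by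
  obtain ⟨f, hf, h1, -⟩ := h
  exact ⟨⟨f, (mem_SB_iff hf).2 (eff_of_FC h1 le)⟩, hf, h1, lS_eq_span h1⟩
variable {s : Sg.F} {hs : s ≠ 0}
/-- `s⁻¹ U ≤ Q`; extend to `W` -/
lemma exists_HL (h : FC I (OL Sg.V.T (-(β + Sg.V.div s hs)))) : ∃ θ ∈ HL β p k I,
    ∀ u ∈ (r1 Sg k).pc I p, (θ u).1 = s⁻¹ * (r1 Sg k).inc p u := by
  obtain ⟨θ, hθ⟩ := LinearMap.exists_extend (p := (r1 Sg k).pc I p)
    (LinearMap.codRestrict (QS Sg β p)
      (LinearMap.mulLeft ℂ s⁻¹ ∘ₗ (r1 Sg k).inc p ∘ₗ ((r1 Sg k).pc I p).subtype) fun u =>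
        (mem_QS hs).2 (by
          change s * (s⁻¹ * (r1 Sg k).inc p u.1) ∈ _
          rw [mul_inv_cancel_left₀ hs]
          exact Gm_mono h.le _ u.2))
  have e : ∀ u ∈ (r1 Sg k).pc I p, (θ u).1 = s⁻¹ * (r1 Sg k).inc p u := fun u hu =>
    congrArg Subtype.val (LinearMap.congr_fun hθ ⟨u, hu⟩)
  exact ⟨θ, fun u hu u' hu' => by rw [e u hu, e u' hu']; ring, e⟩
/-- `θ = c ·` on `U ≠ 0` with `c ∈ F`; `c U ≤ Q` and regularity give `c I ≤ OL (-β)`, Hartogs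
(`FC.maps_of_s2`) gives `c s ∈ H⁰(O) = ℂ` -/
lemma mem_HL (h : FC I (OL Sg.V.T (-(β + Sg.V.div s hs)))) (le : LeL I (OX Sg.V.X))
    (hr : RegL I.toLat p) {θ : (LH Sg β p k).V} : θ ∈ HL β p k I ↔
      ∃ c : ℂ, ∀ u ∈ (r1 Sg k).pc I p, (θ u).1 = c • (s⁻¹ * (r1 Sg k).inc p u) := by
  refine ⟨fun hθ => ?_, fun ⟨c, e⟩ u hu u' hu' => by
    rw [e u hu, e u' hu', smul_mul_assoc, smul_mul_assoc, mul_right_comm]⟩
  by_cases h0 : ∃ u₀ ∈ (r1 Sg k).pc I p, (r1 Sg k).inc p u₀ ≠ 0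
  · obtain ⟨u₀, hu₀, h0⟩ := h0
    have e : ∀ u ∈ (r1 Sg k).pc I p,
        (θ u).1 = (θ u₀).1 / (r1 Sg k).inc p u₀ * (r1 Sg k).inc p u := fun u hu => by
      rw [div_mul_eq_mul_div, eq_div_iff h0]; exact hθ u hu u₀ hu₀
    obtain ⟨a, ha⟩ := const_of_mul (k := k) h le hr (c := s * ((θ u₀).1 / (r1 Sg k).inc p u₀))
      fun u hu => by rw [mul_assoc, ← e u hu]; exact (mem_QS hs).1 (θ u).2
    refine ⟨a, fun u hu => ?_⟩
    rw [Algebra.smul_def, ha, e u hu, mul_mul_mul_comm, mul_inv_cancel₀ hs, one_mul]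
  · refine ⟨0, fun u hu => ?_⟩
    have h1 : u = 0 := (r1 Sg k).inc_inj p (by
      rw [map_zero]; by_contra e; exact h0 ⟨u, hu, e⟩)
    rw [h1, map_zero, zero_smul, Submodule.coe_zero]
lemma Ty.finrank_HL (h : Ty I β n) (le : LeL I (OX Sg.V.X)) (hr : RegL I.toLat p) :
    finrank ℂ (HL β p k I) = finrank ℂ (H0 β p k I) + 1 := by
  obtain ⟨s, hs, h1, -⟩ := h.exists_eqn le
  obtain ⟨θ, hθ, e⟩ := exists_HL (p := p) (k := k) h1
  obtain ⟨u, hu, h0⟩ := exists_ne h le hr k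
  have h2 : θ ∉ H0 β p k I := fun h2 => h0 ((r1 Sg k).inc_inj p (by
    have := e u hu
    rw [mem_H0.1 h2 u hu, Submodule.coe_zero, zero_eq_mul] at this
    rw [map_zero, this.resolve_left (inv_ne_zero hs)]))
  rw [← Submodule.finrank_sup_span_singleton h2]
  refine congrArg (fun N : Submodule ℂ (LH Sg β p k).V => finrank ℂ N) (le_antisymm (fun η hη => ?_)
    (sup_le H0_le_HL ((Submodule.span_singleton_le_iff_mem _ _).2 hθ)))
  obtain ⟨c, hc⟩ := (mem_HL h1 le hr).1 hη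
  refine Submodule.mem_sup.2 ⟨η - c • θ, fun v hv => Subtype.ext ?_, c • θ,
    Submodule.smul_mem _ _ (Submodule.mem_span_singleton_self _), sub_add_cancel _ _⟩
  change (η v).1 - c • (θ v).1 = 0
  rw [hc v hv, e v hv, sub_self]
/-- `a s⁻¹ U ≤ U` forces `a s⁻¹ ∈ ℂ` (as above) -/
lemma Ty.mem_lS (h : Ty I β n) (le : LeL I (OX Sg.V.X)) (hr : RegL I.toLat p) {a : SB Sg β} :
    a ∈ lS β I ↔ ∀ θ ∈ HL β p k I, ∀ u ∈ (r1 Sg k).pc I p, a.1 * (θ u).1 ∈ Gm I.toLat p := by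
  obtain ⟨s, hs, h1, h2⟩ := h.exists_eqn le
  rw [h2, Submodule.mem_span_singleton]
  refine ⟨?_, fun H => ?_⟩
  · rintro ⟨c, rfl⟩ θ hθ u hu
    obtain ⟨c', hc⟩ := (mem_HL h1 le hr).1 hθ
    rw [hc u hu, Submodule.coe_smul, smul_mul_assoc, mul_smul_comm, mul_inv_cancel_left₀ hs]
    exact Submodule.smul_mem _ _ (Submodule.smul_mem _ _ hu)
  · obtain ⟨θ, hθ, e⟩ := exists_HL (p := p) (k := k) h1
    obtain ⟨c, hc⟩ := const_of_mul (k := k) h1 le hr (c := a.1 * s.1⁻¹) fun u hu => by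
      rw [mul_assoc, ← e u hu]; exact Gm_mono h1.le _ (H θ hθ u hu)
    refine ⟨c, Subtype.ext ?_⟩
    rw [Submodule.coe_smul, Algebra.smul_def, hc, inv_mul_cancel_right₀ hs]
end fib

namespace IFam
variable {I J : Pt → XL Sg Sg.F}
/-- `IsAB.homMap` -/
theorem isAB_H0 (h : IFam X p β n k I) : IsAB X (LH Sg β p k) fun x => H0 β p k (I x) :=
  (h.fam.ab p le_rfl).homMap (IsAB.bot ((sc_shift _ _).in_ (kT _ k)))
lemma pc_gpt (h : IFam X p β n k I) {x : Pt} (hx : x ∈ X.pts) :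
    (r1 Sg k).pc (I (gpt x)) p = (r1 Sg k).pc (I x) p :=
  (TV0.sc_G k p).eqv_iff.1 (h.fam.ab p le_rfl).eqv' x hx
/-- `HL = killer f (tens U U)`, `GenA.killer`, constant rank (`finrank_HL`), `Sc.isAB` /
`isAB_of_cog` -/
theorem isAB_HL (h : IFam X p β n k I) : IsAB X (LH Sg β p k) fun x => HL β p k (I x) := by
  have hU := (h.fam.ab p le_rfl).gen
  refine sc_LH.isAB (sub_mem (kT _ k) (kT _ k))
    ((((hU.tens hU).killer (fL β p k)).congr fun x _ => HL_eq.symm).alg_of_usc fun x hx => ?_)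
    fun x hx => HL_congr (h.pc_gpt hx)
  obtain ⟨r, h1, h2⟩ := h.isAB_H0.lc x hx
  refine ⟨r, h1, fun y hy h0 => ?_⟩
  have h3 : finrank ℂ (H0 β p k (I y)) = finrank ℂ (H0 β p k (I x)) := h2 y hy h0
  change -(finrank ℂ (HL β p k (I y)) : ℤ) ≤ -(finrank ℂ (HL β p k (I x)) : ℤ)
  rw [(h.ty x hx).finrank_HL (h.le hx) (h.fam.reg x hx),
    (h.ty y hy).finrank_HL (h.le hy) (h.fam.reg y hy), h3]
/-- `lS = comap (a ↦ (θ ⊗ u ↦ a θ u)) (homMap (tens HL U) U)` (`mem_lS`; `a q ∈ A_p` for `a ∈ SB β`,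
`q ∈ Q`): `CogA` of constant rank one -/
theorem isAB_lS' (h : IFam X p β n k I) : IsAB X (LG Sg β k) fun x => lS β (I x) := by
  have hU := h.fam.ab p le_rfl
  have e : ∀ x ∈ X.pts, (homMap (tens (HL β p k (I x)) ((r1 Sg k).pc (I x) p))
      ((r1 Sg k).pc (I x) p)).comap (LinearMap.lcomp ℂ _ (TensorProduct.lift LinearMap.id) ∘ₗ
        mQ β p k) = lS β (I x) := fun x hx => Submodule.ext fun a => by
    rw [(h.ty x hx).mem_lS (k := k) (h.le hx) (h.fam.reg x hx)]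
    refine ⟨fun H θ hθ u hu => H _ (tmul_mem hθ hu), fun H => mem_homMap'.2 ?_⟩
    rw [Submodule.map_le_iff_le_comap, tens_le]
    exact fun θ hθ u hu => H θ hθ u hu
  refine (sc_shift _ _).isAB (kT _ k)
    (((((h.isAB_HL.tens hU).homMap hU).cog.comap (φ := fun _ => _) (RegM.const _)).congr
      e).alg_of_rk fun x hx => (h.ty x hx).finrank_lS (h.le hx)) fun x hx => ?_
  rw [← e _ (X.inv x hx), ← e x hx, HL_congr (h.pc_gpt hx), h.pc_gpt hx]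
/-- `a ⊗ θ ↦ a θ` identifies `tens l HL / tens l H0` with `(span id ⊔ K) / K`, `K = homMap U ⊥` in
`(W.hom W).shift (k • eT)` (`kq_iso`), whose class is `t^k` -/
theorem lcl_mul (h : IFam X p β n k I) : lcl X β k I *
    (kc X (LH Sg β p k) (fun x => HL β p k (I x)) - kc X (LH Sg β p k) fun x => H0 β p k (I x)) =
      Top.tK X k := by
  have hU := h.fam.ab p le_rfl
  let W := (r1 Sg k).G p
  let T : GV := (W.hom W).shift (k • eT)
  have sT : T.Sc (k • eT) := (((TV0.sc_G k p).hom (TV0.sc_G k p)).shift _).of_eq (by abel)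
  have hK : IsAB X T fun x => homMap ((r1 Sg k).pc (I x) p) ⊥ :=
    (hU.homMap (IsAB.bot hU.hin)).shift (kT _ k)
  let ψ : ((LG Sg β k).tens (LH Sg β p k)).V →ₗ[ℂ] T.V :=
    TensorProduct.lift (LinearMap.llcomp ℂ W.V _ W.V ∘ₗ mQ β p k)
  have hψ : IsRM X ((LG Sg β k).tens (LH Sg β p k)) T fun _ => ψ :=
    (((sc_shift _ _).tens sc_LH).of_eq (by abel)).isRM sT ψ
  have eψ : ∀ a θ u, (r1 Sg k).inc p (ψ (a ⊗ₜ θ) u) = a.1 * (θ u).1 := fun _ _ _ => rfl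
  let ι : (line (k • eT)).V →ₗ[ℂ] T.V := LinearMap.toSpanSingleton ℂ _ LinearMap.id
  have hL := h.isAB_lS'.tens h.isAB_HL
  have hL' := h.isAB_lS'.tens h.isAB_H0
  have inj : ∀ x ∈ X.pts, tens (lS β (I x)) (HL β p k (I x)) ⊓
      (homMap ((r1 Sg k).pc (I x) p) ⊥).comap ψ = tens (lS β (I x)) (H0 β p k (I x)) := fun x hx => by
    obtain ⟨s, hs, -, h2⟩ := (h.ty x hx).exists_eqn (h.le hx)
    refine le_antisymm (fun t ht => ?_) (le_inf (tens_mono le_rfl H0_le_HL)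
      (tens_le.2 fun a _ θ hθ u hu => (r1 Sg k).inc_inj p ?_))
    · obtain ⟨θ, -, rfl⟩ := Hart.mem_tens_span (h2 ▸ ht.1)
      refine tmul_mem (h2 ▸ Submodule.mem_span_singleton_self s) fun u hu => Subtype.ext ?_
      have h3 := eψ s θ u
      rw [show ψ (s ⊗ₜ θ) u = 0 from ht.2 u hu, map_zero, zero_eq_mul] at h3
      exact h3.resolve_left hs
    · rw [eψ, mem_H0.1 hθ u hu, Submodule.coe_zero, mul_zero, map_zero]
  have hM := hL.map_sup_of_inj hL' hK hψ inj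
  have e₁ := kq_iso hL hL' hM hK hψ fun x hx => ⟨inj x hx, rfl⟩
  have e₂ := kq_iso (IsAB.top (in_line (kT _ k))) (IsAB.bot (in_line (kT _ k))) hM hK
    ((sc_shift _ _).isRM sT ι) fun x hx => by
      obtain ⟨s, hs, h1, h2⟩ := (h.ty x hx).exists_eqn (h.le hx)
      have key : ∀ (θ : (LH Sg β p k).V) (c : ℂ), (∀ u ∈ (r1 Sg k).pc (I x) p,
          (θ u).1 = c • (s.1⁻¹ * (r1 Sg k).inc p u)) →
          ψ (s ⊗ₜ θ) - ι c ∈ homMap ((r1 Sg k).pc (I x) p) ⊥ := fun θ c hc u hu =>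
        (r1 Sg k).inc_inj p (by
          change (r1 Sg k).inc p (ψ (s ⊗ₜ θ) u - c • u) = _
          rw [map_sub, eψ, hc u hu, mul_smul_comm, mul_inv_cancel_left₀ hs, map_smul, sub_self,
            map_zero])
      refine ⟨eq_bot_iff.2 fun c hc => ?_, le_antisymm (sup_le ?_ le_sup_right)
        (sup_le ?_ le_sup_right)⟩
      · obtain ⟨u, hu, h0⟩ := exists_ne (h.ty x hx) (h.le hx) (h.fam.reg x hx) k
        exact (smul_eq_zero.1 (show c • u = 0 from hc.2 u hu)).resolve_right h0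
      · rintro _ ⟨c, -, rfl⟩
        obtain ⟨θ, hθ, e⟩ := exists_HL (p := p) (k := k) h1
        refine Submodule.mem_sup.2 ⟨ψ (s ⊗ₜ (c • θ)), Submodule.mem_map_of_mem (tmul_mem
          (h2 ▸ Submodule.mem_span_singleton_self s) (Submodule.smul_mem _ c hθ)), _,
          neg_mem (key (c • θ) c fun u hu => ?_), by abel⟩
        rw [LinearMap.smul_apply, Submodule.coe_smul, e u hu]
      · rintro _ ⟨t, ht, rfl⟩
        obtain ⟨θ, hθ, rfl⟩ := Hart.mem_tens_span (h2 ▸ ht)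
        obtain ⟨c, hc⟩ := (mem_HL h1 (h.le hx) (h.fam.reg x hx)).1 hθ
        exact Submodule.mem_sup.2 ⟨ι c, Submodule.mem_map_of_mem Submodule.mem_top, _, key θ c hc,
          by abel⟩
  rw [kc_line (kT _ k), kc_of_bot fun _ _ => rfl, sub_zero] at e₂
  rw [kc_tens h.isAB_lS' h.isAB_HL, kc_tens h.isAB_lS' h.isAB_H0] at e₁
  rw [mul_sub]
  exact e₁.trans e₂.symm
lemma exists_l (h : IFam X p β n k I) :
    ∃ l : Bun X, Pres l (LG Sg β k) (fun x => lS β (I x)) ∧ l.Rk 1 ∧ l.kl = lcl X β k I := by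
  obtain ⟨l, hl⟩ := h.isAB_lS'.exists_pres
  exact ⟨l, hl, fun x hx => (hl.finrank hx).trans ((h.ty x hx).finrank_lS (h.le hx)), hl.kl⟩
/-- a line bundle is invertible: `dual l * l = 1` -/
theorem kc_HL (h : IFam X p β n k I) :
    kc X (LH Sg β p k) (fun x => HL β p k (I x)) - kc X (LH Sg β p k) (fun x => H0 β p k (I x)) =
      K.dual X (lcl X β k I) * Top.tK X k := by
  obtain ⟨l, -, h1, e⟩ := h.exists_l
  rw [← h.lcl_mul, ← mul_assoc, mul_comm (K.dual X _), ← e, h1.mul_dual, one_mul]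
/-- `nil_of_sc` -/
theorem nil' (h : IFam X p β n k I) :
    (1 - op X (lcl X β k I) * Top.tO X (-k)) ^ Sg.V.hh β 0 = 0 := by
  obtain ⟨l, hl, h1, e⟩ := h.exists_l
  rw [← e, Ch.hh_zero, Top.tO, neg_smul]
  exact nil_of_sc (sc_shift _ _) (kT _ k) hl h1
/-- `chiK_eq`, `rk_kc`, `Ty.finrank_Hb` -/
theorem rk_chiK' (h : IFam X p β n k I) (h' : IFam X p β' n' k' J) (hX : 0 ∉ X.B) {x : Pt}
    (hx : x ∈ X.pts) : K.rk hx (chiK (r1 Sg k) (r1 Sg k') X p I J) =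
      Sg.V.chi β - Sg.V.chi (β - β') + n' := by
  rw [h.fam.chiK_eq h'.fam hX, hmc, hbc, map_sub, map_sub, map_sub,
    rk_kc (IsAB.top (h.fam.isAB_stab h'.fam).hin), rk_kc (h.fam.isAB_stab h'.fam),
    rk_kc (h.fam.isAB_Hb h'.fam), rk_kc (h.fam.isAB_den h'.fam), finrank_top]
  exact (h.ty x hx).finrank_Hb (h'.ty x hx) (h.le hx) (h'.le hx) h.fam.two (h.fam.reg x hx)
    (h'.fam.reg x hx)
end IFam

end Crest.Agent.N265.M
end
end

-- ▼ part N265/Fx/Ext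
section

/-!
# Row 265, M-FIX, task FX-EXT: `Ext¹(I, I) → Ext¹(I, I^∨∨)` is zero; injectivity of
`H¹(O(β)) → Ext¹(I, O/I)`
-/

set_option autoImplicit false
set_option linter.dupNamespace false
noncomputable section
open MvPolynomial Module TensorProduct

namespace Crest.Agent.N265.M
open Crest.Agent.R274
open Defs_781 Lat_781 SnapA_99 SnapB_99 SnapE_99 Gen7_750 Xs1_781 SkDefs_474
open Alg GV Br N Fib _root_.Crest.Agent.N265.Pow

variable {Sg : Surf} {β D : Sg.V.G} {p : ℕ} {k : ℤ} {I : XL Sg Sg.F}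

/-- local form.  `B = syz u` is free at `x` (`locF_syz`) with basis `b_j`; `g = resH η` maps `b_j`
to `f(a_j)` with `a_j ∈ O_x^ι`, `f = lc u`.  Koszul homotopy: with `γ` a local generator of
`OL E` (`exists_gen_OL`), `e ↦ γ⁻¹ (f(a_j) e - f(e) a_j)` maps `O_x^ι` to `B_x`, so
`G(e) = ∑_j b_j^∨ (f(a_j) e - f(e) a_j)` maps `O_x^ι` to `(OL E)_x` and extends `g`; then
`resH (η - G) = 0` and `resH_eq_zero`. -/
theorem ext_loc {ι : Type} [Fintype ι] {u : ι → Sg.F} (hu : u ≠ 0) {M : XL Sg Sg.F} {E : Sg.V.G}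
    (hg : Fib.Gens u M) (le : LeL M (OL Sg.V.T E)) (x : Pnt Sg.V.X) {η : ι → Sg.F}
    (hη : resH u Sg.F η ∈ x.loc (HB u M)) :
    ∃ c : Sg.F, ∀ a, η a - c * u a ∈ x.loc (OL Sg.V.T E) := by
  classical
  obtain ⟨b, hb⟩ := locF_syz (S := Sg.V) u x
  choose a ha e using fun j => (hg x _).1 (Pnt.mem_loc_homX.1 hη _ (hb.basis_mem j))
  obtain ⟨γ, -, hγ⟩ := exists_gen_OL x E
  let s := fun j => LinearMap.codRestrict (LinearMap.ker (lc Sg.F u))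
    (lc Sg.F u (a j) • LinearMap.id - (lc Sg.F u).smulRight (a j)) fun w => by simp [mul_comm]
  let G : (ι → Sg.F) →ₗ[Sg.F] Sg.F := ∑ j, b.coord j ∘ₗ s j
  have hG : ∀ w, G w = ∑ j, b.repr (s j w) j := fun w => by simp [G]
  have h1 : ∀ l, G (Pi.single l 1) ∈ x.loc (OL Sg.V.T E) := fun l => by
    rw [hG]
    refine Submodule.sum_mem _ fun j _ => (hγ _).2 ?_
    have := (hb (γ⁻¹ • s j (Pi.single l 1))).1 (mem_loc_syz.2 fun l' => by
      have h2 := (hγ _).1 (Pnt.loc_mono le ((hg x _).2 ⟨_, ha j, rfl⟩))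
      have h3 := (hγ _).1 (Pnt.loc_mono le (hg.mem x l))
      have h4 : (Pi.single l 1 : ι → Sg.F) l' ∈ x.O := by
        rw [Pi.single_apply]
        split_ifs
        exacts [one_mem _, zero_mem _]
      convert sub_mem (mul_mem h2 h4) (mul_mem h3 (ha j l')) using 1
      simp [s, mul_sub, mul_assoc]) j
    simpa using this
  obtain ⟨c, hc⟩ := resH_eq_zero (φ := η - fun l => G (Pi.single l 1)) hu (by
    rw [map_sub, sub_eq_zero]
    refine LinearMap.ext fun w => ?_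
    have h2 : resH u Sg.F (fun l => G (Pi.single l 1)) w = G w.1 := by
      rw [resH_apply, lc_apply, LinearMap.pi_apply_eq_sum_univ G]
      exact Finset.sum_congr rfl fun l _ => by
        congr 2
        exact funext fun l' => by simp [Pi.single_apply, eq_comm]
    have h3 : ∀ j, s j w.1 = lc Sg.F u (a j) • w := fun j => Subtype.ext (by
      have : lc Sg.F u w.1 = 0 := w.2
      simp [s, this])
    rw [h2, hG]
    conv_lhs => rw [← b.sum_repr w, map_sum]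
    exact Finset.sum_congr rfl fun j _ => by
      rw [h3, e, map_smul, map_smul, Finsupp.smul_apply, smul_eq_mul, smul_eq_mul, mul_comm])
  refine ⟨c, fun l => ?_⟩
  have := congrFun hc l
  rw [Pi.smul_apply, Pi.sub_apply, smul_eq_mul] at this
  rw [this, sub_sub_cancel]
  exact h1 l

theorem ne_of_gens {ι : Type} [Fintype ι] {u : ι → Sg.F} {M : XL Sg Sg.F} {E : Sg.V.G}
    (hg : Fib.Gens u M) (h : FC M (OL Sg.V.T E)) : u ≠ 0 := by
  rintro rfl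
  have := h.maps_of_s2 (P := bot Sg.V.X Sg.F) (g := LinearMap.id) (fun x w hw => by
    obtain ⟨a, ha, h0, a0⟩ := x.exists_m_ne two_pos
    exact Pnt.mem_loc_bot.2 ((smul_eq_zero.1 (Pnt.mem_loc_bot.1 (hw a ha h0))).resolve_left a0))
    (maps_of_loc fun x v hv => by
      obtain ⟨c, -, rfl⟩ := (hg x v).1 hv
      simp [lc_apply])
  obtain ⟨y, hy, y0⟩ := Gen8_750.exists_O_ne_zero Sg.V.T E (Finset.singleton_nonempty 0)
  exact y0 (this _ (Finset.singleton_nonempty 0) y hy)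

theorem eqv_twOL (D : Sg.V.G) (e : ℤ) :
    EqL (twX (OL Sg.V.T D) e) (OL Sg.V.T (D + e • Sg.V.h)) := tw_OL' Sg.V D e

theorem fc_tw (h : FC I (OL Sg.V.T D)) (e : ℤ) : FC (twX I e) (OL Sg.V.T (D + e • Sg.V.h)) :=
  (h.twX e).trans (FC.of_eqv (eqv_twOL D e))

/-- global form.  `u` = frame of `pc I p` (`Hm.fu`), `M = twX I p` (`gens_of_span`); the syzygy
lattice is generated in degree `3` (regular: `0 → syz → O^ι → I(p) → 0`), so `resH η` is a global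
section of `HB u M` (`mem_Gm_homX_of_gen`); `ext_loc`, then `glue` with `KB u (OL E) = OL 0` and
`H¹(O) = 0` (`van_OX`).  `u ≠ 0` by `fib_surj` / `FC`. -/
theorem ext_hull (h : FC I (OL Sg.V.T D)) (le : LeL I (OX Sg.V.X)) (hp : 2 ≤ p)
    (hr : RegL I.toLat p) (η : ((r1 Sg k).G p).V →ₗ[ℂ] Sg.F)
    (hη : ∀ t ∈ (r1 Sg k).KK I p 3, mF η 3 t ∈ Gm I.toLat (3 + p : ℕ)) :
    ∃ c : Sg.F, ∀ u ∈ (r1 Sg k).pc I p, η u - c * (r1 Sg k).inc p u ∈ Gm (OL Sg.V.T D).toLat p := by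
  have le' : LeL I (r1 Sg k).O := le.trans (r1_O k).symm.le
  have hg := Amb.gens_fr (𝔞 := r1 Sg k) le' hr
  have hf := fc_tw h p
  have hu := ne_of_gens hg hf
  have h1 : resH ((r1 Sg k).fr I p) Sg.F (fun l => η (Hm.fu ((r1 Sg k).pc I p) l)) ∈
      Gm (HB ((r1 Sg k).fr I p) (twX I p)).toLat 0 :=
    mem_Gm_homX_of_gen (j := (3 : ℕ)) (fun d hd => (Amb.reg_SZ (𝔞 := r1 Sg k) le' hr).gen (by omega))
      fun s hs => by
        obtain ⟨t, ht, rfl⟩ := Amb.exists_KK (𝔞 := r1 Sg k) hs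
        rw [resH_apply, Amb.cz_val, Hm.lc_co η ht.1]
        refine (Gm_tw I.toLat p _).ge ?_
        convert hη t ht using 2
        push_cast
        ring
  obtain ⟨c, hc⟩ := glue hu (OL Sg.V.T (D + (p : ℤ) • Sg.V.h)) 0 (by
    have e := KB_OL hu hg hf (D + (p : ℤ) • Sg.V.h)
    rw [sub_self] at e
    have := van_OX Sg le_rfl one_pos
    exact ((eqv_tw (e.trans (OL_zero _)) 0).H 1).toEquiv.subsingleton)
    (y := fun l => η (Hm.fu ((r1 Sg k).pc I p) l)) fun x => by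
      have := Pnt.Gm_mem_loc (x := x) h1
      rw [neg_zero, zpow_zero, one_smul] at this
      simpa using ext_loc hu hg hf.le x this
  refine ⟨c, (Hm.mem_homMap_fu (θ := η - LinearMap.mulLeft ℂ c ∘ₗ (r1 Sg k).inc p)).2 fun l => ?_⟩
  have := (Gm_tw _ _ _).le ((Gm_congr (eqv_twOL D p) 0).ge (hc l))
  rwa [add_zero] at this

/-- Hartogs at a point -/
theorem loc_hart {ι : Type} [Fintype ι] {u : ι → Sg.F} {M : XL Sg Sg.F} {E : Sg.V.G}
    (hg : Fib.Gens u M) (h : FC M (OL Sg.V.T D)) {x : Pnt Sg.V.X} {c : Sg.F}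
    (hc : ∀ a, c * u a ∈ x.loc (OL Sg.V.T E)) : c ∈ x.loc (OL Sg.V.T (E - D)) := by
  refine mem_loc_OL.2 fun v hv => or_iff_not_imp_left.2 fun c0 => ?_
  obtain ⟨a, ha, a0, h1⟩ := exists_ord_unit hv.1 (h.supp x.i)
  obtain ⟨g, g0, hg1, h2⟩ := Sm2_9.exists_gen Sg.V (Finset.singleton_nonempty _) x.q D
  obtain ⟨w, hw, e⟩ := (hg x _).1 (Pnt.mem_loc_i (ha g hg1))
  have h3 : c * (a * g) ∈ x.loc (OL Sg.V.T E) := by
    convert lc_mem_loc hc hw using 1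
    rw [← smul_eq_mul (a : Sg.F) g, ← e]
    simp [lc_apply, Finset.mul_sum, mul_left_comm]
  have h4 := (mem_loc_OL.1 h3 v hv).resolve_left (mul_ne_zero c0 (mul_ne_zero a0 g0))
  rw [(Sg.V.pl.pl v).ord_mul c0 (mul_ne_zero a0 g0), (Sg.V.pl.pl v).ord_mul a0 g0, h1,
    h2 v hv] at h4
  rw [Finsupp.sub_apply]
  omega

theorem mem_loc_ph {x : Pnt Sg.V.X} {e : ℤ} {f : Sg.F} :
    f ∈ x.loc (OL Sg.V.T (D + e • Sg.V.h)) ↔ Sg.V.X.t x.i ^ (-e) * f ∈ x.loc (OL Sg.V.T D) := by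
  rw [← Pnt.loc_congr (eqv_twOL D e), Pnt.mem_loc_twX, smul_eq_mul]

theorem mem_loc_OL0 {x : Pnt Sg.V.X} {f : Sg.F} : f ∈ x.loc (OL Sg.V.T 0) ↔ f ∈ x.O := by
  rw [Pnt.loc_congr (OL_zero Sg.V.T), Pnt.mem_loc_OX]

theorem mul_mem_loc_OL {x : Pnt Sg.V.X} {s : Sg.F} (hs : s ≠ 0) {f : Sg.F}
    (hf : f ∈ x.loc (OL Sg.V.T (-β))) : s * f ∈ x.loc (OL Sg.V.T (-(β + Sg.V.div s hs))) := by
  refine mem_loc_OL.2 fun v hv => or_iff_not_imp_left.2 fun h0 => ?_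
  have f0 := right_ne_zero_of_mul h0
  have h1 := (mem_loc_OL.1 hf v hv).resolve_left f0
  have h2 : Sg.V.div s hs v = (Sg.V.pl.pl v).ord s := rfl
  rw [Finsupp.neg_apply] at h1
  rw [(Sg.V.pl.pl v).ord_mul hs f0, Finsupp.neg_apply, Finsupp.add_apply, h2]
  omega

theorem mF_sub' {V : Type} [AddCommGroup V] [Module ℂ V] (f g : V →ₗ[ℂ] Sg.F) {j : ℕ}
    (t : V ⊗[ℂ] SA Sg j) : mF (f - g) j t = mF f j t - mF g j t :=
  LinearMap.congr_fun (TensorProduct.ext' (g := mF (f - g) j) (h := mF f j - mF g j)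
    fun _ _ => by simp [mul_sub]) t

/-- `ext_hull` for `η = y θ - φ` gives `y (s⁻¹ u) - c u ∈ A_p` for `u ∈ U` (`OL D ≤ OX` by
`FC.le_OL`).  At `x`, `(c s - c_x) s⁻¹ U ⊂ O_x(p)`; `U` generates `I(p)_x`, so by Hartogs
(`S2At`, stalk version of `FC.maps_of_s2`, or `mem_loc_OL` and `exists_ord_unit`)
`(c s - c_x) Q ⊂ O_x(p)`; hence `y v - c s v ∈ O_x(p)` for all `x`. -/
theorem ob_inj {s : Sg.F} {hs : s ≠ 0} (h : FC I (OL Sg.V.T (-(β + Sg.V.div s hs))))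
    (le : LeL I (OX Sg.V.X)) (hp : 2 ≤ p) (hr : RegL I.toLat p) {y : QS Sg β p →ₗ[ℂ] Sg.F}
    (hy : LocM y) {θ : ((r1 Sg k).G p).V →ₗ[ℂ] QS Sg β p}
    (hθ : ∀ u ∈ (r1 Sg k).pc I p, (θ u).1 = s⁻¹ * (r1 Sg k).inc p u)
    (φ : ((r1 Sg k).G p).V →ₗ[ℂ] ((r1 Sg k).G p).V)
    (H : ∀ t ∈ (r1 Sg k).KK I p 3,
      mF (y ∘ₗ θ) 3 t - mF ((r1 Sg k).inc p ∘ₗ φ) 3 t ∈ Gm I.toLat (3 + p : ℕ)) : GlM y := by
  obtain ⟨c, hc⟩ := ext_hull h le hp hr (y ∘ₗ θ - (r1 Sg k).inc p ∘ₗ φ) fun t ht =>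
    (mF_sub' _ _ t).symm ▸ H t ht
  have h0 := (h.le_OL (le.trans (OL_zero Sg.V.T).symm.le)).trans (OL_zero Sg.V.T).le
  have h1 : ∀ u ∈ (r1 Sg k).pc I p, y (θ u) - c * (r1 Sg k).inc p u ∈ AA Sg.V.X p := fun u hu => by
    have := (AA Sg.V.X p).add_mem (Gm_mono h0 p (hc u hu)) ((SA_eq p).le (φ u ()).2)
    convert this using 1
    rw [LinearMap.sub_apply, LinearMap.comp_apply, LinearMap.comp_apply, r1_inc k p (φ u)]
    ring
  refine ⟨c * s, fun v => (SA_eq p).ge (mem_Gm_of_loc fun x => Pnt.mem_loc_OX.2 ?_)⟩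
  obtain ⟨d, hd⟩ := hy x
  have h2 := loc_hart (Amb.gens_fr (𝔞 := r1 Sg k) (le.trans (r1_O k).symm.le) hr) (fc_tw h p)
    (x := x) (c := d * s⁻¹ - c) (E := 0 + (p : ℤ) • Sg.V.h) fun l => by
      have hl := Hm.fu_mem ((r1 Sg k).pc I p) l
      have := sub_mem (Pnt.AA_mem_O (x := x) (h1 _ hl)) (hd (θ (Hm.fu _ l)))
      rw [hθ _ hl] at this
      refine mem_loc_ph.2 (mem_loc_OL0.2 ?_)
      convert this using 1
      ring
  have h3 := mem_loc_OL0.1 (mem_loc_ph.1 (mem_loc_OL_sub.1 h2 (s * v.1) (mem_loc_ph.2 (by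
    rw [mul_left_comm]
    exact mul_mem_loc_OL hs (Pnt.Gm_mem_loc v.2)))))
  convert add_mem (hd v) h3 using 1
  rw [smul_eq_mul]
  field_simp
  ring

end Crest.Agent.N265.M
end
end

-- ▼ part N265/Fx/Ob
section

/-!
# Row 265, M-FIX (helper94): `H¹(β) ⊗ l^∨` is a subbundle of `Ext¹(I, O/I) = Hb / (range res ⊔ den)`
-/

set_option autoImplicit false
set_option linter.dupNamespace false
noncomputable section
open MvPolynomial Module TensorProduct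

namespace Crest.Agent.N265.M
open Crest.Agent.R274
open Defs_781 Lat_781 SnapA_99 SnapB_99 SnapE_99 Gen7_750 Xs1_781 SkDefs_474
open Alg GV Br N Fib _root_.Crest.Agent.N265.Pow
variable {Sg : Surf} {X : Spc} {p : ℕ} {β : Sg.V.G} {n : ℕ} {k : ℤ}

namespace Ob
section lin
variable {V M : Type} [AddCommGroup V] [Module ℂ V] [AddCommGroup M] [Module ℂ M] [Module Sg.F M]
  [IsScalarTower ℂ Sg.F M] {j : ℕ}
lemma mF_congr {f g : V →ₗ[ℂ] M} {U : Submodule ℂ V} (h : ∀ v ∈ U, f v = g v)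
    {t : V ⊗[ℂ] SA Sg j} (ht : t ∈ tens U ⊤) : mF f j t = mF g j t :=
  tens_eqOn (fun v hv a _ => by rw [mF_tmul, mF_tmul, h v hv]) ht
lemma mF_sum {ι : Type} (s : Finset ι) (f : ι → V →ₗ[ℂ] M) (t : V ⊗[ℂ] SA Sg j) :
    mF (∑ i ∈ s, f i) j t = ∑ i ∈ s, mF (f i) j t := by
  induction t using TensorProduct.induction_on with
  | zero => simp
  | tmul v a => simp only [mF_tmul, LinearMap.sum_apply, Finset.smul_sum]
  | add a b ha hb => simp only [map_add, ha, hb, Finset.sum_add_distrib]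
lemma mF_smul (c : Sg.F) {f g : V →ₗ[ℂ] M} {U : Submodule ℂ V} (h : ∀ v ∈ U, f v = c • g v)
    {t : V ⊗[ℂ] SA Sg j} (ht : t ∈ tens U ⊤) : mF f j t = c • mF g j t :=
  Hm.tens_ind (p := fun t => mF f j t = c • mF g j t) ht (by simp)
    (fun v hv a _ => by rw [mF_tmul, mF_tmul, h v hv, smul_comm])
    fun a b ha hb => by rw [map_add, map_add, ha, hb, smul_add]
end lin

lemma sc_G (j : ℕ) : ((r1 Sg k).G j).Sc (k • eT) := sc_pi fun _ => sc_shift _ _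
lemma sc_LH : (LH Sg β p k).Sc 0 := ((sc_G p).hom (sc_shift _ _)).of_eq (sub_self _)
lemma sc_HG : ((r1 Sg k).HG (r1 Sg k) p).Sc 0 :=
  (((sc_G p).tens (sc_triv _)).hom (sc_G _)).of_eq (by rw [add_zero, sub_self])

/-- a constant extension of `mF y 3` from the relations of `Q` -/
lemma exists_ext {y : QS Sg β p →ₗ[ℂ] Sg.F} (h : LocM y) (k : ℤ) :
    ∃ Θ : QS Sg β p ⊗[ℂ] SA Sg 3 →ₗ[ℂ] ((r1 Sg k).G (3 + p)).V,
      ∀ t, mF (QS Sg β p).subtype 3 t = 0 → (r1 Sg k).inc (3 + p) (Θ t) = mF y 3 t := by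
  obtain ⟨Θ, hΘ⟩ := LinearMap.exists_extend (K := ℂ) (V := QS Sg β p ⊗[ℂ] SA Sg 3)
    (V' := SA Sg (3 + p)) (p := LinearMap.ker (mF (QS Sg β p).subtype 3))
    (((mF y 3).domRestrict (LinearMap.ker (mF (QS Sg β p).subtype 3))).codRestrict (SA Sg (3 + p))
      fun t => h.mF_mem t.2)
  refine ⟨LinearMap.pi fun _ => Θ, fun t ht => ?_⟩
  exact congrArg Subtype.val (LinearMap.congr_fun hΘ ⟨t, ht⟩)

variable {m : ℕ}
/-- `θ ↦ ∑ Θ_j ∘ (θ_j ⊗ 1)` -/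
def Φ (Θ : Fin m → QS Sg β p ⊗[ℂ] SA Sg 3 →ₗ[ℂ] ((r1 Sg k).G (3 + p)).V) :
    (GV.pi fun _ : Fin m => LH Sg β p k).V →ₗ[ℂ] ((r1 Sg k).HG (r1 Sg k) p).V :=
  ∑ j, (LinearMap.llcomp ℂ _ _ _ (Θ j) ∘ₗ LinearMap.rTensorHom (SA Sg 3)) ∘ₗ LinearMap.proj j
lemma Φ_apply (Θ : Fin m → QS Sg β p ⊗[ℂ] SA Sg 3 →ₗ[ℂ] ((r1 Sg k).G (3 + p)).V)
    (θ : (GV.pi fun _ : Fin m => LH Sg β p k).V) (t : (WA Sg ((r1 Sg k).G p) 3).V) :
    Φ Θ θ t = ∑ j, Θ j (LinearMap.rTensor _ (θ j) t) := by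
  rw [Φ, LinearMap.sum_apply, LinearMap.sum_apply]; rfl

section fib
variable {I : XL Sg Sg.F} {s : Sg.F} {hs : s ≠ 0} {y : Fin m → QS Sg β p →ₗ[ℂ] Sg.F}
  {Θ : Fin m → QS Sg β p ⊗[ℂ] SA Sg 3 →ₗ[ℂ] ((r1 Sg k).G (3 + p)).V}
  (h : FC I (OL Sg.V.T (-(β + Sg.V.div s hs)))) (le : LeL I (OX Sg.V.X)) (hr : RegL I.toLat p)
  (hΘ : ∀ j t, mF (QS Sg β p).subtype 3 t = 0 → (r1 Sg k).inc (3 + p) (Θ j t) = mF (y j) 3 t)
include h le hr hΘ

lemma inc_Φ {θ : (GV.pi fun _ : Fin m => LH Sg β p k).V} (hθ : ∀ j, θ j ∈ HL β p k I)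
    {t : (WA Sg ((r1 Sg k).G p) 3).V} (ht : t ∈ (r1 Sg k).KK I p 3) :
    (r1 Sg k).inc (3 + p) (Φ Θ θ t) = mF (∑ j, y j ∘ₗ θ j) 3 t := by
  rw [Φ_apply, map_sum, mF_sum]
  refine Finset.sum_congr rfl fun j _ => ?_
  rw [hΘ, Hm.mF_rT]
  obtain ⟨c, hc⟩ := (mem_HL h le hr).1 (hθ j)
  rw [Hm.mF_rT, mF_smul (c • s⁻¹) (g := (r1 Sg k).inc p) (fun v hv => ?_) ht.1,
    LinearMap.mem_ker.1 ht.2, smul_zero]
  exact (hc v hv).trans (smul_mul_assoc _ _ _).symm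

lemma Φ_mem {θ : (GV.pi fun _ : Fin m => LH Sg β p k).V} (hθ : ∀ j, θ j ∈ HL β p k I) :
    Φ Θ θ ∈ (r1 Sg k).Hb (r1 Sg k) I I p := fun l t ht h0 => by
  rw [Amb.mem_pc, Amb.inc_mul, Hm.mF_rT,
    mF_congr (g := mF (∑ j, y j ∘ₗ θ j) 3) (fun v hv => inc_Φ h le hr hΘ hθ hv) ht, ← Hm.mF_mm, h0,
    map_zero]
  exact zero_mem _

lemma inf_comap (hp : 2 ≤ p) (hy : ∀ j, LocM (y j))
    (hi : ∀ d : Fin m → ℂ, GlM (∑ j, d j • y j) → d = 0) :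
    (Submodule.pi Set.univ fun _ => HL β p k I) ⊓
      ((⊤ : Submodule ℂ _).map ((r1 Sg k).res (r1 Sg k) p) ⊔
        (r1 Sg k).den (r1 Sg k) I I p).comap (Φ Θ) =
      Submodule.pi Set.univ fun _ => H0 β p k I := by
  refine le_antisymm (fun θ h12 => ?_) fun θ h1 => ⟨fun j _ => H0_le_HL (h1 j trivial), ?_⟩
  · obtain ⟨h1, h2⟩ := h12
    have hθ : ∀ j, θ j ∈ HL β p k I := fun j => h1 j trivial
    obtain ⟨_, ⟨φ, -, rfl⟩, δ, hδ, e⟩ := Submodule.mem_sup.1 h2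
    obtain ⟨θ₀, -, h0⟩ := exists_HL (p := p) (k := k) h
    choose c hc using fun j => (mem_HL h le hr).1 (hθ j)
    have e0 : ∀ j, ∀ u ∈ (r1 Sg k).pc I p, θ j u = c j • θ₀ u := fun j u hu =>
      Subtype.ext (by rw [hc j u hu, Submodule.coe_smul, h0 u hu])
    have := hi c (ob_inj h le hp hr (LocM.sum hy c) h0 φ fun t ht => ?_)
    · intro j _ u hu
      rw [e0 j u hu, this]; simp
    have e1 : mF ((∑ j, c j • y j) ∘ₗ θ₀) 3 t = mF (∑ j, y j ∘ₗ θ j) 3 t :=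
      mF_congr (fun u hu => by
        simp only [LinearMap.comp_apply, LinearMap.sum_apply, LinearMap.smul_apply, e0 _ u hu,
          map_smul]) ht.1
    have e2 : mF ((r1 Sg k).inc p ∘ₗ φ) 3 t =
        (r1 Sg k).inc (3 + p) ((r1 Sg k).res (r1 Sg k) p φ t) := by
      rw [Amb.res_apply, Amb.inc_mul, Hm.mF_rT]
    rw [e1, ← inc_Φ h le hr hΘ hθ ht, e2, ← map_sub, ← e, LinearMap.add_apply, add_sub_cancel_left]
    exact hδ t ht
  · refine Submodule.mem_sup_right fun t ht => ?_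
    rw [Φ_apply, Finset.sum_eq_zero fun j _ => ?_]
    · exact zero_mem _
    have := Hm.rT_mem (A := SA Sg 3) (h1 j trivial) ht.1
    rw [tens_bot_left, Submodule.mem_bot] at this
    rw [this, map_zero]
end fib
end Ob

open Ob in
/-- the obstruction bundle of one family -/
theorem IFam.ob_one {I : Pt → XL Sg Sg.F} (h : IFam X p β n k I) (hX : 0 ∉ X.B)
    (hne : X.pts.Nonempty)
    (hT : IsAB X ((r1 Sg k).EG (r1 Sg k) p) fun x => (r1 Sg k).Tv (r1 Sg k) (I x) (I x) p)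
    (hr : ∀ x ∈ X.pts, finrank ℂ ((r1 Sg k).Tv (r1 Sg k) (I x) (I x) p) + 1 =
      finrank ℂ ((r1 Sg k).stab (r1 Sg k) (I x) (I x) p) + Sg.V.hh β 0 + 2 * n) :
    ∃ C : Bun X, C.Rk n ∧
      tvc (r1 Sg k) (r1 Sg k) X p I I - chiK (r1 Sg k) (r1 Sg k) X p I I =
        Sg.V.hh β 1 • (K.dual X (lcl X β k I) * Top.tK X k) + C.kl := by
  obtain ⟨x₀, hx₀⟩ := hne
  obtain ⟨y, hy, hi⟩ := exists_ys ((h.ty x₀ hx₀).reg_OL (h.fam.reg x₀ hx₀))
  choose Θ hΘ using fun j => exists_ext (hy j) k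
  have top := IsAB.top (X := X) hT.hin
  have den := h.fam.isAB_den h.fam
  have res := IsRM.const (X := X) (Amb.deg0_res (r1 Sg k) (r1 Sg k) p)
  have hD := top.map_sup_of_inj hT den res fun x _ => top_inf_eq _
  have e1 := kq_iso top hT hD den res fun x _ => ⟨top_inf_eq _, rfl⟩
  have hL := IsAB.pi fun _ : Fin (Sg.V.hh β 1) => h.isAB_HL
  have hL' := IsAB.pi fun _ : Fin (Sg.V.hh β 1) => h.isAB_H0
  have hΦ : IsRM X _ _ fun _ => Φ Θ := (sc_pi fun _ => sc_LH).isRM sc_HG _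
  have key := fun x (hx : x ∈ X.pts) =>
    ((h.ty x hx).exists_eqn (h.le hx)).elim fun s hs => hs.elim fun _ hs =>
      inf_comap hs.1 (h.le hx) (h.fam.reg x hx) hΘ h.fam.two hy hi
  have hE := hL.map_sup_of_inj hL' hD hΦ key
  have e2 := kq_iso hL hL' hE hD hΦ fun x hx => ⟨key x hx, rfl⟩
  obtain ⟨C, hC, -⟩ := (h.fam.isAB_Hb h.fam).exists_bun_sq hE fun x hx => by
    obtain ⟨s, hs, hf, -⟩ := (h.ty x hx).exists_eqn (h.le hx)
    refine sup_le ?_ (sup_le ?_ Amb.den_le_Hb)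
    · rintro _ ⟨θ, hθ, rfl⟩
      exact Φ_mem hf (h.le hx) (h.fam.reg x hx) hΘ fun j => hθ j trivial
    · rintro _ ⟨φ, -, rfl⟩
      exact Amb.res_mem_Hb φ
  rw [kc_pi fun _ => h.isAB_HL, kc_pi fun _ => h.isAB_H0, ← Finset.sum_sub_distrib,
    Finset.sum_const, Finset.card_fin] at e2
  have e : tvc (r1 Sg k) (r1 Sg k) X p I I - chiK (r1 Sg k) (r1 Sg k) X p I I =
      Sg.V.hh β 1 • (kc X (LH Sg β p k) (fun x => HL β p k (I x)) -
        kc X (LH Sg β p k) fun x => H0 β p k (I x)) + C.kl := by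
    rw [h.fam.chiK_eq h.fam hX, tvc, hmc, hbc, e2, hC]
    linear_combination -e1
  refine ⟨C, fun x hx => ?_, by rw [e, h.kc_HL]⟩
  have := congrArg (K.rk hx) e
  have q := pgq Sg
  rw [map_sub, map_add, map_nsmul, map_sub, K.rk_kl, h.rk_chiK' h hX hx, tvc, map_sub, rk_kc hT,
    rk_kc (h.fam.isAB_stab h.fam), rk_kc h.isAB_HL, rk_kc h.isAB_H0,
    (h.ty x hx).finrank_HL (h.le hx) (h.fam.reg x hx), sub_self, q.chi_zero,
    q.chi_eff ((h.ty x hx).hasSec (h.le hx))] at this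
  have h2 := congrArg (Nat.cast : ℕ → ℤ) (hr x hx)
  rw [Nat.cast_add, Nat.cast_one, add_sub_cancel_left, nsmul_one] at this
  push_cast at h2
  exact Nat.cast_injective (R := ℤ) (by linear_combination h2 - this)

end Crest.Agent.N265.M
end
end

-- ▼ part N265/Top/Zero0
section

/-! # Task TOP-ZERO, helper: coordinate sections of a graph over a product of projective spaces -/

set_option autoImplicit false
noncomputable section
open MvPolynomial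

namespace Crest.Agent.N265.Zr
open GM Sp

/-- keep the variables in `V` -/
def keep (V : Finset Var) : R →ₐ[ℂ] R := aeval fun u => if u ∈ V then X u else 0
/-- keep the coordinates in `V` -/
def resV (V : Finset Var) (p : Pt) : Pt := fun u => if u ∈ V then p u else 0

lemma eval_keep (V : Finset Var) (p : Pt) (r : R) : eval p (keep V r) = eval (resV V p) r := by
  induction r using MvPolynomial.induction_on with
  | C c => simp [keep]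
  | add p q hp hq => simp [hp, hq]
  | mul_X q v hp => by_cases h : v ∈ V <;> simp [hp, resV, h, keep] at *

lemma resV_resV {V W : Finset Var} (h : V ⊆ W) (p : Pt) : resV V (resV W p) = resV V p := by
  funext u
  by_cases hu : u ∈ V
  · simp [resV, hu, h hu]
  · simp [resV, hu]

lemma resV_resV' {V W : Finset Var} (h : V ⊆ W) (p : Pt) : resV W (resV V p) = resV V p := by
  funext u
  by_cases hu : u ∈ V
  · simp [resV, hu, h hu]
  · simp [resV, hu]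

lemma keep_sub (V T : Finset Var) (r : R) :
    keep V r - keep (V \ T) r ∈ Ideal.span ((fun u => (X u : R)) '' (T : Set Var)) := by
  induction r using MvPolynomial.induction_on with
  | C c => simp [keep]
  | add p q hp hq =>
    rw [map_add, map_add, add_sub_add_comm]
    exact add_mem hp hq
  | mul_X p v hp =>
    rw [map_mul, map_mul, show keep V p * keep V (X v) - keep (V \ T) p * keep (V \ T) (X v) =
      (keep V p - keep (V \ T) p) * keep V (X v) +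
        keep (V \ T) p * (keep V (X v) - keep (V \ T) (X v)) by ring]
    refine add_mem (Ideal.mul_mem_right _ _ hp) (Ideal.mul_mem_left _ _ ?_)
    by_cases h1 : v ∈ V
    · by_cases h2 : v ∈ T
      · simpa [keep, h1, h2] using Ideal.subset_span (s := (fun u => (X u : R)) '' (T : Set Var))
          ⟨v, h2, rfl⟩
      · simp [keep, h1, h2]
    · simp [keep, h1]

/-- a locally reduced hypersurface section -/
lemma cl_cut {Γ Y Z : Spc} (hY : Y.Sub Γ) (hZ : Z.Sub Y) {e : D} {f : R} (hf : Hmg e f)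
    (he : e ∈ DS Γ.B) (hfZ : f ∈ Z.I) (hreg : ∀ a, f * a ∈ Y.I → a ∈ Y.I)
    (hloc : ∀ z ∈ Γ.pts, ∀ g ∈ Z.I, ∃ r a, eval z r ≠ 0 ∧ r * g - f * a ∈ Y.I) :
    (1 - lb Γ (-e)) • cl Γ (O Y) = cl Γ (O Z) := by
  have oY := (red_O Y).on.mono hY
  have oZ := (red_O Z).on.mono (hZ.trans hY)
  have h0 : -e + e ∈ DS Γ.B := add_mem (neg_mem he) he
  have key : LocSES Γ ((O Y).shift (-e)) ((O Y).shift (-e + e)) ((O Z).shift (-e + e)) := by
    refine ⟨dvMul (O Y) f (-e) (-e + e), dvRes hZ, deg0_dvMul (O Y) hf (-e),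
      (deg0_dvRes hZ).shift _, fun a => ?_, fun z hz => ?_⟩
    · obtain ⟨a, rfl⟩ := Ideal.Quotient.mk_surjective (I := Y.I) a
      exact Ideal.Quotient.eq_zero_iff_mem.2 (Ideal.mul_mem_right _ _ hfZ : f * a ∈ Z.I)
    obtain ⟨r, hr, h1⟩ := exists_uniform (M := O Y) (N := LinearMap.ker (dvRes hZ))
      (LinearMap.range (LinearMap.lsmul R (O Y).M f)) (x := z) fun m hm => by
        obtain ⟨g, rfl⟩ := Ideal.Quotient.mk_surjective (I := Y.I) m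
        obtain ⟨r, a, h1, h2⟩ := hloc z hz g (Ideal.Quotient.eq_zero_iff_mem.1 hm)
        exact ⟨r, h1, Ideal.Quotient.mk Y.I a, (Ideal.Quotient.eq.2 h2).symm⟩
    refine ⟨r, hr, fun a ha => ?_, fun m hm => h1 m hm, fun c => ?_⟩
    · obtain ⟨a, rfl⟩ := Ideal.Quotient.mk_surjective (I := Y.I) a
      have h2 : f * a ∈ Y.I := Ideal.Quotient.eq_zero_iff_mem.1 ha
      exact Ideal.Quotient.eq_zero_iff_mem.2 (Ideal.mul_mem_left _ r (hreg a h2))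
    · obtain ⟨c, rfl⟩ := Ideal.Quotient.mk_surjective (I := Z.I) c
      exact ⟨Ideal.Quotient.mk Y.I (r * c), rfl⟩
  have h1 := cl_locSES key (oY.shift (neg_mem he)) (oY.shift h0) (oZ.shift h0)
  rw [← sh_cl h0 oY, ← sh_cl h0 oZ, ← sh_cl (neg_mem he) oY, neg_add_cancel, sh_zero,
    sh_zero] at h1
  rw [sub_smul, one_smul, lb_smul (neg_mem he), sub_eq_iff_eq_add']
  exact h1

/-- a chart of `Γ` at `z` in the variables `W` -/
structure Chart (Γ : Spc) (W : Finset Var) (s : R) (z : Pt) : Prop where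
  ne : eval (resV W z) s ≠ 0
  red : ∀ g : R, ∃ (m : ℕ) (G : R), ∀ z' ∈ Γ.pts,
    eval (resV W z') s ^ m * eval z' g = eval (resV W z') G
  lift : ∀ p, eval (resV W p) s ≠ 0 → ∃ z' ∈ Γ.pts, resV W z' = resV W p

/-- the coordinate section -/
def sec (Γ : Spc) (T : Finset Var) : Spc :=
  Γ.cut ((fun u => (X u : R)) '' (T : Set Var)) (by
    rintro _ ⟨u, -, rfl⟩
    exact ⟨_, Hmg.X u⟩)

lemma mem_sec {Γ : Spc} {T : Finset Var} {z : Pt} :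
    z ∈ (sec Γ T).pts ↔ z ∈ Γ.pts ∧ ∀ u ∈ T, z u = 0 :=
  and_congr_right fun _ => ⟨fun h u hu => by simpa using h _ ⟨u, hu, rfl⟩, by
    rintro h _ ⟨u, hu, rfl⟩
    simpa using h u hu⟩

lemma sec_sub (Γ : Spc) (T : Finset Var) : (sec Γ T).Sub Γ := Γ.cut_sub _ _

lemma sec_empty (Γ : Spc) : sec Γ ∅ = Γ := Spc.ext rfl (Set.ext fun z => by simp [mem_sec])

variable {Γ : Spc} {W T : Finset Var} {s : R} {z : Pt}

lemma Chart.keep_eq_zero (h : Chart Γ W s z) (hT : T ⊆ W) {G : R}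
    (hG : ∀ z' ∈ (sec Γ T).pts, eval (resV W z') G = 0) : keep (W \ T) (s * G) = 0 := by
  refine MvPolynomial.funext fun p => ?_
  rw [eval_keep, map_mul, map_zero]
  by_cases h0 : eval (resV (W \ T) p) s = 0
  · rw [h0, zero_mul]
  have e := resV_resV' (Finset.sdiff_subset : W \ T ⊆ W) p
  obtain ⟨z', h1, h2⟩ := h.lift (resV (W \ T) p) (by rwa [e])
  rw [e] at h2
  rw [← h2, hG z' (mem_sec.2 ⟨h1, fun u hu => ?_⟩), mul_zero]
  simpa [resV, hu, hT hu] using congrFun h2 u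

lemma Chart.loc (h : Chart Γ W s z) (hT : T ⊆ W) {g : R} (hg : g ∈ (sec Γ T).I) :
    ∃ r, eval z r ≠ 0 ∧ r * g ∈ Γ.I ⊔ Ideal.span ((fun u => (X u : R)) '' (T : Set Var)) := by
  obtain ⟨m, G, hG⟩ := h.red g
  have h1 := h.keep_eq_zero hT (G := G) fun z' hz' => by
    rw [← hG z' (mem_sec.1 hz').1, hg z' hz', mul_zero]
  have h2 := keep_sub W T (s * G)
  rw [h1, sub_zero] at h2
  refine ⟨keep W s ^ (m + 1), by rw [map_pow, eval_keep]; exact pow_ne_zero _ h.ne, ?_⟩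
  rw [← sub_add_cancel (keep W s ^ (m + 1) * g) (keep W (s * G))]
  refine Submodule.add_mem_sup (fun z' hz' => ?_) h2
  rw [map_sub, map_mul, map_pow, eval_keep, eval_keep, map_mul, ← hG z' hz']
  ring

lemma Chart.reg (h : Chart Γ W s z) (hT : T ⊆ W) (hz : z ∈ (sec Γ T).pts) {v : Var} (hv : v ∈ W)
    (hvT : v ∉ T) {a : R} (ha : X v * a ∈ (sec Γ T).I) : eval z a = 0 := by
  obtain ⟨m, G, hG⟩ := h.red a
  have h1 := h.keep_eq_zero hT (G := X v * G) fun z' hz' => by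
    have := ha z' hz'
    rw [map_mul, eval_X] at this
    rw [map_mul, eval_X, ← hG z' (mem_sec.1 hz').1, resV, if_pos hv, mul_left_comm, this, mul_zero]
  have e : resV (W \ T) z = resV W z := by
    funext u
    by_cases hu : u ∈ T
    · simp [resV, hu, (mem_sec.1 hz).2 u hu]
    · simp [resV, hu]
  rw [map_mul, map_mul, mul_eq_zero, mul_eq_zero] at h1
  rcases h1 with h1 | h1 | h1
  · exact (h.ne (by rw [← e, ← eval_keep, h1, map_zero])).elim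
  · simp [keep, hv, hvT] at h1
  · have h2 := hG z (mem_sec.1 hz).1
    rw [← e, ← eval_keep _ _ G, h1, map_zero, e] at h2
    exact (mul_eq_zero.1 h2).resolve_left (pow_ne_zero _ h.ne)

/-- the Koszul formula for coordinate sections of a space with charts -/
theorem prod_smul_one {V : Finset Var} (hV : ∀ v ∈ V, v.1 ∈ Γ.B)
    (h : ∀ z ∈ Γ.pts, ∃ W s, V ⊆ W ∧ Chart Γ W s z) (T : Finset Var) (hT : T ⊆ V) :
    (∏ v ∈ T, (1 - lb Γ (-vdeg v))) • one Γ = cl Γ (O (sec Γ T)) := by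
  induction T using Finset.induction_on with
  | empty => rw [Finset.prod_empty, one_smul, sec_empty, one]
  | insert v T hv ih =>
    have hT' : T ⊆ V := (Finset.subset_insert v T).trans hT
    have hvV := hT (Finset.mem_insert_self v T)
    rw [Finset.prod_insert hv, mul_smul, ih hT']
    refine cl_cut (Z := sec Γ (insert v T)) (sec_sub Γ T) ⟨rfl, fun z hz => mem_sec.2 ⟨(mem_sec.1 hz).1, fun u hu =>
      (mem_sec.1 hz).2 u (Finset.mem_insert_of_mem hu)⟩⟩ (Hmg.X v) (vdeg_mem (hV v hvV))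
      (fun z hz => by rw [eval_X]; exact (mem_sec.1 hz).2 v (Finset.mem_insert_self v T))
      (fun a ha z hz => ?_) fun z hz g hg => ?_
    · obtain ⟨W, s, h1, h2⟩ := h z (mem_sec.1 hz).1
      exact h2.reg (hT'.trans h1) hz (h1 hvV) hv ha
    · obtain ⟨W, s, h1, h2⟩ := h z hz
      obtain ⟨r, hr, h3⟩ := h2.loc (hT.trans h1) hg
      have h4 : Γ.I ⊔ Ideal.span ((fun u => (X u : R)) '' ((insert v T : Finset Var) : Set Var)) ≤
          Ideal.span {(X v : R)} ⊔ (sec Γ T).I := by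
        refine sup_le ((sec_sub Γ T).I_le.trans le_sup_right) (Ideal.span_le.2 ?_)
        rintro _ ⟨u, hu, rfl⟩
        rcases Finset.mem_insert.1 hu with rfl | hu
        · exact Submodule.mem_sup_left (Ideal.mem_span_singleton_self _)
        · exact Submodule.mem_sup_right fun z hz => by
            rw [eval_X]
            exact (mem_sec.1 hz).2 u hu
      obtain ⟨a, c, hc, e⟩ := Ideal.mem_span_singleton_sup.1 (h4 h3)
      exact ⟨r, a, hr, by rw [← e, mul_comm, add_sub_cancel_left]; exact hc⟩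

lemma cross_of_rk_one {ι : Type} [Fintype ι] {L : Submodule ℂ (ι → ℂ)}
    (h : Module.finrank ℂ L = 1) {u v : ι → ℂ} (hu : u ∈ L) (hv : v ∈ L) (i j : ι) :
    u i * v j = u j * v i := by
  obtain ⟨⟨e, he⟩, -, h1⟩ := finrank_eq_one_iff'.1 h
  obtain ⟨a, ha⟩ := h1 ⟨u, hu⟩
  obtain ⟨c, hc⟩ := h1 ⟨v, hv⟩
  have ha' : ∀ k, u k = a * e k := fun k => (congrFun (congrArg Subtype.val ha) k).symm
  have hc' : ∀ k, v k = c * e k := fun k => (congrFun (congrArg Subtype.val hc) k).symm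
  simp only [ha', hc']
  ring

/-- the graph of a line bundle over a product of projective spaces has charts -/
theorem exists_chart {B : Finset ℕ} {V : Finset Var} (hV : ∀ v ∈ V, v.1 ∈ B)
    {A : Bun (Spc.full B V)} {δ b y} (hΓ : IsPSub Γ A δ b y) (hA : A.Rk 1) (hz : z ∈ Γ.pts) :
    ∃ W s, V ⊆ W ∧ Chart Γ W s z := by
  classical
  have hres : ∀ z' ∈ Γ.pts, resV V z' = restr B z' := fun z' hz' => by
    funext u
    by_cases hu : u ∈ V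
    · simp [resV, restr, hu, hV u hu]
    · rw [resV, if_neg hu]
      by_contra h0
      exact hu (((hΓ.mem z').1 hz').1.2 u (Ne.symm h0)).1
  obtain ⟨hx, hy, hy0, -⟩ := (hΓ.mem z).1 hz
  obtain ⟨r, P, hr, hP⟩ := A.alg _ hx
  obtain ⟨i₀, hi₀⟩ := Function.ne_iff.1 hy0
  have hi₀' : z (y i₀) ≠ 0 := hi₀
  obtain ⟨k, hk⟩ : ∃ k, eval (restr B z) (P i₀ k) ≠ 0 := by
    by_contra h0
    push Not at h0
    have := congrFun ((hP _ hx).2 _ hy) i₀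
    rw [mev_apply, Finset.sum_eq_zero fun k _ => by
      rw [show eval (restr (Spc.full B V).B z) (P i₀ k) = 0 from h0 k, zero_mul]] at this
    exact mul_ne_zero hr hi₀' this.symm
  obtain ⟨-, -, ρ, -, hρ, hρ'⟩ := exists_rel_poly (B := B) hx.1
  have hcol : ∀ x ∈ (Spc.full B V).pts, (fun i => eval x (P i k)) ∈ A.L x := fun x hx => by
    have := (hP x hx).1 (Pi.single k 1)
    convert this using 1
    funext i
    rw [mev_apply, Finset.sum_eq_single k (fun j _ hj => by simp [hj]) (by simp)]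
    simp
  have hsub : V ⊆ insert (y i₀) V := Finset.subset_insert _ _
  have hs : ∀ (p : Pt) (q : R), eval (resV (insert (y i₀) V) p) (keep V q * X (y i₀)) =
      eval (resV V p) q * p (y i₀) := fun p q => by
    rw [map_mul, eval_keep, resV_resV hsub, eval_X, resV, if_pos (Finset.mem_insert_self _ _)]
  refine ⟨insert (y i₀) V, keep V (ρ * P i₀ k) * X (y i₀), hsub, ?_, fun g => ?_, fun p hp => ?_⟩
  · rw [hs, hres z hz, map_mul]
    exact mul_ne_zero (mul_ne_zero hρ hk) hi₀'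
  · set s := keep V (ρ * P i₀ k) * X (y i₀) with hsd
    have hvar : ∀ v, ∃ H : R, ∀ z' ∈ Γ.pts, eval (resV (insert (y i₀) V) z') s * z' v =
        eval (resV (insert (y i₀) V) z') H := by
      intro v
      by_cases h1 : v ∈ insert (y i₀) V
      · exact ⟨s * X v, fun z' _ => by rw [map_mul (eval _) s, eval_X, resV, if_pos h1]⟩
      by_cases h2 : v ∈ Set.range y
      · obtain ⟨j, rfl⟩ := h2
        refine ⟨keep V (ρ * P j k) * X (y i₀) * X (y i₀), fun z' hz' => ?_⟩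
        obtain ⟨hx', hy', -, -⟩ := (hΓ.mem z').1 hz'
        have h3 := cross_of_rk_one (hA _ hx') (hcol _ hx') hy' i₀ j
        rw [map_mul (eval _) (keep V (ρ * P j k) * X (y i₀)), hsd, hs, hs, eval_X, resV,
          if_pos (Finset.mem_insert_self _ _), hres z' hz', map_mul, map_mul]
        change eval (restr B z') (P i₀ k) * z' (y j) = eval (restr B z') (P j k) * z' (y i₀) at h3
        linear_combination eval (restr B z') ρ * z' (y i₀) * h3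
      · refine ⟨0, fun z' hz' => ?_⟩
        obtain ⟨hx', -, -, h3⟩ := (hΓ.mem z').1 hz'
        have h4 : z' v = 0 := by
          by_contra h0
          have h5 := (h3 v h0).resolve_right h2
          exact h1 (hsub (hx'.2 v (restr_ne.2 ⟨h5, h0⟩)).1)
        rw [h4, mul_zero, map_zero]
    induction g using MvPolynomial.induction_on with
    | C c => exact ⟨0, C c, fun z' _ => by simp⟩
    | add p q hp hq =>
      obtain ⟨m, G, hG⟩ := hp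
      obtain ⟨n, H, hH⟩ := hq
      refine ⟨m + n, s ^ n * G + s ^ m * H, fun z' hz' => ?_⟩
      simp only [map_add, map_mul (eval _) (s ^ _), map_pow, ← hG z' hz', ← hH z' hz']
      ring
    | mul_X p v hp =>
      obtain ⟨m, G, hG⟩ := hp
      obtain ⟨H, hH⟩ := hvar v
      refine ⟨m + 1, G * H, fun z' hz' => ?_⟩
      rw [map_mul (eval _) G, ← hG z' hz', ← hH z' hz', map_mul (eval z'), eval_X]
      ring
  · rw [hs, map_mul] at hp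
    have h1 := left_ne_zero_of_mul (left_ne_zero_of_mul hp)
    have h2 := right_ne_zero_of_mul (left_ne_zero_of_mul hp)
    have h3 := right_ne_zero_of_mul hp
    have hx' : resV V p ∈ (Spc.full B V).pts := ⟨hρ' _ h1, fun v hv => by
      have : v ∈ V := by
        by_contra h0
        exact hv (if_neg h0)
      exact ⟨this, hV v this⟩⟩
    have hval : ((p (y i₀) / eval (resV V p) (P i₀ k)) • fun i => eval (resV V p) (P i k)) i₀ =
        p (y i₀) := div_mul_cancel₀ _ h2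
    obtain ⟨z', hz', e1, e2⟩ := hΓ.exists_pt hx'
      ((A.L _).smul_mem (p (y i₀) / eval (resV V p) (P i₀ k)) (hcol _ hx'))
      fun h0 => h3 (by rw [← hval, h0]; rfl)
    refine ⟨z', hz', funext fun u => ?_⟩
    unfold resV
    split_ifs with hu
    · rcases Finset.mem_insert.1 hu with rfl | hu
      · exact (congrFun e2 i₀).trans hval
      · have := congrFun ((hres z' hz').trans e1) u
        simpa [resV, hu] using this
    · rfl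

end Crest.Agent.N265.Zr
end
end

-- ▼ part N265/Top/Zero
section

/-! # Task TOP-ZERO: generic lemmas producing the fields of `NestK`, `Model.cases`, `Eval` -/

set_option autoImplicit false
noncomputable section
open Polynomial

namespace Crest.Agent.N265
open Bun
variable {X Y P Z N : Spc}

lemma ext_res_eq {A : Bun X} {r : ℕ} (h : A.Rk r) (φ : (Op X)[X]) :
    Ext.res (chp A r) r φ = Formal.res (chp A r) φ := by
  rcases subsingleton_or_nontrivial (Op X) with h0 | h0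
  · exact Subsingleton.elim _ _
  · rw [Ext.res, Formal.res, chp_natDegree h]
/-- pushing along `N → Z ⊂ P → X` -/
lemma push_chain (pP : Proj P X) (hZ : Z.Sub P) {e : Op P} (hz : push Z P (one Z) = e • one P)
    (q : Proj N Z) (hq : push N Z (one N) = one Z) (u : Op P) :
    push N X (Op.pull (q.trans hZ.proj) u • one N) = push P X ((u * e) • one P) := by
  rw [← push_push (q.trans hZ.proj) pP, push_smul, ← push_push q hZ.proj, hq, hz, mul_smul]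
lemma pull_eval₂ (q : Proj N P) (p : Proj P X) (π : Proj N X) (φ : (Op X)[X]) (u : Op P) :
    φ.eval₂ (Op.pull π) (Op.pull q u) = Op.pull q (φ.eval₂ (Op.pull p) u) := by
  rw [Polynomial.hom_eval₂]
  congr 1
  exact RingHom.ext fun v => (Op.pull_pull q p v).symm
lemma eu_lb_mul (p : Proj P X) {E : Bun P} {U : Bun X} {d : D}
    (hE : E.kl = lbK P d * K.pull p U.kl) : eu E = (Lam U).eval₂ (Op.pull p) (lb P (-d)) := by
  rw [eu_tens (A := U.pull p) (l := line P d) (rk_line d) (hE.trans (by rw [K.pull_kl]; rfl)),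
    Lam_pull, eval_map, lb, ← K.dual_lbK]
  rfl
lemma eval₂_reflect_lb (p : Proj P X) (φ : (Op X)[X]) {n : ℕ} (h : φ.natDegree ≤ n) (d : D) :
    (φ.reflect n).eval₂ (Op.pull p) (lb P (-d)) * lb P d ^ n = φ.eval₂ (Op.pull p) (lb P d) :=
  let _ : Invertible (lb P d) := ⟨lb P (-d), by rw [mul_comm, lb_mul_neg], lb_mul_neg d⟩
  Polynomial.eval₂_reflect_mul_pow (Op.pull p) (lb P d) n φ h

section
variable {A : Bun X} {δ : D} {b : ℕ} {y : A.ι → Var}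
/-- lines `ℓ ⊂ B` killed by `B → U` -/
theorem z1_of {U B l₁ : Bun X} {r : ℕ} (hU : U.Rk (r + 1)) (hB : B.Rk r) (hl : l₁.Rk 1)
    (hdet : (U.det _ hU).kl = l₁.kl * (B.det _ hB).kl)
    (hP : IsPSub P A δ b y) (hA : A.kl = B.kl) (hrA : A.Rk r) (hZ : Z.Sub P) (E : Bun P)
    (hE : E.kl = lbK P (eB b - δ) * K.pull hP.proj U.kl) (hz : push Z P (one Z) = eu E • one P)
    (q : Proj N Z) (hq : push N Z (one N) = one Z) (π : Proj N X) (l : Bun N)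
    (hlN : l.kl = lbK N (δ - eB b)) (φ : (Op X)[X]) :
    push N X ((φ.eval₂ (Op.pull π) (op N l.kl) * op N l.kl * Op.pull π (op _ l₁.kl)) • one N)
      = Formal.res (chp B r) (φ * chp U (r + 1)) • one X := by
  have _ := hl
  have hd : δ - eB b ∈ DS P.B := sub_mem (DS_mono hP.proj.sub hP.hδ) hP.b_mem
  have h1 : op N l.kl = Op.pull (q.trans hZ.proj) (lb P (δ - eB b)) := by
    rw [Op.pull_lb _ hd, hlN]; rfl
  have h2 := eu_lb_mul hP.proj hE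
  rw [neg_sub] at h2
  rw [h1, pull_eval₂ _ hP.proj, ← Op.pull_pull (q.trans hZ.proj) hP.proj, ← map_mul, ← map_mul,
    push_chain hP.proj hZ hz q hq, h2]
  rcases r with _ | r
  · have h0 : P.pts = ∅ := Set.eq_empty_of_forall_notMem fun z hz => by
      obtain ⟨h3, h4, h5, -⟩ := (hP.mem z).1 hz
      rw [Submodule.finrank_eq_zero.1 (hrA _ h3)] at h4
      exact h5 h4
    have := G.subsingleton_of_empty h0
    rw [Subsingleton.elim (_ • one P) 0, map_zero, chp_rk_zero hB,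
      Formal.res_of_dvd monic_one (one_dvd _), zero_smul]
  have h3 := hP.push_res hrA (φ * C (op _ l₁.kl) * Lam U)
  rw [eval₂_mul, eval₂_mul, eval₂_C, chp_congr hA, ext_res_eq hB, chp_coeff_zero hB,
    ← Formal.res_C_mul] at h3
  rw [chp_eq hU, hdet, map_mul (op X)]
  convert h3 using 3
  · ring
  · simp only [map_mul, map_neg, map_pow, map_one]
    ring
/-- quotient lines `U → ℓ` killing `B` -/
theorem z2_of {U B : Bun X} {r : ℕ} (hU : U.Rk (r + 1)) (hB : B.Rk r)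
    (hP : IsPSub P A δ b y) (hA : A.kl = K.dual X U.kl) (hrA : A.Rk (r + 1)) (hZ : Z.Sub P)
    (E : Bun P) (hE : E.kl = lbK P (eB b - δ) * K.pull hP.proj (K.dual X B.kl))
    (hz : push Z P (one Z) = eu E • one P) (q : Proj N Z) (hq : push N Z (one N) = one Z)
    (π : Proj N X) (l : Bun N) (hlN : l.kl = lbK N (eB b - δ)) :
    (chp U (r + 1)).eval₂ (Op.pull π) (op N l.kl) = 0 ∧ ∀ φ : (Op X)[X],
      push N X (φ.eval₂ (Op.pull π) (op N l.kl) • one N)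
        = Formal.res (chp U (r + 1)) (φ * chp B r) • one X := by
  have hd : eB b - δ ∈ DS P.B := sub_mem hP.b_mem (DS_mono hP.proj.sub hP.hδ)
  have h1 : op N l.kl = Op.pull (q.trans hZ.proj) (lb P (eB b - δ)) := by
    rw [Op.pull_lb _ hd, hlN]; rfl
  refine ⟨?_, fun φ => ?_⟩
  · have h2 := hP.chp_root hrA
    have h3 := eval₂_reflect_lb hP.proj (Lam U) (Lam_natDegree_le hU) (eB b - δ)
    rw [← chp_dual hU hA, neg_sub, h2, zero_mul] at h3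
    rw [h1, pull_eval₂ _ hP.proj, chp_eq hU, eval₂_mul, ← h3, mul_zero, map_zero]
  obtain ⟨B', hB', -⟩ := B.exists_dual
  have h2 := eu_lb_mul hP.proj (hB' ▸ hE)
  have h3 := eval₂_reflect_lb hP.proj (chp B r) (chp_natDegree_le hB) (eB b - δ)
  rw [← Lam_dual hB hB', ← h2] at h3
  have h4 := hP.push_res' hrA (φ * chp B r)
  rw [Lam_dual hU hA, reflect_reflect, ext_res_eq hU, eval₂_mul, ← h3, mul_assoc, mul_assoc,
    ← mul_pow, ← lb_add, sub_add_sub_cancel, sub_self, lb_zero, one_pow, mul_one] at h4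
  rw [h1, pull_eval₂ _ hP.proj, push_chain hP.proj hZ hz q hq, h4]
end

/-- the vanishing of `Model.cases` -/
theorem kill_of {Ob C l : Bun X} (hl : l.Rk 1) {h0 h1 : ℕ} (h : h0 ≤ h1 + 1)
    (hOb : Ob.kl = h1 • K.dual X l.kl + C.kl) (hn : (1 - op X l.kl) ^ h0 = 0) :
    (1 - op X l.kl) * eu Ob = 0 := by
  obtain ⟨l', hl', hr⟩ := l.exists_dual
  have h2 : eu l' = 1 - op X l.kl := by
    rw [eu, Lam_rk_one fun x hx => (hr x hx).trans (hl x hx), hl', K.dual_dual]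
    simp
  have key : ∀ (n : ℕ) (C : Bun X), Ob.kl = n • l'.kl + C.kl →
      eu Ob = (1 - op X l.kl) ^ n * eu C := by
    intro n
    induction n with
    | zero => intro C h; rw [pow_zero, one_mul, eu_congr (by simpa using h)]
    | succ n ih =>
      intro C h
      rw [ih (l'.sum C) (by rw [h, kl_sum, succ_nsmul, add_assoc]), eu_add (kl_sum l' C), h2,
        pow_succ, mul_assoc]
  obtain ⟨k, hk⟩ := Nat.exists_eq_add_of_le h
  rw [key h1 C (hl' ▸ hOb), ← mul_assoc, ← pow_succ', hk, pow_add, hn, zero_mul, zero_mul]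
/-- hyperplane sections of a graph over a product of two projective spaces
(zero-locus lemma on `Γ`, or induction on the number of variables with `jacobian`) -/
theorem top_of_graph {b₁ b₂ : ℕ} (hb : b₁ ≠ b₂) {V : Finset Var} {w : ℕ → ℤ}
    (hV : ∀ v ∈ V, v.1 = b₁ ∨ v.1 = b₂) {n₁ n₂ : ℕ}
    (h₁ : (V.filter (·.1 = b₁)).card = n₁ + 1) (h₂ : (V.filter (·.1 = b₂)).card = n₂ + 1)
    {Γ : Spc} {A : Bun (Spc.full {b₁, b₂} V)} {δ b y} (hΓ : IsPSub Γ A δ b y) (hA : A.Rk 1)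
    (hw : Γ.TTriv w) : ∃ P : Spc, P.Sub Γ ∧ P.IsPt w ∧
      ((1 - lb Γ (-(eB b₁ + w b₁ • eT))) ^ n₁ * (1 - lb Γ (-(eB b₂ + w b₂ • eT))) ^ n₂) • one Γ =
        incl P Γ (one P) := by
  classical
  have hVB : ∀ v ∈ V, v.1 ∈ ({b₁, b₂} : Finset ℕ) := fun v hv => by simpa using hV v hv
  obtain ⟨v₁, hv₁⟩ := Finset.card_pos.1 (n₁.succ_pos.trans_eq h₁.symm)
  obtain ⟨v₂, hv₂⟩ := Finset.card_pos.1 (n₂.succ_pos.trans_eq h₂.symm)
  obtain ⟨m₁, e₁⟩ := Finset.mem_filter.1 hv₁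
  obtain ⟨m₂, e₂⟩ := Finset.mem_filter.1 hv₂
  have lift : ∀ W : Finset Var, W ⊆ V → v₁ ∈ W → v₂ ∈ W →
      ∃ z ∈ Γ.pts, ∀ v : Var, v.1 ∈ ({b₁, b₂} : Finset ℕ) → z v = if v ∈ W then 1 else 0 := by
    intro W hW k₁ k₂
    have hx : (fun v => if v ∈ W then 1 else 0 : Pt) ∈ (Spc.full {b₁, b₂} V).pts := by
      refine ⟨fun c hc => ?_, fun v hv => ?_⟩
      · rcases Finset.mem_insert.1 hc with rfl | hc
        · exact ⟨v₁, e₁, by simp [k₁]⟩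
        · exact ⟨v₂, e₂.trans (Finset.mem_singleton.1 hc).symm, by simp [k₂]⟩
      · have : v ∈ W := by simpa using hv
        exact ⟨hW this, hVB v (hW this)⟩
    obtain ⟨⟨u, hu⟩, hu0, -⟩ := finrank_eq_one_iff'.1 (hA _ hx)
    obtain ⟨z, hz, e, -⟩ := hΓ.exists_pt hx hu fun h0 => hu0 (Subtype.ext h0)
    exact ⟨z, hz, fun v hv => by simpa [restr, hv] using congrFun e v⟩
  have hdeg : ∀ v ∈ V, vdeg v = eB v.1 + w v.1 • eT := fun v hv => by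
    obtain ⟨z, hz, e⟩ := lift V subset_rfl m₁ m₂
    rw [vdeg, hw z hz v (by simp [e v (hVB v hv), hv])]
  have hdis : Disjoint ((V.filter (·.1 = b₁)).erase v₁) ((V.filter (·.1 = b₂)).erase v₂) :=
    Finset.disjoint_left.2 fun v k₁ k₂ => hb
      ((Finset.mem_filter.1 (Finset.mem_of_mem_erase k₁)).2.symm.trans
        (Finset.mem_filter.1 (Finset.mem_of_mem_erase k₂)).2)
  set T := (V.filter (·.1 = b₁)).erase v₁ ∪ (V.filter (·.1 = b₂)).erase v₂ with hT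
  have hTV : T ⊆ V := Finset.union_subset
    ((Finset.erase_subset _ _).trans (Finset.filter_subset _ _))
    ((Finset.erase_subset _ _).trans (Finset.filter_subset _ _))
  have hmemT : ∀ v ∈ V, v ≠ v₁ → v ≠ v₂ → v ∈ T := fun v hv k₁ k₂ => by
    rcases hV v hv with k | k <;> simp [hT, hv, k, k₁, k₂]
  have hp := Zr.prod_smul_one (Γ := Γ) (V := V) (fun v hv => hΓ.proj.sub (hVB v hv))
    (fun z hz => Zr.exists_chart hVB hΓ hA hz) T hTV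
  have hpow : ∀ (c : ℕ) (u : Var) (n : ℕ), u ∈ V.filter (·.1 = c) →
      (V.filter (·.1 = c)).card = n + 1 →
      ∏ v ∈ (V.filter (·.1 = c)).erase u, (1 - lb Γ (-vdeg v)) =
        (1 - lb Γ (-(eB c + w c • eT))) ^ n := fun c u n hu hn => by
    rw [Finset.prod_congr rfl (g := fun _ => 1 - lb Γ (-(eB c + w c • eT))) fun v hv => by
      obtain ⟨k₁, k₂⟩ := Finset.mem_filter.1 (Finset.mem_of_mem_erase hv)
      rw [hdeg v k₁, k₂], Finset.prod_const, Finset.card_erase_of_mem hu, hn, Nat.add_sub_cancel]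
  rw [hT, Finset.prod_union hdis, hpow _ _ _ hv₁ h₁, hpow _ _ _ hv₂ h₂, ← hT] at hp
  refine ⟨Zr.sec Γ T, Zr.sec_sub Γ T, ⟨hw.sub (Zr.sec_sub Γ T), ?_⟩,
    hp.trans (incl_cl (Zr.sec_sub Γ T) (GM.red_O _).on).symm⟩
  obtain ⟨z, hz, e⟩ := lift {v₁, v₂} (by simp [Finset.insert_subset_iff, m₁, m₂]) (by simp)
    (by simp)
  refine ⟨z, Zr.mem_sec.2 ⟨hz, fun u hu => ?_⟩, fun z' hz' => ?_⟩
  · rw [e u (hVB u (hTV hu)), if_neg]
    intro k
    rcases Finset.mem_insert.1 k with rfl | k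
    · simp [hT, e₁, hb] at hu
    · rw [Finset.mem_singleton.1 k] at hu
      simp [hT, e₂, hb.symm] at hu
  obtain ⟨k₁, k₂⟩ := Zr.mem_sec.1 hz'
  obtain ⟨x₁, y₁, -, s₁⟩ := (hΓ.mem z').1 k₁
  have hzero : ∀ v : Var, v.1 ∈ ({b₁, b₂} : Finset ℕ) → v ≠ v₁ → v ≠ v₂ → z' v = 0 := by
    intro v hv j₁ j₂
    by_contra h0
    exact h0 (k₂ v (hmemT v (x₁.2 v (Sp.restr_ne.2 ⟨hv, h0⟩)).1 j₁ j₂))
  have hbn : b ∉ ({b₁, b₂} : Finset ℕ) := hΓ.new
  let c : ℕ → ℂ := fun j => if j = b₁ then z' v₁ else if j = b₂ then z' v₂ else 1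
  have hc : ∀ v : Var, v.1 ∈ ({b₁, b₂} : Finset ℕ) → z' v = c v.1 * z v := fun v hv => by
    rw [e v hv]
    by_cases j₁ : v = v₁
    · simp [c, j₁, e₁]
    by_cases j₂ : v = v₂
    · simp [c, j₂, e₂, hb.symm]
    · simp [j₁, j₂, hzero v hv j₁ j₂]
  have hc0 : ∀ j ∈ Γ.B, c j ≠ 0 := fun j hj => by
    by_cases hj' : j ∈ ({b₁, b₂} : Finset ℕ)
    · obtain ⟨v, rfl, hv⟩ := Γ.rel z' k₁ j hj
      exact left_ne_zero_of_mul (hc v hj' ▸ hv)
    · simp only [Finset.mem_insert, Finset.mem_singleton, not_or] at hj'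
      simp [c, hj'.1, hj'.2]
  have hcb : c b = 1 := by
    simp only [Finset.mem_insert, Finset.mem_singleton, not_or] at hbn
    simp [c, hbn.1, hbn.2]
  obtain ⟨-, y₂, n₂', s₂⟩ := (hΓ.mem _).1 (Sp.bsc_mem hz hc0)
  have er : restr (Spc.full {b₁, b₂} V).B (Sp.bsc c z) = restr (Spc.full {b₁, b₂} V).B z' := by
    funext v
    by_cases hv : v.1 ∈ ({b₁, b₂} : Finset ℕ)
    · exact (if_pos hv).trans ((hc v hv).symm.trans (if_pos hv).symm)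
    · exact (if_neg hv).trans (if_neg hv).symm
  have ey : ∀ i, Sp.bsc c z (y i) = z (y i) := fun i => by
    rw [Sp.bsc_apply, hΓ.blk, hcb, one_mul]
  rw [er] at y₂
  obtain ⟨i₀, hi₀⟩ := Function.ne_iff.1 n₂'
  have hi₀' : z (y i₀) ≠ 0 := ey i₀ ▸ hi₀
  refine ⟨fun j => if j = b then z' (y i₀) / z (y i₀) else c j, fun v => ?_⟩
  beta_reduce
  by_cases hv : v.1 ∈ ({b₁, b₂} : Finset ℕ)
  · rw [if_neg fun k : v.1 = b => hbn (k ▸ hv), hc v hv]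
  by_cases hy : v ∈ Set.range y
  · obtain ⟨i, rfl⟩ := hy
    have := Zr.cross_of_rk_one (hA _ x₁) y₁ y₂ i i₀
    simp only [ey] at this
    rw [if_pos (hΓ.blk i)]
    field_simp
    linear_combination this
  · have j₁ : z' v = 0 := by_contra fun h0 => (s₁ v h0).elim hv hy
    have j₂ : z v = 0 := by_contra fun h0 => (((hΓ.mem z).1 hz).2.2.2 v h0).elim hv hy
    rw [j₁, j₂, mul_zero]
/-- transport along a graph projection -/
theorem push_smul_one (q : Proj Y X) (hq : push Y X (one Y) = one X) (u : Op X) :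
    push Y X (Op.pull q u • one Y) = u • one X := by rw [push_smul, hq]

end Crest.Agent.N265
end
end

-- ▼ part N265/Fx/Base0
section

/-!
# Row 265, M-FIX, task FX-BASE (helper83): the graph over `P(H⁰ β₁) × P(H⁰ β₂)`
-/

set_option autoImplicit false
set_option linter.dupNamespace false
noncomputable section
open MvPolynomial Module TensorProduct

namespace Crest.Agent.N265.M
open Crest.Agent.R274
open Defs_781 Lat_781 SnapA_99 SnapB_99 SnapE_99 Gen7_750 Xs1_781 SkDefs_474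
open Alg GV Br N Fib _root_.Crest.Agent.N265.Pow

namespace FB
section gen
variable {X P : Spc} {A : Bun X} {δ : D} {b : ℕ} {y : A.ι → Var}
lemma psub_surj (h : IsPSub P A δ b y) (hA : A.Rk 1) {x : Pt} (hx : x ∈ X.pts) :
    ∃ z ∈ P.pts, restr X.B z = x := by
  obtain ⟨⟨u, hu⟩, hu0, -⟩ := finrank_eq_one_iff'.1 (hA _ hx)
  obtain ⟨z, hz, e, -⟩ := h.exists_pt hx hu fun h0 => hu0 (Subtype.ext h0)
  exact ⟨z, hz, e⟩
lemma sm_base (h : IsPSub P A δ b y) (hA : A.Rk 1) {n : ℕ} (hP : P.Sm (n + 1)) : X.Sm n :=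
  fun x hx => by
    obtain ⟨z, hz, rfl⟩ := psub_surj h hA hx
    obtain ⟨h1, h2⟩ := hP z hz
    rw [h.finrank_tan hz, hA _ hx] at h1
    rw [h.ldim hz, hA _ hx, Nat.cast_add] at h2
    exact ⟨Nat.add_right_cancel h1, WithTop.add_right_cancel (ENat.natCast_ne_top 1) h2⟩
lemma irred_base (h : IsPSub P A δ b y) (hA : A.Rk 1) (hP : P.Irred) : X.Irred :=
  hP.of_surj h.proj fun _ hx => psub_surj h hA hx
lemma wt_of_sc {V : GV} {k : ℤ} (hV : V.Sc (k • eT)) {L : Pt → Submodule ℂ V.V} (hA : Pres A V L)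
    {y : A.ι → Var} (h : IsPSub P A 0 b y) (i : A.ι) : (y i).2.2 = k := by
  have := DFunLike.congr_fun ((hV.deg_eq hA i).symm.trans (h.deg i)) none
  simpa [eT] using this.symm
/-- the image of a point -/
lemma push_incl_pt {Q : Spc} (p : Proj P X) (hQ : Q.Sub P) {w w' : ℕ → ℤ} (h : Q.IsPt w)
    (hw : X.TTriv w') : ∃ Q' : Spc, Q'.Sub X ∧ Q'.IsPt w' ∧
      push P X (incl Q P (one Q)) = incl Q' X (one Q') := by
  have q := hQ.proj.trans p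
  have hp : ∃ x ∈ (Q.img X.B q.sub).pts, ∀ y ∈ (Q.img X.B q.sub).pts,
      ∃ c : ℕ → ℂ, ∀ v, y v = c v.1 * x v := by
    obtain ⟨x, hx, hx'⟩ := h.2
    refine ⟨_, ⟨x, hx, rfl⟩, ?_⟩
    rintro _ ⟨z, hz, rfl⟩
    obtain ⟨c, hc⟩ := hx' z hz
    refine ⟨c, fun v => ?_⟩
    by_cases hv : v.1 ∈ X.B <;> simp [restr, hv, hc]
  refine ⟨Q.img X.B q.sub, q.img_sub, ⟨hw.sub q.img_sub, hp⟩, ?_⟩
  rw [← push_eq_incl hQ, push_push hQ.proj p, ← push_eq_incl q.img_sub,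
    ← push_one_pt h ⟨h.1.img _ _, hp⟩ (Q.proj_img _ _), push_push (Q.proj_img _ _) q.img_sub.proj]
variable {V W : GV}
lemma blk_of_mem (γ : Blk V) {b : ℕ} {v : Var} (h : v ∈ γ.vars b) : v.1 = b := by
  obtain ⟨i, -, rfl⟩ := Finset.mem_image.1 h
  rfl
lemma vec_ne_iff (γ : Blk V) {b : ℕ} {x : Pt} : γ.vec b x ≠ 0 ↔ ∃ v ∈ γ.vars b, x v ≠ 0 := by
  refine ⟨fun h => by_contra fun h' => h (γ.e.ext_elem fun i => ?_), ?_⟩
  · rw [γ.repr_vec, map_zero, Finsupp.zero_apply]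
    exact by_contra fun h0 => h' ⟨_, Finset.mem_image_of_mem _ (Finset.mem_univ i), h0⟩
  · rintro ⟨v, hv, h0⟩ e
    obtain ⟨i, -, rfl⟩ := Finset.mem_image.1 hv
    exact h0 ((γ.repr_vec b x i).symm.trans (by rw [e, map_zero, Finsupp.zero_apply]))
lemma card_vars (γ : Blk V) (b : ℕ) : (γ.vars b).card = finrank ℂ V.V := by
  rw [Blk.vars, Finset.card_image_of_injective _ (γ.var_inj b), finrank_eq_card_basis γ.e,
    Finset.card_univ]
lemma filter_vars (γ : Blk V) (γ' : Blk W) {b b' : ℕ} (h : b ≠ b') :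
    (γ.vars b ∪ γ'.vars b').filter (·.1 = b) = γ.vars b := by
  ext v
  rw [Finset.mem_filter, Finset.mem_union]
  exact ⟨fun hv => hv.1.resolve_right fun k => h (hv.2.symm.trans (blk_of_mem γ' k)),
    fun hv => ⟨Or.inl hv, blk_of_mem γ hv⟩⟩
lemma mem_full2 (γ : Blk V) (γ' : Blk W) {b b' : ℕ} (h : b ≠ b') {x : Pt} :
    x ∈ (Spc.full {b, b'} (γ.vars b ∪ γ'.vars b')).pts ↔ γ.vec b x ≠ 0 ∧ γ'.vec b' x ≠ 0 ∧
      ∀ v, x v ≠ 0 → v ∈ γ.vars b ∨ v ∈ γ'.vars b' := by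
  rw [vec_ne_iff, vec_ne_iff, Spc.mem_full]
  refine ⟨fun ⟨h1, h2⟩ => ⟨?_, ?_, fun v hv => Finset.mem_union.1 (h2 v hv).1⟩,
    fun ⟨⟨v, hv, h1⟩, ⟨v', hv', h2⟩, h3⟩ => ⟨fun c hc => ?_, fun u hu =>
      ⟨Finset.mem_union.2 (h3 u hu), ?_⟩⟩⟩
  · obtain ⟨v, e, hv⟩ := h1 b (by simp)
    exact ⟨v, (Finset.mem_union.1 (h2 v hv).1).resolve_right
      fun k => h (e.symm.trans (blk_of_mem γ' k)), hv⟩
  · obtain ⟨v, e, hv⟩ := h1 b' (by simp)
    exact ⟨v, (Finset.mem_union.1 (h2 v hv).1).resolve_left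
      fun k => h ((blk_of_mem γ k).symm.trans e), hv⟩
  · rcases Finset.mem_insert.1 hc with rfl | hc
    · exact ⟨v, blk_of_mem γ hv, h1⟩
    · exact ⟨v', (blk_of_mem γ' hv').trans (Finset.mem_singleton.1 hc).symm, h2⟩
  · rcases h3 u hu with k | k
    · simp [blk_of_mem γ k]
    · simp [blk_of_mem γ' k]
end gen

variable {Sg : Surf} {p : ℕ} {β β₁ β₂ : Sg.V.G} {k k₁ k₂ : ℤ} {b : ℕ}

lemma mem_O_neg (E : Sg.V.G) {s : Sg.F} (hs : s ≠ 0) {T : Finset (Fin 3)} (hT : T.Nonempty)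
    (x : Sg.F) : x ∈ Sg.V.T.O (-(β + Sg.V.div s hs) + E) T ↔ s⁻¹ * x ∈ Sg.V.T.O (-β + E) T := by
  rw [← Ch.mem_O_div _ (inv_ne_zero hs) hT, div_inv' hs, neg_add, add_right_comm]
lemma mem_Gm_neg {s : Sg.F} (hs : s ≠ 0) (e : ℤ) (x : Sg.F) :
    x ∈ Gm (OL Sg.V.T (-(β + Sg.V.div s hs))).toLat e ↔ s⁻¹ * x ∈ Gm (OL Sg.V.T (-β)).toLat e := by
  rw [Gm_OL, Gm_OL, mem_Sec, mem_Sec]
  exact forall₂_congr fun _ hT => mem_O_neg _ hs hT x
open Classical in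
/-- the ideal of the divisor of `s` -/
def JJ (β : Sg.V.G) (s : SB Sg β) : XL Sg Sg.F :=
  if h : s.1 ≠ 0 then OL Sg.V.T (-(β + Sg.V.div s.1 h)) else OX Sg.V.X
lemma JJ_eq {s : SB Sg β} (h : s.1 ≠ 0) : JJ β s = OL Sg.V.T (-(β + Sg.V.div s.1 h)) := dif_pos h
lemma val_ne {s : SB Sg β} (h : s ≠ 0) : s.1 ≠ 0 := fun e => h (Subtype.ext e)
lemma JJ_ty {s : SB Sg β} (h : s ≠ 0) : Ty (JJ β s) β 0 := JJ_eq (val_ne h) ▸ ty_OL _
lemma JJ_le {s : SB Sg β} (h : s ≠ 0) : LeL (JJ β s) (OX Sg.V.X) :=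
  JJ_eq (val_ne h) ▸ OL_le _ s.2
lemma eqv_JJ_iff {I : XL Sg Sg.F} (h : Ty I β 0) (le : LeL I (OX Sg.V.X)) {s : SB Sg β}
    (hs : s ≠ 0) : EqL I (JJ β s) ↔ s ∈ lS β I := by
  rw [JJ_eq (val_ne hs)]
  refine ⟨fun e => Submodule.subset_span ⟨val_ne hs, e.le⟩, fun hm => ?_⟩
  obtain ⟨f, hf, h1, h2⟩ := h
  rw [lS_eq_span (f := ⟨f, (mem_SB_iff hf).2 (eff_of_FC h1 le)⟩) h1,
    Submodule.mem_span_singleton] at hm
  obtain ⟨c, rfl⟩ := hm
  have hc : c ≠ 0 := left_ne_zero_of_smul hs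
  refine (h1.eqv_of_len h2).trans fun T hT => Submodule.ext fun x => ?_
  have e1 := mem_O_neg (β := β) 0 hf hT x
  have e2 := mem_O_neg (β := β) 0 (val_ne hs) hT x
  rw [add_zero, add_zero] at e1 e2
  refine e1.trans (Iff.trans ?_ e2.symm)
  change _ ↔ (c • f)⁻¹ * x ∈ _
  rw [smul_inv₀, smul_mul_assoc, Submodule.smul_mem_iff _ (inv_ne_zero hc)]
lemma mul_mem_SA (s : SB Sg β) (q : Gm (OL Sg.V.T (-β)).toLat p) : s.1 * q.1 ∈ SA Sg p := by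
  by_cases hs : s.1 = 0
  · rw [hs, zero_mul]; exact zero_mem _
  rw [SA_eq]
  exact Gm_mono (OL_le hs s.2) _ ((mem_Gm_neg hs _ _).2 (by rw [inv_mul_cancel_left₀ hs]; exact q.2))
/-- `(s, q) ↦ s q` -/
def mulQ (β : Sg.V.G) (p : ℕ) (k : ℤ) :
    SB Sg β →ₗ[ℂ] Gm (OL Sg.V.T (-β)).toLat p →ₗ[ℂ] ((r1 Sg k).G p).V :=
  LinearMap.mk₂ ℂ (fun s q _ => ⟨s.1 * q.1, mul_mem_SA s q⟩)
    (fun _ _ _ => funext fun _ => Subtype.ext (add_mul _ _ _))
    (fun _ _ _ => funext fun _ => Subtype.ext (smul_mul_assoc _ _ _))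
    (fun _ _ _ => funext fun _ => Subtype.ext (mul_add _ _ _))
    fun _ _ _ => funext fun _ => Subtype.ext (mul_smul_comm _ _ _)
lemma inc_mulQ (s : SB Sg β) (q : Gm (OL Sg.V.T (-β)).toLat p) :
    (r1 Sg k).inc p (mulQ β p k s q) = s.1 * q.1 := rfl
lemma map_mulQ {s : SB Sg β} (hs : s ≠ 0) :
    (⊤ : Submodule ℂ _).map (mulQ β p k s) = (r1 Sg k).pc (JJ β s) p := by
  ext w
  rw [Amb.mem_pc (𝔞 := r1 Sg k), JJ_eq (val_ne hs), mem_Gm_neg]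
  refine ⟨?_, fun h => ⟨⟨_, h⟩, trivial, (r1 Sg k).inc_inj p ?_⟩⟩
  · rintro ⟨q, -, rfl⟩
    rw [inc_mulQ, inv_mul_cancel_left₀ (val_ne hs)]
    exact q.2
  · rw [inc_mulQ, mul_inv_cancel_left₀ (val_ne hs)]
/-- the family of the ideals `O(-D)`, `D ∈ |β|` -/
theorem ifam_OL {X Z : Spc} {I : Pt → XL Sg Sg.F} (h : IFam X p β 0 k I)
    (hex : ∀ s : SB Sg β, s ≠ 0 → ∃ x ∈ X.pts, EqL (I x) (JJ β s)) (γ : Blk (LG Sg β k)) {c : ℕ}
    (hc : c ∈ Z.B) (h0 : ∀ z ∈ Z.pts, γ.vec c z ≠ 0) :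
    IFam Z p β 0 k fun z => JJ β (γ.vec c z) := by
  have hG : ((r1 Sg k).G p).Sc (k • eT) := sc_pi fun _ => sc_shift _ _
  have hQ := sc_shift (Gm (OL Sg.V.T (-β)).toLat p) (-eB c)
  have hφ : IsRM Z _ ((r1 Sg k).G p) _ := IsRM.of_bilin
    (V := (triv (Gm (OL Sg.V.T (-β)).toLat p)).shift (-eB c)) (γ.isRV_vec c) (mulQ β p k)
    fun s q => by
      rw [((sc_shift (SB Sg β) (k • eT)).shift (eB c)) s, hQ q, hG, map_smul, map_smul,
        LinearMap.smul_apply, smul_smul, ← chi_add, neg_add_cancel_comm_assoc]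
  refine ⟨LFam.of_one h.fam.two (fun z hz => Fam.LE.trans (JJ_le (h0 z hz)) (r1_O k).symm.le)
    (fun z hz => ?_) ?_ le_rfl (((IsAB.top (hQ.in_ (neg_mem (eB_mem hc)))).map_of_inj
      ((r1 Sg k).in_G _ _) hφ fun z hz => ?_).congr fun z hz => map_mulQ (h0 z hz)),
    fun z hz => JJ_ty (h0 z hz)⟩
  · obtain ⟨x, hx, e⟩ := hex _ (h0 z hz)
    exact regL_congr e (h.fam.reg x hx)
  · obtain ⟨d, c, hc⟩ := h.fam.hp
    refine ⟨d, c, fun z hz => ?_⟩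
    obtain ⟨x, hx, e⟩ := hex _ (h0 z hz)
    exact (cL_congr e).symm.trans (hc x hx)
  · rw [top_inf_eq, LinearMap.ker_eq_bot']
    intro q hq
    have := congrArg ((r1 Sg k).inc p) hq
    rw [inc_mulQ, map_zero] at this
    exact Subtype.ext ((mul_eq_zero.1 this).resolve_left (val_ne (h0 z hz)))

/-- the two descriptions of the graph -/
structure Gr0 (u : Uni Sg p β₁ β₂ 0 0 k₁ k₂ b) where
  b₁ : ℕ
  b₂ : ℕ
  V : Finset Var
  Γ : Spc
  M : Spc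
  A : Bun (Spc.full {b₁, b₂} V)
  y : A.ι → Var
  A₁ : Bun u.F
  y₁ : A₁.ι → Var
  A₂ : Bun M
  y₂ : A₂.ι → Var
  ne : b₁ ≠ b₂
  hV : ∀ v ∈ V, v.1 = b₁ ∨ v.1 = b₂
  c₁ : (V.filter (·.1 = b₁)).card = Sg.V.hh β₁ 0
  c₂ : (V.filter (·.1 = b₂)).card = Sg.V.hh β₂ 0
  hΓ : IsPSub Γ A 0 b y
  hA : A.Rk 1
  hM : IsPSub M A₁ 0 b₁ y₁
  hΓ' : IsPSub Γ A₂ 0 b₂ y₂
  r₁ : A₁.Rk 1
  r₂ : A₂.Rk 1
  e₁ : A₁.kl = lcl u.F β₁ k₁ u.I₁
  e₂ : A₂.kl = K.pull hM.proj (lcl u.F β₂ k₂ u.I₂)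
  w₁ : ∀ i, (y₁ i).2.2 = k₁
  w₂ : ∀ i, (y₂ i).2.2 = k₂

lemma exists_ne (h : Ch.HasSec Sg.V β) : ∃ s : SB Sg β, s ≠ 0 :=
  let ⟨s, hs, h0⟩ := h
  ⟨⟨s, (mem_Sec _).2 hs⟩, fun e => h0 (congrArg Subtype.val e)⟩

theorem exists_gr0 (u : Uni Sg p β₁ β₂ 0 0 k₁ k₂ b) (h₁ : Ch.HasSec Sg.V β₁)
    (h₂ : Ch.HasSec Sg.V β₂) (l₁ : IsAB u.F (LG Sg β₁ k₁) fun x => lS β₁ (u.I₁ x))
    (l₂ : IsAB u.F (LG Sg β₂ k₂) fun x => lS β₂ (u.I₂ x)) : Nonempty (Gr0 u) := by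
  obtain ⟨γ₁⟩ := ((sc_shift (SB Sg β₁) (k₁ • eT)).in_ (zsmul_mem (eT_mem ∅) _)).exists_blk
  obtain ⟨γ₂⟩ := ((sc_shift (SB Sg β₂) (k₂ • eT)).in_ (zsmul_mem (eT_mem ∅) _)).exists_blk
  obtain ⟨t₁, ht₁⟩ := exists_ne h₁
  obtain ⟨t₂, ht₂⟩ := exists_ne h₂
  have ex := fun (s₁ : SB Sg β₁) (s₂ : SB Sg β₂) (e₁ : s₁ ≠ 0) (e₂ : s₂ ≠ 0) =>
    u.ex _ _ (JJ_le e₁) (JJ_le e₂) (JJ_ty e₁) (JJ_ty e₂)
  have hne : b + 1 ≠ b + 2 := by omega
  have mZ := fun x => mem_full2 γ₁ γ₂ hne (x := x)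
  obtain ⟨Γ, A, y, hΓ, hA, mΓ⟩ := u.graph
    (Spc.full {b + 1, b + 2} (γ₁.vars (b + 1) ∪ γ₂.vars (b + 2))) _ _ (by simp)
    (ifam_OL u.f₁ (fun s hs => (ex s t₂ hs ht₂).imp fun _ h => ⟨h.1, h.2.1⟩) γ₁ (c := b + 1)
      (by simp) fun z hz => ((mZ z).1 hz).1)
    (ifam_OL u.f₂ (fun s hs => (ex t₁ s ht₁ hs).imp fun _ h => ⟨h.1, h.2.2⟩) γ₂ (c := b + 2)
      (by simp) fun z hz => ((mZ z).1 hz).2.1)
  obtain ⟨A₁, y₁, M, p₁, hM, mM⟩ := l₁.exists_psub γ₁ (b := b + 1) (by simp [u.B])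
  have MB : M.B = {b + 1, b} := by rw [hM.B, u.B]
  obtain ⟨A₂, y₂, Γ', p₂, hΓ', mΓ'⟩ := (l₂.pull hM.proj).exists_psub γ₂ (b := b + 2) (by simp [MB])
  obtain rfl : Γ = Γ' := by
    refine Spc.ext (by rw [hΓ.B, hΓ'.B, MB]; ext; simp; omega) (Set.ext fun z => ?_)
    have v₀ := γ₁.vec_restr (B := M.B) (b := b + 1) (by simp [MB]) z
    have v₁ := γ₁.vec_restr (B := {b + 1, b + 2}) (b := b + 1) (by simp) z
    have v₂ := γ₂.vec_restr (B := {b + 1, b + 2}) (b := b + 2) (by simp) z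
    rw [mΓ, mΓ', mM, restr_restr hM.proj.sub, v₀, Spc.full_B, v₁, v₂]
    change (_ ∧ _ ∧ _) ∧ _ ↔ _
    rw [mZ, Spc.full_B, v₁, v₂]
    refine ⟨fun ⟨⟨⟨n₁, n₂, s₁⟩, hx, s₂⟩, e₁, e₂⟩ => ⟨⟨hx,
      (eqv_JJ_iff (u.f₁.ty _ hx) (u.f₁.le hx) n₁).1 e₁, n₁, fun v hv => ?_⟩,
      (eqv_JJ_iff (u.f₂.ty _ hx) (u.f₂.le hx) n₂).1 e₂, n₂, fun v hv => ?_⟩,
      fun ⟨⟨hx, e₁, n₁, s₁⟩, e₂, n₂, s₂⟩ => ⟨⟨⟨n₁, n₂, fun v hv => ?_⟩, hx, fun v hv => ?_⟩,
      (eqv_JJ_iff (u.f₁.ty _ hx) (u.f₁.le hx) n₁).2 e₁,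
      (eqv_JJ_iff (u.f₂.ty _ hx) (u.f₂.le hx) n₂).2 e₂⟩⟩
    · obtain ⟨k₁, k₂⟩ := Sp.restr_ne.1 hv
      rw [MB, Finset.mem_insert, ← u.B] at k₁
      refine k₁.symm.imp_right fun k => (s₁ v (Sp.restr_ne.2 ⟨by simp [k], k₂⟩)).resolve_right ?_
      exact fun k' => hne (k.symm.trans (blk_of_mem γ₂ k'))
    · rcases Finset.mem_union.1 (s₂ v hv) with k | k
      · exact (s₁ v (Sp.restr_ne.2 ⟨k, hv⟩)).imp_left fun k' => by simp [MB, blk_of_mem γ₁ k']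
      · exact Or.inl (hM.proj.sub k)
    · obtain ⟨k₁, k₂⟩ := Sp.restr_ne.1 hv
      refine (s₂ v k₂).imp_left fun k => (s₁ v (Sp.restr_ne.2 ⟨k, k₂⟩)).resolve_left fun k' => ?_
      exact hΓ.new (Finset.mem_singleton.1 (u.B ▸ k') ▸ k₁)
    · rcases s₂ v hv with k | k
      · rw [MB, Finset.mem_insert, ← u.B] at k
        exact Finset.mem_union.2 (k.imp_left fun k' => by simp [k'])
      · exact Finset.mem_union_left _ (by simp [blk_of_mem γ₂ k])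
  exact ⟨{
    b₁ := b + 1, b₂ := b + 2, V := _, Γ := Γ, M := M, A := A, y := y, A₁ := A₁, y₁ := y₁
    A₂ := A₂, y₂ := y₂, ne := hne
    hV := fun v hv => (Finset.mem_union.1 hv).imp (blk_of_mem γ₁) (blk_of_mem γ₂)
    c₁ := by rw [filter_vars γ₁ γ₂ hne, card_vars, Ch.hh_zero]; rfl
    c₂ := by rw [Finset.union_comm, filter_vars γ₂ γ₁ hne.symm, card_vars, Ch.hh_zero]; rfl
    hΓ := hΓ, hA := hA, hM := hM, hΓ' := hΓ'
    r₁ := fun x hx => (p₁.finrank hx).trans ((u.f₁.ty x hx).finrank_lS (u.f₁.le hx))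
    r₂ := fun x hx => (p₂.finrank hx).trans
      ((u.f₂.ty _ (hM.proj.map x hx)).finrank_lS (u.f₂.le (hM.proj.map x hx)))
    e₁ := p₁.kl
    e₂ := p₂.kl.trans (kc_pull l₂ hM.proj).symm
    w₁ := wt_of_sc (sc_shift _ _) p₁ hM
    w₂ := wt_of_sc (sc_shift _ _) p₂ hΓ' }⟩

namespace Gr0
variable {u : Uni Sg p β₁ β₂ 0 0 k₁ k₂ b} (g : Gr0 u)
include g
lemma card_V : g.V.card = Sg.V.hh β₁ 0 + Sg.V.hh β₂ 0 := by
  rw [← g.c₁, ← g.c₂, ← Finset.card_union_of_disjoint (Finset.disjoint_filter.2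
    fun v _ e e' => g.ne (e.symm.trans e')), ← Finset.filter_or, Finset.filter_true_of_mem g.hV]
theorem good (h₁ : Ch.HasSec Sg.V β₁) (h₂ : Ch.HasSec Sg.V β₂) : u.Good := by
  have n₁ := Ch.hasSec_iff.1 h₁
  have n₂ := Ch.hasSec_iff.1 h₂
  have hZ : (Spc.full {g.b₁, g.b₂} g.V).Irred := Spc.full_irred fun c hc => by
    rcases Finset.mem_insert.1 hc with rfl | hc
    · obtain ⟨v, hv⟩ := Finset.card_ne_zero.1 (g.c₁.trans_ne n₁)
      exact ⟨v, Finset.mem_filter.1 hv⟩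
    · obtain ⟨v, hv⟩ := Finset.card_ne_zero.1 (g.c₂.trans_ne n₂)
      exact ⟨v, Finset.mem_singleton.1 hc ▸ Finset.mem_filter.1 hv⟩
  have hs := g.hΓ.sm (Spc.full_sm fun v hv => by simpa using g.hV v hv) g.hA
  have hi : g.Γ.Irred := Spc.irred_of_smooth (g.hΓ.conn hZ.conn fun x hx e => by
    have := g.hA x hx
    rw [e, finrank_bot] at this
    exact zero_ne_one this) fun x hx => by rw [Spc.SmAt, (hs x hx).1, (hs x hx).2]
  refine ⟨irred_base g.hM g.r₁ (irred_base g.hΓ' g.r₂ hi),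
    sm_base g.hM g.r₁ (sm_base g.hΓ' g.r₂ ?_)⟩
  rwa [show u.dim + 1 = g.V.card by rw [g.card_V, Uni.dim]; omega]
theorem top (h₁ : Ch.HasSec Sg.V β₁) (h₂ : Ch.HasSec Sg.V β₂) :
    ∃ P : Spc, P.Sub u.F ∧ P.IsPt (fun _ => u.w) ∧
      ((1 - op _ (lcl u.F β₁ k₁ u.I₁) * Top.tO u.F (-k₁)) ^ (Sg.V.hh β₁ 0 - 1) *
        (1 - op _ (lcl u.F β₂ k₂ u.I₂) * Top.tO u.F (-k₂)) ^ (Sg.V.hh β₂ 0 - 1)) • one u.F =
        incl P u.F (one P) := by
  have n₁ := Ch.hasSec_iff.1 h₁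
  have n₂ := Ch.hasSec_iff.1 h₂
  let w : ℕ → ℤ := fun c => if c = g.b₁ then k₁ else if c = g.b₂ then k₂ else u.w
  have w₁ : w g.b₁ = k₁ := if_pos rfl
  have w₂ : w g.b₂ = k₂ := (if_neg g.ne.symm).trans (if_pos rfl)
  have wF : u.F.TTriv w := fun x hx v hv => by
    have hv' : v.1 ∈ u.F.B := (Sp.restr_ne.1 ((u.F.restr_eq hx).symm ▸ hv)).1
    rw [u.tt x hx v hv]
    exact ((if_neg fun e : v.1 = g.b₁ => g.hM.new (e ▸ hv')).trans
      (if_neg fun e : v.1 = g.b₂ => g.hΓ'.new (e ▸ g.hM.proj.sub hv'))).symm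
  obtain ⟨P, hP, hpt, e⟩ := top_of_graph g.ne g.hV (g.c₁.trans (Nat.sub_one_add_one n₁).symm)
    (g.c₂.trans (Nat.sub_one_add_one n₂).symm) g.hΓ g.hA
    (g.hΓ'.ttriv (g.hM.ttriv wF fun i => (g.w₁ i).trans w₁.symm) fun i => (g.w₂ i).trans w₂.symm)
  have π := g.hΓ'.proj.trans g.hM.proj
  obtain ⟨Q, hQ, hQ', e'⟩ := push_incl_pt π hP hpt u.tt
  refine ⟨Q, hQ, hQ', ?_⟩
  have k : ∀ (c : ℕ) (k : ℤ) (l : K u.F), K.pull π l = lbK g.Γ (0 - eB c) →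
      Op.pull π (1 - op _ l * Top.tO u.F (-k)) = 1 - lb g.Γ (-(eB c + k • eT)) := fun c k l h => by
    rw [map_sub, map_one, map_mul, Op.pull_op, h, Op.pull_lb _ (zsmul_mem (eT_mem _) _), neg_add,
      lb_add, zero_sub, neg_smul]
    rfl
  rw [← e', ← e, ← push_smul_one π (by
    rw [← push_push g.hΓ'.proj g.hM.proj, g.hΓ'.push_one g.r₂, g.hM.push_one g.r₁]),
    map_mul, map_pow, map_pow, k g.b₁, k g.b₂, w₁, w₂]
  · rw [← K.pull_pull g.hΓ'.proj g.hM.proj, ← g.e₂, K.pull_kl, g.hΓ'.kl_graph g.r₂]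
  · rw [← K.pull_pull g.hΓ'.proj g.hM.proj, ← g.e₁, K.pull_kl, g.hM.kl_graph g.r₁,
      K.pull_lbK _ (sub_mem (zero_mem _) g.hM.b_mem)]
end Gr0
end FB

end Crest.Agent.N265.M
end
end

-- ▼ part N265/Fx/Base
section

/-!
# Row 265, M-FIX, task FX-BASE: level zero is a graph over `P(H⁰ β₁) × P(H⁰ β₂)`

Plan.  Choose blocks `b₁ ≠ b₂`, both `≠ b`, and `Blk`s `γ_i` of `LG Sg β_i k_i` (`In.exists_blk`; all
weights are `k_i`, `chi` is injective), `V = γ₁.vars b₁ ∪ γ₂.vars b₂`, `Z = Spc.full {b₁, b₂} V`,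
`s_i z = γ_i.vec b_i z ≠ 0`, `J_i z = OL (-(β_i + div (s_i z)))`.
* `ifam_OL`: `J_i` is an `IFam` on `Z` (`LFam.of_one` in degree `p`; `pc (J z) p` is the image of
  `QS` (`Fx/Glue`) under multiplication by `s z`: `IsAB.map_of_inj` / constant rank; regularity from
  `u.ex`, `u.f₁.fam.reg`, `Ty.reg_OL`).
* `u.graph Z J₁ J₂` gives `Γ`, a graph over `Z`.  With `l_i = lS β_i (u.I_i x)` (`isAB_lS'`, rank one)
  `IsAB.exists_psub` (Fx/Sc) twice gives `M → F` (block `b₁`) and `Γ' → M` (block `b₂`); `Γ' = Γ`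
  because `EqL (I x) (OL (-(β + div s))) ↔ s ∈ lS β (I x)` for type `(β, 0)` (`FC.eqv_of_len`,
  `lS_eq_span`).
* `good_zero'`: `Z` is smooth irreducible, so is `Γ` (`IsPSub.sm`, `conn`); `F` is the image of `Γ`
  (irreducible), and dimensions: `ldim Γ = ldim F + 2`, `Tan Γ = Tan F + 2` (`IsPSub.finrank_tan`,
  `IsPSub.ldim`), `dim Γ = h⁰β₁ + h⁰β₂ + 1`.
* `top_zero'`: `top_of_graph` on `Γ` with `w b = u.w`, `w b_i = k_i`; on `Γ` the pull back of `l_i` is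
  the tautological line `O(-e_{b_i})` (`kl_graph` / `kl_quot`), `push Γ F (one Γ) = one F`
  (`IsPSub.push_one`, `push_trans`), `push_smul_one`; the image of the point is a point
  (`push_one_pt`, `Spc.img`).
-/

set_option autoImplicit false
set_option linter.dupNamespace false
noncomputable section
open MvPolynomial Module TensorProduct

namespace Crest.Agent.N265.M
open Crest.Agent.R274
open Defs_781 Lat_781 SnapA_99 SnapB_99 SnapE_99 Gen7_750 Xs1_781 SkDefs_474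
open Alg GV Br N Fib _root_.Crest.Agent.N265.Pow

variable {Sg : Surf} {p : ℕ} {β₁ β₂ : Sg.V.G} {k₁ k₂ : ℤ} {b : ℕ}

namespace Uni
theorem good_zero' (u : Uni Sg p β₁ β₂ 0 0 k₁ k₂ b) (h₁ : Ch.HasSec Sg.V β₁)
    (h₂ : Ch.HasSec Sg.V β₂) : u.Good :=
  (FB.exists_gr0 u h₁ h₂ u.f₁.isAB_lS' u.f₂.isAB_lS').elim fun g => g.good h₁ h₂
theorem top_zero' (u : Uni Sg p β₁ β₂ 0 0 k₁ k₂ b) (h₁ : Ch.HasSec Sg.V β₁)
    (h₂ : Ch.HasSec Sg.V β₂) : ∃ P : Spc, P.Sub u.F ∧ P.IsPt (fun _ => u.w) ∧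
      ((1 - op _ (lcl u.F β₁ k₁ u.I₁) * Top.tO u.F (-k₁)) ^ (Sg.V.hh β₁ 0 - 1) *
        (1 - op _ (lcl u.F β₂ k₂ u.I₂) * Top.tO u.F (-k₂)) ^ (Sg.V.hh β₂ 0 - 1)) • one u.F =
        incl P u.F (one P) :=
  (FB.exists_gr0 u h₁ h₂ u.f₁.isAB_lS' u.f₂.isAB_lS').elim fun g => g.top h₁ h₂
end Uni

end Crest.Agent.N265.M
end
end

-- ▼ part N265/M/FixT
section

/-! # Row 265, task M-FIX-T (helper91): tangent bound, versality, tangent class -/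

set_option autoImplicit false
set_option linter.dupNamespace false
noncomputable section
open MvPolynomial Module TensorProduct

namespace Crest.Agent.N265.M
open Crest.Agent.R274
open Defs_781 Lat_781 SnapA_99 SnapB_99 SnapE_99 Gen7_750 Xs1_781 SkDefs_474
open Alg GV Br N Fib _root_.Crest.Agent.N265.Pow

namespace FT
variable {X : Spc} {V W V₁ V₂ : GV} {Vs : Finset Var}

/-- the ambient space of the tangent bundle -/
abbrev TG (Vs : Finset Var) : GV := co fun v : Vs => vdeg v.1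

lemma isRV_coord (Vs : Finset Var) : IsRV X (TG Vs) fun x v => x v.1 := by
  refine ⟨regV_iff_poly.2 ⟨fun v => MvPolynomial.X v.1, fun _ _ => (eval_X _).symm⟩, fun x _ => ?_⟩
  funext v
  exact (gd_apply (fun v : Vs => vdeg v.1) (fun v => x v.1) v).symm

/-- the derivative of a regular vector is a regular map on the tangent directions -/
theorem exists_deriv {s : Pt → V.V} (h : IsRV X V s) {B : Finset ℕ} (hV : V.In B)
    (Vs : Finset Var) : ∃ D : Pt → (TG Vs).V →ₗ[ℂ] V.V, IsRM X (TG Vs) V D ∧ ∀ x ∈ X.pts, ∀ u,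
      extV Vs u ∈ X.Tan x → D x u = dV (X.pd x (extV Vs u)) fun y : X.pts => s y.1 := by
  obtain ⟨n, b, deg, -, hb⟩ := hV.exists_basis
  obtain ⟨r, hr, hr'⟩ := h.exists_poly b hb
  refine ⟨fun x => b.equivFun.symm.toLinearMap ∘ₗ mev x (jac Vs r),
    (IsRM.const (deg0_equivFun_symm b hb)).comp (isRM_mev (mhmg_jac Vs hr)), fun x _ u hu => ?_⟩
  have e : (fun y : X.pts => s y.1) = fun y => ∑ i, eval y.1 (r i) • b i := funext fun y => by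
    simp only [hr' y.1 y.2, b.sum_repr]
  rw [e, dV_pd_poly hu]
  simp only [LinearMap.comp_apply, LinearEquiv.coe_coe, Basis.equivFun_symm_apply, mev_jac]

/-- the condition `KS` is linear and closed -/
theorem exists_N {L : Pt → Submodule ℂ V.V} (h : IsAB X V L) (Vs : Finset Var) :
    ∃ 𝒩 : Pt → Submodule ℂ ((TG Vs).prod (V.hom V)).V, CogA X 𝒩 ∧
      Eqv X ((TG Vs).prod (V.hom V)) 𝒩 ∧ ∀ x (hx : x ∈ X.pts),
      (∀ φ, (0, φ) ∈ 𝒩 x ↔ φ ∈ homMap (L x) (L x)) ∧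
      ∀ u φ, extV Vs u ∈ X.Tan x → ((u, φ) ∈ 𝒩 x ↔ KS X L hx (extV Vs u) φ) := by
  obtain ⟨W, Ψ, hW, hΨ, e⟩ := h.exists_range
  obtain ⟨D, hD, hD'⟩ := exists_deriv (isRM_iff.1 hΨ) (hW.hom h.hin) Vs
  have hN := hD.coprod ((hΨ.homM (IsRM.id (V := V))).csmul (-1))
  have hT := IsAB.homTo hW h
  have key : ∀ x u φ, (u, φ) ∈ (homTo W.V (L x)).comap ((D x).coprod
      ((-1 : ℂ) • homM (Ψ x) LinearMap.id)) ↔ ∀ w, D x u w - φ (Ψ x w) ∈ L x := fun x u φ => by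
    simp [mem_homTo, sub_eq_add_neg]
  refine ⟨_, hT.cog.comap hN.reg, hT.eqv'.comap hN, fun x hx => ⟨fun φ => ?_, fun u φ hu => ?_⟩⟩
  · rw [key]
    simp only [map_zero, LinearMap.zero_apply, zero_sub, neg_mem_iff]
    exact ⟨fun H v hv => by obtain ⟨w, rfl⟩ := (e x hx).ge hv; exact H w,
      fun H w => H _ ((e x hx).le ⟨w, rfl⟩)⟩
  · rw [key, hD' x hx u hu]
    have hi : ∀ {φ}, KS X L hx (extV Vs u) φ → ∀ w, dV (X.pd x (extV Vs u))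
        (fun y : X.pts => Ψ y.1) w - φ (Ψ x w) ∈ L x := fun hφ w =>
      IsVar.into hΨ.reg (fun y v => (e y.1 y.2).le ⟨v, rfl⟩) hφ w
    refine ⟨fun H => ?_, hi⟩
    obtain ⟨φ₀, h₀⟩ := (Spc.pder_pd hx hu).exists_isVar h.alg
    refine h₀.congr fun v hv => ?_
    obtain ⟨w, rfl⟩ := (e x hx).ge hv
    have := sub_mem (H w) (hi h₀ w)
    rwa [sub_sub_sub_cancel_left] at this

/-- the ambient space of the triples `(ξ, φ₁, φ₂)` -/
abbrev KG (Vs : Finset Var) (V₁ V₂ : GV) : GV := (TG Vs).prod ((V₁.hom V₁).prod (V₂.hom V₂))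

/-- the family of triples `(ξ, φ₁, φ₂)` -/
theorem exists_K {L₁ : Pt → Submodule ℂ V₁.V} {L₂ : Pt → Submodule ℂ V₂.V} (h₁ : IsAB X V₁ L₁)
    (h₂ : IsAB X V₂ L₂) (Vs : Finset Var) : ∃ 𝒩 : Pt → Submodule ℂ (KG Vs V₁ V₂).V, CogA X 𝒩 ∧
      Eqv X (KG Vs V₁ V₂) 𝒩 ∧ ∀ x (hx : x ∈ X.pts),
      (∀ t ∈ ((X.Tan x).comap (extV Vs)).prod ⊤, t ∈ 𝒩 x ↔
        KS X L₁ hx (extV Vs t.1) t.2.1 ∧ KS X L₂ hx (extV Vs t.1) t.2.2) ∧
      (((X.Tan x).comap (extV Vs)).prod ⊤ ⊓ 𝒩 x).map (LinearMap.fst ℂ _ _) =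
        (X.Tan x).comap (extV Vs) ∧
      ((X.Tan x).comap (extV Vs)).prod ⊤ ⊓ 𝒩 x ⊓ LinearMap.ker (LinearMap.fst ℂ _ _) =
        (⊥ : Submodule ℂ _).prod ((homMap (L₁ x) (L₁ x)).prod (homMap (L₂ x) (L₂ x))) := by
  obtain ⟨N₁, c₁, e₁, m₁⟩ := exists_N h₁ Vs
  obtain ⟨N₂, c₂, e₂, m₂⟩ := exists_N h₂ Vs
  have p₁ : IsRM X (KG Vs V₁ V₂) ((TG Vs).prod (V₁.hom V₁)) fun _ =>
      LinearMap.prodMap LinearMap.id (LinearMap.fst ℂ _ _) := IsRM.const fun _ => rfl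
  have p₂ : IsRM X (KG Vs V₁ V₂) ((TG Vs).prod (V₂.hom V₂)) fun _ =>
      LinearMap.prodMap LinearMap.id (LinearMap.snd ℂ _ _) := IsRM.const fun _ => rfl
  refine ⟨_, (c₁.comap p₁.reg).inf (c₂.comap p₂.reg), (e₁.comap p₁).inf (e₂.comap p₂),
    fun x hx => ⟨fun t ht => and_congr ((m₁ x hx).2 _ _ ht.1) ((m₂ x hx).2 _ _ ht.1), ?_, ?_⟩⟩
  · refine le_antisymm (Submodule.map_le_iff_le_comap.2 fun t ht => ht.1.1) fun u hu => ?_
    obtain ⟨φ₁, k₁⟩ := (Spc.pder_pd hx hu).exists_isVar h₁.alg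
    obtain ⟨φ₂, k₂⟩ := (Spc.pder_pd hx hu).exists_isVar h₂.alg
    exact ⟨(u, φ₁, φ₂), ⟨⟨hu, trivial⟩, ((m₁ x hx).2 _ _ hu).2 k₁, ((m₂ x hx).2 _ _ hu).2 k₂⟩, rfl⟩
  · ext ⟨u, φ₁, φ₂⟩
    refine ⟨fun ⟨⟨_, k₁, k₂⟩, h0⟩ => ?_, fun ⟨h0, k₁, k₂⟩ => ?_⟩
    · obtain rfl : u = 0 := h0
      exact ⟨rfl, ((m₁ x hx).1 _).1 k₁, ((m₂ x hx).1 _).1 k₂⟩
    · obtain rfl : u = 0 := h0
      exact ⟨⟨⟨zero_mem _, trivial⟩, ((m₁ x hx).1 _).2 k₁, ((m₂ x hx).1 _).2 k₂⟩, rfl⟩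

lemma isAB_of_rk {L : Pt → Submodule ℂ V.V} {M : Pt → Submodule ℂ W.V} (hV : V.In X.B)
    (he : Eqv X V L) (hc : CogA X L) (hM : IsAB X W M) {a b : ℕ}
    (h : ∀ x ∈ X.pts, finrank ℂ (L x) + a = finrank ℂ (M x) + b) : IsAB X V L := by
  refine ⟨hV, hc.alg_of_usc fun x hx => ?_, he⟩
  obtain ⟨r, h0, hr⟩ := hM.lc x hx
  refine ⟨r, h0, fun y hy hy' => ?_⟩
  have h1 := hr y hy hy'
  have h2 := h x hx
  have h3 := h y hy
  simp only at h1 ⊢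
  omega

section LA
variable {E F F₁ F₂ : Type} [AddCommGroup E] [Module ℂ E] [FiniteDimensional ℂ E] [AddCommGroup F]
  [Module ℂ F] [FiniteDimensional ℂ F] [AddCommGroup F₁] [Module ℂ F₁] [FiniteDimensional ℂ F₁]
  [AddCommGroup F₂] [Module ℂ F₂] [FiniteDimensional ℂ F₂]
lemma finrank_ker_add (A : Submodule ℂ E) (f : E →ₗ[ℂ] F) :
    finrank ℂ (A ⊓ LinearMap.ker f : Submodule ℂ E) + finrank ℂ (A.map f) = finrank ℂ A := by
  have := finrank_inf_comap_add A ⊥ f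
  rwa [Submodule.comap_bot, sup_bot_eq, finrank_bot, add_zero] at this
lemma finrank_prod' (A : Submodule ℂ E) (B : Submodule ℂ F) :
    finrank ℂ (A.prod B) = finrank ℂ A + finrank ℂ B := by
  rw [← Module.finrank_prod, ← LinearMap.finrank_range_of_inj
    (f := A.subtype.prodMap B.subtype) (A.injective_subtype.prodMap B.injective_subtype),
    LinearMap.range_prodMap, Submodule.range_subtype, Submodule.range_subtype]
/-- the dimension count -/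
lemma count {K : Submodule ℂ (E × F₁ × F₂)} {T : Submodule ℂ E} {S₁ T₁ : Submodule ℂ F₁}
    {S₂ T₂ : Submodule ℂ F₂} {ε : E} (h0 : ε ≠ 0) {a₁ a₂ d : ℕ} (m2 : K.map (LinearMap.fst ℂ _ _) = T)
    (m3 : K ⊓ LinearMap.ker (LinearMap.fst ℂ _ _) = (⊥ : Submodule ℂ E).prod (S₁.prod S₂))
    (l1 : K.map (LinearMap.snd ℂ _ _) ≤ T₁.prod T₂)
    (l2 : K ⊓ LinearMap.ker (LinearMap.snd ℂ _ _) ≤ (Submodule.span ℂ {ε}).prod ⊥)
    (d5 : finrank ℂ T₁ + 1 ≤ finrank ℂ S₁ + a₁) (d6 : finrank ℂ T₂ + 1 ≤ finrank ℂ S₂ + a₂)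
    (hd : a₁ + a₂ ≤ d + 1) : finrank ℂ T ≤ d ∧ (finrank ℂ T = d →
      K.map (LinearMap.snd ℂ _ _) = T₁.prod T₂ ∧
      K ⊓ LinearMap.ker (LinearMap.snd ℂ _ _) = (Submodule.span ℂ {ε}).prod ⊥ ∧
      finrank ℂ T₁ + 1 = finrank ℂ S₁ + a₁) := by
  have d1 := finrank_ker_add K (LinearMap.fst ℂ _ _)
  have d2 := finrank_ker_add K (LinearMap.snd ℂ _ _)
  have d3 := Submodule.finrank_mono l1
  have d4 := Submodule.finrank_mono l2
  have e3 := finrank_prod' T₁ T₂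
  have e4 : finrank ℂ ((Submodule.span ℂ {ε}).prod (⊥ : Submodule ℂ (F₁ × F₂))) = 1 := by
    rw [finrank_prod', finrank_span_singleton h0, finrank_bot]
  rw [m2, m3, finrank_prod', finrank_prod', finrank_bot] at d1
  exact ⟨by omega, fun h => ⟨Submodule.eq_of_le_of_finrank_eq l1 (by omega),
    Submodule.eq_of_le_of_finrank_eq l2 (by omega), by omega⟩⟩
end LA

/-- the class computation -/
theorem kc_K {𝒩 : Pt → Submodule ℂ (V.prod (V₁.prod V₂)).V} {T : Pt → Submodule ℂ V.V}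
    {S₁ T₁ : Pt → Submodule ℂ V₁.V} {S₂ T₂ : Pt → Submodule ℂ V₂.V} {ε : Pt → V.V} {n : ℕ}
    (hT : IsAB X V T) (s₁ : IsAB X V₁ S₁) (s₂ : IsAB X V₂ S₂) (t₁ : IsAB X V₁ T₁)
    (t₂ : IsAB X V₂ T₂) (c : CogA X 𝒩) (e : Eqv X (V.prod (V₁.prod V₂)) 𝒩) (hε : IsRV X V ε)
    (h0 : ∀ x ∈ X.pts, ε x ≠ 0) (hn : ∀ x ∈ X.pts, finrank ℂ (T x) = n)
    (m2 : ∀ x ∈ X.pts, ((T x).prod ⊤ ⊓ 𝒩 x).map (LinearMap.fst ℂ _ _) = T x)
    (m3 : ∀ x ∈ X.pts, (T x).prod ⊤ ⊓ 𝒩 x ⊓ LinearMap.ker (LinearMap.fst ℂ _ _) =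
      (⊥ : Submodule ℂ V.V).prod ((S₁ x).prod (S₂ x)))
    (m4 : ∀ x ∈ X.pts, ((T x).prod ⊤ ⊓ 𝒩 x).map (LinearMap.snd ℂ _ _) = (T₁ x).prod (T₂ x))
    (m5 : ∀ x ∈ X.pts, (T x).prod ⊤ ⊓ 𝒩 x ⊓ LinearMap.ker (LinearMap.snd ℂ _ _) =
      (Submodule.span ℂ {ε x}).prod ⊥) :
    kc X V T = 1 + (kc X V₁ T₁ - kc X V₁ S₁) + (kc X V₂ T₂ - kc X V₂ S₂) := by
  have hP := hT.prod (IsAB.top (s₁.hin.prod s₂.hin))
  have hK : IsAB X (V.prod (V₁.prod V₂)) fun x => (T x).prod ⊤ ⊓ 𝒩 x :=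
    isAB_of_rk (a := 0) (b := n) hP.hin (hP.eqv'.inf e) (hP.cog.inf c) (s₁.prod s₂) fun x hx => by
      rw [← finrank_ker_add _ (LinearMap.fst ℂ _ _), m2 x hx, m3 x hx, finrank_prod', finrank_bot,
        hn x hx, zero_add, add_zero]
  have f₁ : IsRM X (V.prod (V₁.prod V₂)) V fun _ => LinearMap.fst ℂ _ _ := IsRM.const fun _ => rfl
  have f₂ : IsRM X (V.prod (V₁.prod V₂)) (V₁.prod V₂) fun _ => LinearMap.snd ℂ _ _ :=
    IsRM.const fun _ => rfl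
  have e₁ := (kc_map hK f₁ (hT.congr fun x hx => (m2 x hx).symm)).trans
    (congrArg₂ (· + ·) (kc_congr m3) (kc_congr m2))
  have e₂ := (kc_map hK f₂ ((t₁.prod t₂).congr fun x hx => (m4 x hx).symm)).trans
    (congrArg₂ (· + ·) (kc_congr m5) (kc_congr m4))
  rw [kc_prod (IsAB.bot hT.hin) (s₁.prod s₂), kc_prod s₁ s₂,
    kc_of_bot (L := fun _ => ⊥) fun _ _ => rfl] at e₁
  rw [kc_prod t₁ t₂, kc_prod (IsAB.span hT.hin hε h0) (IsAB.bot (s₁.hin.prod s₂.hin)),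
    kc_span hT.hin hε h0, kc_of_bot (L := fun _ => ⊥) fun _ _ => rfl] at e₂
  linear_combination e₂ - e₁
end FT
open FT

variable {Sg : Surf} {p : ℕ} {β₁ β₂ : Sg.V.G} {n₁ n₂ : ℕ} {k₁ k₂ : ℤ} {b : ℕ}

lemma IFam.le' {X : Spc} {β : Sg.V.G} {n : ℕ} {k : ℤ} {I : Pt → XL Sg Sg.F}
    (h : IFam X p β n k I) {x : Pt} (hx : x ∈ X.pts) : LeL (I x) (OX Sg.V.X) :=
  fun J hJ => (h.fam.le x hx J hJ).trans (r1_O k J hJ).le

namespace Uni
variable {u : Uni Sg p β₁ β₂ n₁ n₂ k₁ k₂ b}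

/-- the Euler vector -/
def eul (u : Uni Sg p β₁ β₂ n₁ n₂ k₁ k₂ b) (x : Pt) : (TG u.vars).V := fun v => x v.1
lemma eul_ne {x : Pt} (hx : x ∈ u.F.pts) : u.eul x ≠ 0 := fun h => by
  obtain ⟨v, -, hv⟩ := u.F.rel x hx b (u.B ▸ Finset.mem_singleton_self b)
  exact hv (by_contra fun h' => h' (congrFun h ⟨v, by_contra fun h'' => hv (u.hvars.2 x hx v h'')⟩))
lemma extV_eul {x : Pt} (hx : x ∈ u.F.pts) : extV u.vars (u.eul x) = x := funext fun v => by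
  change (if h : v ∈ u.vars then x v else 0) = x v
  split_ifs with h
  · rfl
  · exact (u.hvars.2 x hx v h).symm
lemma extV_inj (Vs : Finset Var) : Function.Injective (extV Vs) := fun a b h => funext fun v => by
  have := congrFun h v.1
  simpa [extV, v.2] using this
lemma isRV_eul : IsRV u.F (TG u.vars) u.eul := isRV_coord u.vars

/-- the family of triples and the dimension count -/
theorem exists_K (u : Uni Sg p β₁ β₂ n₁ n₂ k₁ k₂ b) :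
    ∃ 𝒩 : Pt → Submodule ℂ (KG u.vars ((r1 Sg k₁).G p) ((r1 Sg k₂).G p)).V, CogA u.F 𝒩 ∧
      Eqv u.F (KG u.vars ((r1 Sg k₁).G p) ((r1 Sg k₂).G p)) 𝒩 ∧ ∀ x (hx : x ∈ u.F.pts),
      (∀ t ∈ ((u.F.Tan x).comap (extV u.vars)).prod ⊤, t ∈ 𝒩 x ↔
        KS u.F (V := (r1 Sg k₁).G p) (fun y => (r1 Sg k₁).pc (u.I₁ y) p) hx (extV _ t.1) t.2.1 ∧
        KS u.F (V := (r1 Sg k₂).G p) (fun y => (r1 Sg k₂).pc (u.I₂ y) p) hx (extV _ t.1) t.2.2) ∧
      (((u.F.Tan x).comap (extV u.vars)).prod ⊤ ⊓ 𝒩 x).map (LinearMap.fst ℂ _ _) =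
        (u.F.Tan x).comap (extV u.vars) ∧
      ((u.F.Tan x).comap (extV u.vars)).prod ⊤ ⊓ 𝒩 x ⊓ LinearMap.ker (LinearMap.fst ℂ _ _) =
        (⊥ : Submodule ℂ _).prod (((r1 Sg k₁).stab (r1 Sg k₁) (u.I₁ x) (u.I₁ x) p).prod
          ((r1 Sg k₂).stab (r1 Sg k₂) (u.I₂ x) (u.I₂ x) p)) ∧
      finrank ℂ (u.F.Tan x) ≤ u.dim ∧ (finrank ℂ (u.F.Tan x) = u.dim →
        (((u.F.Tan x).comap (extV u.vars)).prod ⊤ ⊓ 𝒩 x).map (LinearMap.snd ℂ _ _) =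
          ((r1 Sg k₁).Tv (r1 Sg k₁) (u.I₁ x) (u.I₁ x) p).prod
            ((r1 Sg k₂).Tv (r1 Sg k₂) (u.I₂ x) (u.I₂ x) p) ∧
        ((u.F.Tan x).comap (extV u.vars)).prod ⊤ ⊓ 𝒩 x ⊓ LinearMap.ker (LinearMap.snd ℂ _ _) =
          (Submodule.span ℂ {u.eul x}).prod ⊥ ∧
        finrank ℂ ((r1 Sg k₁).Tv (r1 Sg k₁) (u.I₁ x) (u.I₁ x) p) + 1 =
          finrank ℂ ((r1 Sg k₁).stab (r1 Sg k₁) (u.I₁ x) (u.I₁ x) p) + Sg.V.hh β₁ 0 + 2 * n₁) := by
  obtain ⟨𝒩, c, e, m⟩ := FT.exists_K (u.f₁.fam.ab p le_rfl) (u.f₂.fam.ab p le_rfl) u.vars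
  refine ⟨𝒩, c, e, fun x hx => ?_⟩
  obtain ⟨m1, m2, m3⟩ := m x hx
  have l1 : (((u.F.Tan x).comap (extV u.vars)).prod ⊤ ⊓ 𝒩 x).map (LinearMap.snd ℂ _ _) ≤
      ((r1 Sg k₁).Tv (r1 Sg k₁) (u.I₁ x) (u.I₁ x) p).prod
        ((r1 Sg k₂).Tv (r1 Sg k₂) (u.I₂ x) (u.I₂ x) p) :=
    Submodule.map_le_iff_le_comap.2 fun t ht =>
      ⟨u.f₁.fam.ks_mem_Tv hx ht.1.1 ((m1 t ht.1).1 ht.2).1,
        u.f₂.fam.ks_mem_Tv hx ht.1.1 ((m1 t ht.1).1 ht.2).2⟩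
  have l2 : ((u.F.Tan x).comap (extV u.vars)).prod ⊤ ⊓ 𝒩 x ⊓
      LinearMap.ker (LinearMap.snd ℂ _ _) ≤ (Submodule.span ℂ {u.eul x}).prod ⊥ := by
    rintro ⟨ξ, φ⟩ ⟨⟨h1, h2⟩, h0⟩
    obtain rfl : φ = 0 := h0
    obtain ⟨c, hc⟩ := Submodule.mem_span_singleton.1
      (u.tan x hx _ h1.1 ((m1 _ h1).1 h2).1 ((m1 _ h1).1 h2).2)
    refine ⟨Submodule.mem_span_singleton.2 ⟨c, extV_inj _ ?_⟩, rfl⟩
    rw [map_smul, extV_eul hx, hc]
  have := count (d := u.dim) (eul_ne hx) m2 m3 l1 l2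
    (((u.f₁.ty x hx).finrank_Tv (k := k₁) (u.f₁.le' hx) u.f₁.fam.two
      (u.f₁.fam.reg x hx)).trans_eq (add_assoc _ _ _))
    (((u.f₂.ty x hx).finrank_Tv (k := k₂) (u.f₂.le' hx) u.f₂.fam.two
      (u.f₂.fam.reg x hx)).trans_eq (add_assoc _ _ _)) (by unfold dim; omega)
  rw [u.hvars.finrank_comap, ← add_assoc] at this
  exact ⟨m1, m2, m3, this⟩

/-- the tangent bound (`tan`, `ks_mem_Tv`, `Ty.finrank_Tv`) -/
theorem finrank_tan_le' (u : Uni Sg p β₁ β₂ n₁ n₂ k₁ k₂ b) {x : Pt} (hx : x ∈ u.F.pts) :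
    finrank ℂ (u.F.Tan x) ≤ u.dim := by
  obtain ⟨_, -, -, m⟩ := u.exists_K
  exact (m x hx).2.2.2.1
/-- versality (count dimensions) -/
theorem Good.versal' (h : u.Good) {x : Pt} (hx : x ∈ u.F.pts)
    {φ₁ : ((r1 Sg k₁).EG (r1 Sg k₁) p).V} {φ₂ : ((r1 Sg k₂).EG (r1 Sg k₂) p).V}
    (h₁ : φ₁ ∈ (r1 Sg k₁).Tv (r1 Sg k₁) (u.I₁ x) (u.I₁ x) p)
    (h₂ : φ₂ ∈ (r1 Sg k₂).Tv (r1 Sg k₂) (u.I₂ x) (u.I₂ x) p) : ∃ ξ ∈ u.F.Tan x,
      KS u.F (V := (r1 Sg k₁).G p) (fun y => (r1 Sg k₁).pc (u.I₁ y) p) hx ξ φ₁ ∧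
      KS u.F (V := (r1 Sg k₂).G p) (fun y => (r1 Sg k₂).pc (u.I₂ y) p) hx ξ φ₂ := by
  obtain ⟨_, -, -, m⟩ := u.exists_K
  obtain ⟨m1, -, -, -, m5⟩ := m x hx
  obtain ⟨⟨ξ, φ⟩, ht, e⟩ := (m5 (h.2 x hx).1).1.ge (show (φ₁, φ₂) ∈ _ from ⟨h₁, h₂⟩)
  obtain rfl : φ = (φ₁, φ₂) := e
  exact ⟨_, ht.1.1, (m1 _ ht.1).1 ht.2⟩
theorem Good.finrank_Tv' (h : u.Good) {x : Pt} (hx : x ∈ u.F.pts) :
    finrank ℂ ((r1 Sg k₁).Tv (r1 Sg k₁) (u.I₁ x) (u.I₁ x) p) + 1 =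
      finrank ℂ ((r1 Sg k₁).stab (r1 Sg k₁) (u.I₁ x) (u.I₁ x) p) + Sg.V.hh β₁ 0 + 2 * n₁ := by
  obtain ⟨_, -, -, m⟩ := u.exists_K
  exact ((m x hx).2.2.2.2 (h.2 x hx).1).2.2
theorem Good.isAB_Tv' (h : u.Good) : IsAB u.F ((r1 Sg k₁).EG (r1 Sg k₁) p) fun x =>
    (r1 Sg k₁).Tv (r1 Sg k₁) (u.I₁ x) (u.I₁ x) p := by
  have hd := u.f₁.fam.isAB_den u.f₁.fam
  have hs := u.f₁.fam.isAB_stab u.f₁.fam
  have hr : IsRM u.F _ _ _ := IsRM.const ((r1 Sg k₁).deg0_res (r1 Sg k₁) p)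
  exact isAB_of_rk hs.hin (hd.eqv'.comap hr) (hd.cog.comap hr.reg) hs
    fun x hx => (h.finrank_Tv' hx).trans (add_assoc _ _ _)
/-- the tangent class (the family `{(ξ, φ₁, φ₂) | KS ξ φ₁, KS ξ φ₂}` is a bundle) -/
theorem Good.tcl_eq' (h : u.Good) : u.tcl h = 1 + tvc (r1 Sg k₁) (r1 Sg k₁) u.F p u.I₁ u.I₁ +
    tvc (r1 Sg k₂) (r1 Sg k₂) u.F p u.I₂ u.I₂ := by
  obtain ⟨𝒩, c, e, m⟩ := u.exists_K
  have m5 := fun x hx => (m x hx).2.2.2.2 (h.2 x hx).1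
  exact (Bun.kl_eq_kc _).trans (kc_K (Bun.tan u.F u.vars u.hvars _ h.2).isAB
    (u.f₁.fam.isAB_stab u.f₁.fam) (u.f₂.fam.isAB_stab u.f₂.fam) h.isAB_Tv' h.swap.isAB_Tv' c e
    isRV_eul (fun _ hx => eul_ne hx) (Bun.rk_tan _ _ _ _) (fun x hx => (m x hx).2.1)
    (fun x hx => (m x hx).2.2.1) (fun x hx => (m5 x hx).1) fun x hx => (m5 x hx).2.1)
end Uni

end Crest.Agent.N265.M
end
end

-- ▼ part N265/M/FixD0
section

/-! # Row 265, task M-FIX-D, part 0 (helper3): the line bundle `O(-β)` and fibrewise facts -/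

set_option autoImplicit false
set_option linter.dupNamespace false
noncomputable section
open MvPolynomial Module TensorProduct

namespace Crest.Agent.N265.M.FD
open Crest.Agent.R274
open Defs_781 Lat_781 SnapA_99 SnapB_99 SnapE_99 Gen7_750 Xs1_781 SkDefs_474
open Alg GV Br N Fib Hm _root_.Crest.Agent.N265.Pow
variable {Sg : Surf} {A A' E β : Sg.V.G} {m m' p : ℕ} {k : ℤ} {I : XL Sg Sg.F} {z : Pt}

lemma mem_SB {f : Sg.F} : f ∈ SB Sg A ↔ ∀ v, f = 0 ∨ 0 ≤ (Sg.V.pl.pl v).ord f + A v :=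
  (mem_Sec _).trans (Ch.isSec_iff _)
lemma SB_mul {f g : Sg.F} (hf : f ∈ SB Sg A) (hg : g ∈ SB Sg E) : f * g ∈ SB Sg (A + E) := by
  refine mem_SB.2 fun v => or_iff_not_imp_left.2 fun h => ?_
  have h1 := (mem_SB.1 hf v).resolve_left (left_ne_zero_of_mul h)
  have h2 := (mem_SB.1 hg v).resolve_left (right_ne_zero_of_mul h)
  rw [(Sg.V.pl.pl v).ord_mul (left_ne_zero_of_mul h) (right_ne_zero_of_mul h), Finsupp.add_apply]
  omega
/-- multiplication of sections -/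
def mulB (h : A + E = m • Sg.V.h) : SB Sg A →ₗ[ℂ] SB Sg E →ₗ[ℂ] SA Sg m :=
  LinearMap.mk₂ ℂ (fun f g => ⟨f.1 * g.1, (congrArg (SB Sg) h).le (SB_mul f.2 g.2)⟩)
    (fun _ _ _ => Subtype.ext (add_mul _ _ _)) (fun _ _ _ => Subtype.ext (smul_mul_assoc _ _ _))
    (fun _ _ _ => Subtype.ext (mul_add _ _ _)) (fun _ _ _ => Subtype.ext (mul_smul_comm _ _ _))
@[simp] lemma mulB_val (h : A + E = m • Sg.V.h) (f : SB Sg A) (g : SB Sg E) :
    (mulB h f g).1 = f.1 * g.1 := rfl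
/-- `f ↦ (g ↦ (f g)(z))` -/
def psi (h : A + E = m • Sg.V.h) (z : Pt) : SB Sg A →ₗ[ℂ] Dual ℂ (SB Sg E) :=
  (mulB h).compr₂ (evP Sg 0 m z)
lemma psi_apply (h : A + E = m • Sg.V.h) (z : Pt) (f : SB Sg A) (g : SB Sg E) :
    psi h z f g = evP Sg 0 m z (mulB h f g) := rfl
lemma isRM_psi (h : A + E = m • Sg.V.h) (d : D) : IsRM (Sg.S 0) ((triv (SB Sg A)).shift d)
    ((triv (Dual ℂ (SB Sg E))).shift (d + m • eB 0)) (psi h) := by
  have H := isRM_evP Sg 0 m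
  refine IsRM.mk' (((RegM.const LinearMap.id).homM H.reg).comp (RegM.const (mulB h)))
    fun x hx f => LinearMap.ext fun g => ?_
  change psi h (gpt x) (chi d • f) g = chi (d + m • eB 0) • psi h x f g
  rw [map_smul, LinearMap.smul_apply, chi_add, mul_smul]
  exact congrArg (chi d • ·) (H.eqv_apply hx (mulB h f g))
lemma psi_swap (h : A + E = m • Sg.V.h) (h' : A' + E = m' • Sg.V.h) (f : SB Sg A) (f' : SB Sg A')
    (g g' : SB Sg E) : psi h z f g * psi h' z f' g' = psi h z f g' * psi h' z f' g := by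
  simp only [psi_apply]
  rw [← evP_mul, ← evP_mul]
  exact congrArg _ (Subtype.ext (by simp only [mulA_val, mulB_val]; ring))
/-- all the functionals at one point are proportional -/
lemma psi_mem (h : A + E = m • Sg.V.h) (h' : A' + E = m' • Sg.V.h) {f' : SB Sg A'}
    (h0 : psi h' z f' ≠ 0) (f : SB Sg A) : psi h z f ∈ Submodule.span ℂ {psi h' z f'} := by
  obtain ⟨g, hg⟩ := DFunLike.ne_iff.1 h0
  refine Submodule.mem_span_singleton.2 ⟨psi h z f g / psi h' z f' g, LinearMap.ext fun g' => ?_⟩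
  rw [LinearMap.smul_apply, smul_eq_mul, div_mul_eq_mul_div, psi_swap h h', mul_div_cancel_right₀ _ hg]

/-- a generator of the stalk lifts to a section -/
lemma exists_unit {M : XL Sg Sg.F} {r e : ℤ} (hM : RegL M.toLat r) (he : r ≤ e) (x : Pnt Sg.V.X)
    {g : Sg.F} (h0 : g ≠ 0) (h1 : g ∈ x.loc M) (h2 : ∀ w ∈ x.loc M, g⁻¹ * w ∈ x.O) :
    ∃ u ∈ Gm M.toLat e, x.val (g⁻¹ * (Sg.V.X.t x.i ^ (-e) * u)) = 1 := by
  obtain ⟨u, hu, h⟩ := fib_surj (fun d hd => hM.gen (he.trans hd)) x h1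
  have h3 : ∀ w ∈ x.m • x.loc M, g⁻¹ * w ∈ x.O ∧ x.val (g⁻¹ * w) = 0 := fun w hw => by
    refine mem_m_smul_OX.1 (Submodule.smul_induction_on
      (p := fun w => g⁻¹ * w ∈ x.m • x.loc (OX Sg.V.X)) hw (fun a ha v hv => ?_) fun a b ha hb => ?_)
    · have := Submodule.smul_mem_smul ha (Pnt.mem_loc_OX.2 (h2 v hv))
      rwa [← mul_smul_comm] at this
    · rw [mul_add]; exact add_mem ha hb
  refine ⟨u, hu, ?_⟩
  have e1 : g⁻¹ * (Sg.V.X.t x.i ^ (-e) * u) = 1 - g⁻¹ * (g - Sg.V.X.t x.i ^ (-e) • u) := by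
    rw [mul_sub, inv_mul_cancel₀ h0, smul_eq_mul, sub_sub_cancel]
  rw [e1, Pnt.val_sub (one_mem _) (h3 _ h).1, (h3 _ h).2, Pnt.val_one, sub_zero]

lemma loc_div {f : Sg.F} (hf : f ≠ 0) {x : Pnt Sg.V.X} {w : Sg.F} :
    w ∈ x.loc (OL Sg.V.T (-(β + Sg.V.div f hf))) ↔ f⁻¹ * w ∈ x.loc (OL Sg.V.T (-β)) := by
  rw [mem_loc_OL, mem_loc_OL]
  refine forall₂_congr fun v _ => ?_
  by_cases h : w = 0
  · simp [h]
  · rw [or_iff_right h, or_iff_right (mul_ne_zero (inv_ne_zero hf) h),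
      (Sg.V.pl.pl v).ord_mul (inv_ne_zero hf) h, (Sg.V.pl.pl v).ord_inv hf, Finsupp.neg_apply,
      Finsupp.neg_apply, Finsupp.add_apply, Ch.div_apply]
    omega
lemma Gm_SB (A : Sg.V.G) (p : ℕ) : Gm (OL Sg.V.T A).toLat p = SB Sg (A + p • Sg.V.h) := by
  rw [Gm_OL, natCast_zsmul]
lemma div_mem {f : Sg.F} {hf : f ≠ 0} (le : LeL I (OL Sg.V.T (-(β + Sg.V.div f hf)))) {u : Sg.F}
    (hu : u ∈ Gm I.toLat p) : f⁻¹ * u ∈ SB Sg (-β + p • Sg.V.h) := by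
  rw [← Gm_SB]
  refine mem_Gm_of_loc fun x => ?_
  rw [smul_eq_mul, mul_left_comm]
  exact (loc_div hf).1 (Pnt.loc_mono le (Pnt.Gm_mem_loc hu))
lemma add_tw (β : Sg.V.G) (p j : ℕ) :
    -β + p • Sg.V.h + (β + j • Sg.V.h) = (p + j) • Sg.V.h := by rw [add_nsmul]; abel

/-- where `I` is invertible the functional does not vanish -/
lemma exists_psi_ne {f : Sg.F} {hf : f ≠ 0} (le : LeL I (OL Sg.V.T (-(β + Sg.V.div f hf))))
    (hr : RegL I.toLat p) {j : ℕ} (hj : RegL (OL Sg.V.T β).toLat j) (hz : z ∈ (Sg.S 0).pts)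
    (h : (pnt Sg 0 z hz).loc (OL Sg.V.T (-(β + Sg.V.div f hf))) ≤ (pnt Sg 0 z hz).loc I) :
    ∃ a : SB Sg (-β + p • Sg.V.h), f * a.1 ∈ Gm I.toLat p ∧ psi (add_tw β p j) z a ≠ 0 := by
  obtain ⟨c, hc, he⟩ := evP_pnt hz
  generalize pnt Sg 0 z hz = x at h he
  obtain ⟨g, g0, hg⟩ := exists_gen_OL x (-β)
  have g1 : g ∈ x.loc (OL Sg.V.T (-β)) := (hg g).2 (by rw [inv_mul_cancel₀ g0]; exact one_mem _)
  have o : ∀ w, w ∈ x.loc (OL Sg.V.T 0) ↔ w ∈ x.O := fun w => by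
    rw [Pnt.loc_congr (OL_zero Sg.V.T), Pnt.mem_loc_OX]
  have s : ∀ w, w ∈ x.loc (OL Sg.V.T β) ↔ ∀ v ∈ x.loc (OL Sg.V.T (-β)), w * v ∈ x.O := fun w => by
    have := mem_loc_OL_sub (x := x) (D := -β) (E := 0) (c := w)
    simpa only [zero_sub, neg_neg, o] using this
  obtain ⟨u, hu, u1⟩ := exists_unit hr le_rfl x (mul_ne_zero hf g0)
    (h ((loc_div hf).2 (by rwa [inv_mul_cancel_left₀ hf]))) fun w hw => by
      rw [mul_inv_rev, mul_assoc]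
      exact (hg _).1 ((loc_div hf).1 (Pnt.loc_mono le hw))
  obtain ⟨w, hw, w1⟩ := exists_unit hj le_rfl x (inv_ne_zero g0) ((s _).2 fun v hv => (hg v).1 hv)
    fun w hw => by rw [inv_inv, mul_comm]; exact (s w).1 hw g g1
  refine ⟨⟨_, div_mem le hu⟩, by rwa [mul_inv_cancel_left₀ hf], fun h0 => ?_⟩
  have h1 := LinearMap.congr_fun h0 ⟨w, (Gm_SB β j).le hw⟩
  rw [psi_apply, he, LinearMap.zero_apply, mul_eq_zero, or_iff_right (pow_ne_zero _ hc)] at h1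
  refine Pnt.val_mul_ne (u1.trans_ne one_ne_zero) (w1.trans_ne one_ne_zero) (Eq.trans ?_ h1)
  rw [mulB_val, Nat.cast_add, zp_mul]
  congr 1
  field_simp

/-- a section that vanishes in the fibre is the value of a syzygy -/
lemma exists_syz (le : LeL I (r1 Sg k).O) (hr : RegL I.toLat p) (hz : z ∈ (Sg.S 0).pts)
    {u : ((r1 Sg k).G p).V} (hu : u ∈ (r1 Sg k).pc I p)
    (h : Sg.V.X.t (pnt Sg 0 z hz).i ^ (-(p : ℤ)) • (u ()).1 ∈
      (pnt Sg 0 z hz).m • (pnt Sg 0 z hz).loc I) :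
    u ∈ ((r1 Sg k).KK I p 3).map (evz Sg 0 _ 3 z) := by
  obtain ⟨a, ha⟩ := evP_surj Sg 0 3 hz 1
  have ha' : a.1 ∈ AA Sg.V.X (3 : ℕ) := (AA_nat Sg.V 3).ge a.2
  have h1 : a.1 • (u ()).1 ∈ Gm (mX (pnt Sg 0 z hz) I).toLat ((2 : ℕ) + p + 1) := by
    rw [show ((2 : ℕ) : ℤ) + p + 1 = (3 : ℕ) + p by omega]
    refine mem_Gm_mX.2 ⟨AA_smul_mem ha' hu, ?_⟩
    rw [smul_eq_mul, smul_eq_mul, zp_mul]
    exact Submodule.smul_mem _ (⟨_, Pnt.AA_mem_O ha'⟩ : (pnt Sg 0 z hz).O) h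
  rw [(ng Sg).Gm_mX _ hr (by omega), gen_AA (fun e he => hr.gen he) le_rfl, ← msmul] at h1
  have h2 : (van (pnt Sg 0 z hz) 1 * AA Sg.V.X (2 : ℕ)) • Gm I.toLat p ≤
      (tens ((r1 Sg k).pc I p) (mP Sg 0 3 z)).map (mF ((r1 Sg k).inc p) 3) := by
    refine Submodule.smul_le.2 fun c hc v hv => ?_
    obtain ⟨c, hc', rfl⟩ := (map_mP hz 3).ge (van_smul_le _ (OX Sg.V.X) 1 (2 : ℕ) hc)
    obtain ⟨v, hv', rfl⟩ := (Amb.map_pc (𝔞 := r1 Sg k) le p).ge hv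
    exact ⟨_, tmul_mem hv' hc', rfl⟩
  obtain ⟨s, hs, e⟩ := h2 h1
  refine ⟨u ⊗ₜ a - s, ⟨sub_mem (tmul_mem hu trivial) (tens_mono le_rfl le_top hs), ?_⟩, ?_⟩
  · change mF _ 3 _ = 0
    rw [map_sub, e]
    exact sub_self _
  · rw [map_sub, evT_tmul, ha, one_smul, sub_eq_self]
    refine tens_ind hs (map_zero _) (fun v _ c hc => ?_) fun _ _ h h' => by rw [map_add, h, h', add_zero]
    rw [evT_tmul, show evP Sg 0 3 z c = 0 from hc, zero_smul]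

/-- if one section has a non-zero functional, those with functional zero vanish in the fibre -/
lemma mem_m {j : ℕ} (hz : z ∈ (Sg.S 0).pts) {f : Sg.F} {a₀ a : SB Sg (-β + p • Sg.V.h)}
    (h0 : f * a₀.1 ∈ Gm I.toLat p) (h1 : psi (add_tw β p j) z a₀ ≠ 0)
    (h2 : psi (add_tw β p j) z a = 0) : Sg.V.X.t (pnt Sg 0 z hz).i ^ (-(p : ℤ)) • (f * a.1) ∈
      (pnt Sg 0 z hz).m • (pnt Sg 0 z hz).loc I := by
  obtain ⟨c, hc, he⟩ := evP_pnt hz
  generalize pnt Sg 0 z hz = x at he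
  obtain ⟨g, hg⟩ := DFunLike.ne_iff.1 h1
  have h3 := LinearMap.congr_fun h2 g
  rw [psi_apply, he, LinearMap.zero_apply] at hg h3
  have h4 := right_ne_zero_of_mul hg
  have h5 := (mul_eq_zero.1 h3).resolve_left (pow_ne_zero _ hc)
  have h6 := Pnt.AA_mem_O (x := x) ((AA_nat Sg.V _).ge (mulB (add_tw β p j) a g).2)
  have h7 := Pnt.mem_m_smul (mul_mem h6 (Pnt.inv_mem h4))
    (by rw [Pnt.val_mul h6 (Pnt.inv_mem h4), h5, zero_mul]) (Pnt.Gm_mem_loc (x := x) h0)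
  have h8 := Pnt.ne_of_val h4
  rw [mulB_val, mul_ne_zero_iff, mul_ne_zero_iff] at h8
  obtain ⟨h8, h9, h10⟩ := h8
  convert h7 using 1
  simp only [mulB_val, smul_eq_mul]
  field_simp

/-- a pair of finite colength differs at finitely many points -/
lemma finite_supp {N M : XL Sg Sg.F} (h : FC N M) :
    ∃ T : Finset (Pnt Sg.V.X), (len N M = 0 → T = ∅) ∧ ∀ y ∉ T, y.loc M ≤ y.loc N := by
  classical
  generalize hl : len N M = l
  induction l generalizing M with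
  | zero => exact ⟨∅, fun _ => rfl, fun y _ => (Pnt.loc_congr (h.eqv_of_len hl)).ge⟩
  | succ l ih =>
    obtain ⟨x, M', h1, h2, h3⟩ := h.exists_top hl
    obtain ⟨T, -, hT⟩ := ih h2 h3
    exact ⟨insert x T, fun e => by omega, fun y hy =>
      (h1.off y fun e => hy (e ▸ Finset.mem_insert_self _ _)).trans
        (hT y fun e => hy (Finset.mem_insert_of_mem e))⟩

/-- closed subsets of `X × S` that are finite over `X` have codimension two -/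
lemma codim {X Z : Spc} (hX : 0 ∉ X.B) (hZ : Z.Sub (X.fib (Sg.S 0))) {n : ℕ} (hs : X.Sm n)
    (hf : ∀ x ∈ X.pts, ∃ T : Finset (Pnt Sg.V.X), ∀ y (hy : y ∈ Z.pts), restr X.B y = x →
      pnt Sg 0 (restr {0} y) (hZ.2 hy).2.1 ∈ T) {y : Pt} (hy : y ∈ Z.pts) :
    Z.ldim y + 2 ≤ (n + 3 : ℕ) := by
  classical
  have q := hZ.proj.trans (Spc.fib_fst X (Sg.S 0))
  obtain ⟨T, hT⟩ := hf _ (q.map y hy)
  have H : ∀ t : Pnt Sg.V.X, t ≠ pnt Sg 0 (restr {0} y) (hZ.2 hy).2.1 → ∃ r : R, eval y r ≠ 0 ∧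
      ∀ w (hw : w ∈ Z.pts), pnt Sg 0 (restr {0} w) (hZ.2 hw).2.1 = t → eval w r = 0 := fun t ht => by
    obtain ⟨l, h1, h2⟩ := SetLike.not_le_iff_exists.1 fun e => ht ((ng Sg).eq_of_van e).symm
    have hl : l ∈ SA Sg 1 := (AA_nat Sg.V 1).le (van_le _ _ h1)
    obtain ⟨r, hr, -, e⟩ := Sg.exists_hmg 0 hl
    have key : ∀ w (hw : w ∈ Z.pts), eval w (kill {0} r) = 0 ↔
        l ∈ van (pnt Sg 0 (restr {0} w) (hZ.2 hw).2.1) 1 := fun w hw => by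
      rw [eval_kill, ← evS_spec Sg 0 ⟨l, hl⟩ hr e ⟨restr {0} w, (hZ.2 hw).2.1⟩, ← mem_mP]
      exact mem_mP_iff
    exact ⟨_, fun e => h2 ((key y hy).1 e), fun w hw e => (key w hw).2 (e ▸ h1)⟩
  choose! r hr hr' using H
  have h := Spc.ldim_le_of_isolated q hy
    (g := ∏ t ∈ T.erase (pnt Sg 0 (restr {0} y) (hZ.2 hy).2.1), r t)
    (by rw [map_prod]; exact Finset.prod_ne_zero_iff.2 fun t ht => hr t (Finset.ne_of_mem_erase ht))
    fun w hw e h0 => by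
      have : pnt Sg 0 (restr {0} y) (hZ.2 hy).2.1 = pnt Sg 0 (restr {0} w) (hZ.2 hw).2.1 := by
        by_contra hne
        rw [map_prod] at h0
        exact h0 (Finset.prod_eq_zero (Finset.mem_erase.2 ⟨Ne.symm hne, hT w hw e⟩)
          (hr' _ (Ne.symm hne) w hw rfl))
      obtain ⟨c, -, hc⟩ := pnt_eq_iff.1 this
      refine ⟨fun b => if b = 0 then c else 1, fun v => ?_⟩
      by_cases hv : v.1 = 0
      · simpa [restr, hv] using congrFun hc v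
      by_cases hv' : v.1 ∈ X.B
      · simpa [restr, hv, hv'] using congrFun e v
      · have : v.1 ∉ Z.B := fun h => (Finset.mem_union.1 (hZ.1.le h)).elim hv'
          fun h => hv (Finset.mem_singleton.1 h)
        simp [Sp.eq_zero_of_notMem hw this, Sp.eq_zero_of_notMem hy this]
  have e : (Z.B \ X.B).card = 1 := by
    rw [hZ.1]
    change ((X.B ∪ {0}) \ X.B).card = 1
    rw [Finset.union_sdiff_cancel_left (Finset.disjoint_singleton_right.2 hX), Finset.card_singleton]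
  rw [(hs _ (q.map y hy)).2, e] at h
  refine (add_le_add_left h 2).trans_eq ?_
  push_cast
  rw [add_assoc]
  norm_num

end Crest.Agent.N265.M.FD
end
end

-- ▼ part N265/M/FixD
section

/-! # Row 265, task M-FIX-D (helper3): `det U = l ⊗ det B` at the points of the surface

On `X × S` there is the sequence `0 → B → U ⊗ O(-p) → l ⊗ O(-β) → 0`, exact outside the universal
finite subscheme. -/

set_option autoImplicit false
set_option linter.dupNamespace false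
noncomputable section
open MvPolynomial Module TensorProduct

namespace Crest.Agent.N265.M
open Crest.Agent.R274
open Defs_781 Lat_781 SnapA_99 SnapB_99 SnapE_99 Gen7_750 Xs1_781 SkDefs_474
open Alg GV Br N Fib Hm _root_.Crest.Agent.N265.Pow
variable {Sg : Surf} {X : Spc} {β : Sg.V.G} {p n j r : ℕ} {k : ℤ} {z : Pt}

namespace FD
/-- the fibre of `O(-β)` inside the dual of `H⁰(β + j h)` -/
def Lm (β : Sg.V.G) (j : ℕ) (z : Pt) : Submodule ℂ (Dual ℂ (SB Sg (β + j • Sg.V.h))) :=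
  (⊤ : Submodule ℂ _).map (psi (add_tw β j j) z)
/-- `j` is large -/
def Lrg (β : Sg.V.G) (j : ℕ) : Prop := RegL (OL Sg.V.T β).toLat j ∧ RegL (OL Sg.V.T (-β)).toLat j
lemma exists_lrg (β : Sg.V.G) : ∃ j, Lrg β j := by
  obtain ⟨a, ha⟩ := ev_regL (OL Sg.V.T β).toLat
  obtain ⟨b, hb⟩ := ev_regL (OL Sg.V.T (-β)).toLat
  exact ⟨a.toNat + b.toNat, ha.mono (by omega), hb.mono (by omega)⟩
lemma Lrg.span (h : Lrg β j) (hz : z ∈ (Sg.S 0).pts) :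
    ∃ a, psi (add_tw β j j) z a ≠ 0 ∧ Lm β j z = Submodule.span ℂ {psi (add_tw β j j) z a} := by
  have e : -(β + Sg.V.div 1 one_ne_zero) = -β := by rw [div_one', add_zero]
  obtain ⟨a, -, ha⟩ := exists_psi_ne (I := OL Sg.V.T (-β)) (hf := one_ne_zero)
    (e.symm ▸ Fam.LE.rfl) h.2 h.1 hz (e.symm ▸ le_rfl)
  exact ⟨a, ha, le_antisymm (Submodule.map_le_iff_le_comap.2 fun f _ => psi_mem _ _ ha f)
    ((Submodule.span_singleton_le_iff_mem _ _).2 ⟨a, trivial, rfl⟩)⟩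
lemma Lrg.finrank (h : Lrg β j) (hz : z ∈ (Sg.S 0).pts) : finrank ℂ (Lm β j z) = 1 := by
  obtain ⟨a, ha, e⟩ := h.span hz
  rw [e, finrank_span_singleton ha]
lemma Lrg.mem (h : Lrg β j) (hz : z ∈ (Sg.S 0).pts) (f : SB Sg (-β + p • Sg.V.h)) :
    psi (add_tw β p j) z f ∈ Lm β j z := by
  obtain ⟨a, ha, e⟩ := h.span hz
  exact e ▸ psi_mem _ _ ha f
lemma Lrg.isAB (h : Lrg β j) : IsAB (Sg.S 0) (triv _) (Lm β j) :=
  (sc_shift _ _).isAB_triv ((IsAB.top ((in_triv _).shift (zero_mem _))).map_of_rk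
    ((in_triv _).shift (add_mem (zero_mem _) (Sg1.eB_S _))) (isRM_psi (add_tw β j j) 0)
    fun _ hz => h.finrank hz)

variable (β k p) in
/-- `H⁰(β) ⊗ H⁰(-β + p h) → A_p` -/
def mu : SB Sg β ⊗[ℂ] SB Sg (-β + p • Sg.V.h) →ₗ[ℂ] ((r1 Sg k).G p).V :=
  LinearMap.pi fun _ => TensorProduct.lift (mulB (add_neg_cancel_left β _))
variable (β k p) in
/-- the copy of `U_p` -/
def U' (I : XL Sg Sg.F) : Submodule ℂ (SB Sg β ⊗[ℂ] SB Sg (-β + p • Sg.V.h)) :=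
  tens (lS β I) ⊤ ⊓ ((r1 Sg k).pc I p).comap (mu β p k)
variable (β p j) in
/-- `U_p → l ⊗ O(-β + p h)` -/
def ch (z : Pt) : SB Sg β ⊗[ℂ] SB Sg (-β + p • Sg.V.h) →ₗ[ℂ]
    SB Sg β ⊗[ℂ] Dual ℂ (SB Sg (β + j • Sg.V.h)) :=
  TensorProduct.map LinearMap.id (psi (add_tw β p j) z)

section fib
variable {I : XL Sg Sg.F} {f : SB Sg β} {hf : f.1 ≠ 0}
  (h : FC I (OL Sg.V.T (-(β + Sg.V.div f.1 hf))))
include h
lemma mem_U' {t : SB Sg β ⊗[ℂ] SB Sg (-β + p • Sg.V.h)} :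
    t ∈ U' β p k I ↔ ∃ a, f.1 * a.1 ∈ Gm I.toLat p ∧ f ⊗ₜ a = t := by
  rw [U', lS_eq_span h]
  refine ⟨fun ht => ?_, ?_⟩
  · obtain ⟨a, -, rfl⟩ := Hart.mem_tens_span ht.1
    exact ⟨a, ht.2, rfl⟩
  · rintro ⟨a, ha, rfl⟩
    exact ⟨tmul_mem (Submodule.mem_span_singleton_self f) trivial, ha⟩
lemma U'_inj {t : SB Sg β ⊗[ℂ] SB Sg (-β + p • Sg.V.h)} (ht : t ∈ U' β p k I)
    (h0 : mu β p k t = 0) : t = 0 := by
  obtain ⟨a, -, rfl⟩ := (mem_U' h).1 ht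
  have : f.1 * a.1 = 0 := congrArg Subtype.val (congrFun h0 ())
  rw [show a = 0 from Subtype.ext ((mul_eq_zero.1 this).resolve_left hf), tmul_zero]
lemma U'_onto : (U' β p k I).map (mu β p k) = (r1 Sg k).pc I p := by
  refine le_antisymm (Submodule.map_le_iff_le_comap.2 inf_le_right) fun u hu => ?_
  have e := mul_inv_cancel_left₀ hf (u ()).1
  exact ⟨_, (mem_U' h).2 ⟨⟨_, div_mem h.le hu⟩, e.symm ▸ hu, rfl⟩, funext fun _ => Subtype.ext e⟩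
lemma ch_exact (le : LeL I (r1 Sg k).O) (hr : RegL I.toLat p) (hz : z ∈ (Sg.S 0).pts)
    (h0 : ∃ u ∈ U' β p k I, ch β p j z u ≠ 0) {u} (hu : u ∈ U' β p k I) (h1 : ch β p j z u = 0) :
    mu β p k u ∈ ((r1 Sg k).KK I p 3).map (evz Sg 0 _ 3 z) := by
  obtain ⟨u₀, hu₀, h0⟩ := h0
  obtain ⟨a₀, ha₀, rfl⟩ := (mem_U' h).1 hu₀
  obtain ⟨a, ha, rfl⟩ := (mem_U' h).1 hu
  refine exists_syz le hr hz ha (mem_m (j := j) hz ha₀ (fun e => h0 ?_) (by_contra fun e =>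
    Hart.tmul_ne_zero (v := f) (fun e => hf (congrArg Subtype.val e)) e h1))
  change f ⊗ₜ[ℂ] psi _ z a₀ = 0
  rw [e, tmul_zero]
lemma ch_ne (hr : RegL I.toLat p) (hj : Lrg β j) (hz : z ∈ (Sg.S 0).pts)
    (e : (pnt Sg 0 z hz).loc (OL Sg.V.T (-(β + Sg.V.div f.1 hf))) ≤ (pnt Sg 0 z hz).loc I) :
    ∃ u ∈ U' β p k I, ch β p j z u ≠ 0 := by
  obtain ⟨a, h1, h2⟩ := exists_psi_ne h.le hr hj.1 hz e
  exact ⟨_, (mem_U' h).2 ⟨a, h1, rfl⟩,
    Hart.tmul_ne_zero (v := f) (fun e => hf (congrArg Subtype.val e)) h2⟩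
end fib

lemma evz_mulS {V : Type} [AddCommGroup V] [Module ℂ V] {i : ℕ} (N : Submodule ℂ (V ⊗[ℂ] SA Sg i))
    {t} (ht : t ∈ mulS Sg (mP Sg 0 1 z) N) : evz Sg 0 V (i + 1) z t = 0 := by
  obtain ⟨s, hs, rfl⟩ := ht
  refine tens_ind hs (by simp only [map_zero]) (fun l hl u hu => ?_)
    fun _ _ h h' => by rw [map_add, map_add, h, h', add_zero]
  clear hu
  induction u using TensorProduct.induction_on with
  | zero => simp only [tmul_zero, map_zero]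
  | tmul w a => rw [Sg1.muW_tmul, evT_tmul, evP_mul, show evP Sg 0 1 z l = 0 from hl, zero_mul,
      zero_smul]
  | add a b ha hb => rw [tmul_add, map_add, map_add, ha, hb, add_zero]
lemma isRM_evT {Y : Spc} {A V : GV} {d : D} {α : Pt → A.V →ₗ[ℂ] ℂ} (h : IsRM Y A (line d) α) :
    IsRM Y (V.tens A) (V.shift d) fun y => evT V.V (α y) := by
  refine (IsRM.const (V := V.tens (line d)) (W := V.shift d)
    (f := (TensorProduct.rid ℂ V.V).toLinearMap) fun t => ?_).comp (IsRM.id.tensor h)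
  have : (TensorProduct.rid ℂ V.V).toLinearMap ∘ₗ (V.tens (line d)).g.toLinearMap =
      (V.shift d).g.toLinearMap ∘ₗ (TensorProduct.rid ℂ V.V).toLinearMap := by
    ext v
    simp
  exact LinearMap.congr_fun this t
lemma comap_rk {Y : Spc} {V W : GV} {L : Pt → Submodule ℂ V.V} {M : Pt → Submodule ℂ W.V}
    {φ : Pt → V.V →ₗ[ℂ] W.V} (hL : IsAB Y V L) (hM : IsAB Y W M) (hφ : IsRM Y V W φ)
    (h1 : ∀ y ∈ Y.pts, ∀ u ∈ L y ⊓ (M y).comap (φ y), φ y u = 0 → u = 0)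
    (h2 : ∀ y ∈ Y.pts, (L y ⊓ (M y).comap (φ y)).map (φ y) = M y)
    (h3 : ∀ y ∈ Y.pts, finrank ℂ (M y) = r) : IsAB Y V fun y => L y ⊓ (M y).comap (φ y) :=
  ⟨hL.hin, (hL.cog.inf (hM.cog.comap hφ.reg)).alg_of_rk fun y hy => by
    rw [← Hart.finrank_map_of_inj _ (h1 y hy), h2 y hy, h3 y hy], hL.eqv'.inf (hM.eqv'.comap hφ)⟩
lemma exists_zero {Y : Spc} {V W : GV} {L : Pt → Submodule ℂ V.V} {φ : Pt → V.V →ₗ[ℂ] W.V}
    (hL : IsAB Y V L) (hφ : IsRM Y V W φ) :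
    ∃ Z : Spc, Z.Sub Y ∧ ∀ y ∈ Y.pts, y ∉ Z.pts ↔ ∃ u ∈ L y, φ y u ≠ 0 :=
  ⟨Y.leLoc L (fun y => LinearMap.ker (φ y)) hL.gen (cogA_ker hφ.reg) fun y hy e =>
    (hL.eqv y hy).ge.trans ((Submodule.map_mono e).trans (Eqv.ker hφ y hy).le),
    Spc.leLoc_sub _ _ _ _ _ _, fun y hy => by
      rw [Spc.mem_leLoc, and_iff_right hy]; exact SetLike.not_le_iff_exists⟩
lemma sc_G (k : ℤ) (p : ℕ) : ((r1 Sg k).G p).Sc (k • eT) := sc_pi fun _ => sc_shift _ _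
end FD
open FD

variable {I : Pt → XL Sg Sg.F}
namespace IFam
lemma exists_fc (h : IFam X p β n k I) {x : Pt} (hx : x ∈ X.pts) : ∃ (f : SB Sg β) (hf : f.1 ≠ 0),
    FC (I x) (OL Sg.V.T (-(β + Sg.V.div f.1 hf))) ∧
      len (I x) (OL Sg.V.T (-(β + Sg.V.div f.1 hf))) = n :=
  let ⟨f, hf, h1, h2⟩ := h.ty x hx
  ⟨⟨f, (mem_SB_iff hf).2 (eff_of_FC h1 (h.le hx))⟩, hf, h1, h2⟩
lemma syz (h : IFam X p β n k I) (hX : 0 ∉ X.B) (hr : r + 1 = Uni.rkU Sg p β n) :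
    SyzF Sg 0 X ((r1 Sg k).G p) (fun i x => (r1 Sg k).KK (I x) p i) 2 r :=
  h.fam.syzF hX fun _ hx => (h.finrank_pc hx).trans hr.symm

/-- the sequence `0 → B → U → l ⊗ O(-β) → 0` -/
theorem seq (h : IFam X p β n k I) (hl : IsAB X (LG Sg β k) fun x => lS β (I x)) (hX : 0 ∉ X.B)
    (hr : r + 1 = Uni.rkU Sg p β n) (hj : Lrg β j) :
    Seq (X.fib (Sg.S 0)) (WA Sg ((r1 Sg k).G p) 3) (((r1 Sg k).G p).shift ((3 : ℕ) • eB 0))
      ((LG Sg β k).tens ((triv (SB Sg (-β + p • Sg.V.h))).shift ((3 : ℕ) • eB 0)))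
      ((LG Sg β k).tens ((triv (Dual ℂ (SB Sg (β + j • Sg.V.h)))).shift
        ((3 : ℕ) • eB 0 + (p + j) • eB 0)))
      (fun y => (r1 Sg k).KK (I (restr X.B y)) p 3)
      (ZZ Sg 0 X fun x => (r1 Sg k).KK (I x) p 2) (fun y => (r1 Sg k).pc (I (restr X.B y)) p)
      (fun y => U' β p k (I (restr X.B y)))
      (fun y => tens (lS β (I (restr X.B y))) (Lm β j (restr {0} y)))
      (fun y => evz Sg 0 _ 3 (restr {0} y)) (fun _ => mu β p k)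
      (fun y => ch β p j (restr {0} y)) r := by
  have s := h.syz hX hr
  have q := Spc.fib_fst X (Sg.S 0)
  have q' := Spc.fib_snd X (Sg.S 0)
  have hU := ((h.fam.ab p le_rfl).pull q).shift (Sg1.eB_fib X 3)
  have hμ : IsRM (X.fib (Sg.S 0)) ((LG Sg β k).tens ((triv (SB Sg (-β + p • Sg.V.h))).shift
      ((3 : ℕ) • eB 0))) (((r1 Sg k).G p).shift ((3 : ℕ) • eB 0)) fun _ => mu β p k :=
    ((sc_shift _ _).tens (sc_shift _ _)).isRM ((sc_G k p).shift _) _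
  have hT := (hl.pull q).tens
    (IsAB.top (V := (triv (SB Sg (-β + p • Sg.V.h))).shift ((3 : ℕ) • eB 0))
      ((in_triv _).shift (Sg1.eB_fib X 3)))
  have inj : ∀ y ∈ (X.fib (Sg.S 0)).pts, ∀ u ∈ U' β p k (I (restr X.B y)), mu β p k u = 0 → u = 0 :=
    fun y hy u hu => let ⟨_, _, e, _⟩ := h.exists_fc hy.1; U'_inj e hu
  have onto : ∀ y ∈ (X.fib (Sg.S 0)).pts, (U' β p k (I (restr X.B y))).map (mu β p k) =
      (r1 Sg k).pc (I (restr X.B y)) p := fun y hy => let ⟨_, _, e, _⟩ := h.exists_fc hy.1; U'_onto e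
  have rU : ∀ y ∈ (X.fib (Sg.S 0)).pts, finrank ℂ ((r1 Sg k).pc (I (restr X.B y)) p) = r + 1 :=
    fun y hy => (h.finrank_pc hy.1).trans hr.symm
  have hU' := comap_rk hT hU hμ inj onto rU
  exact
    { hM := s.abF (k := 3) (by omega)
      hM' := s.isAB_ZZ le_rfl
      hU := hU
      hU' := hU'
      hL := (hl.pull q).tens ((hj.isAB.pull q').shift (add_mem (Sg1.eB_fib X 3) (Sg1.eB_fib X _)))
      hφ := isRM_evT ((isRM_evP Sg 0 3).pull q')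
      hμ := hμ
      hχ := IsRM.id.tensor ((isRM_psi (add_tw β p j) _).pull q')
      le := fun y hy => s.mulS_le le_rfl hy.1 _
      rM := fun y hy => (s.rk 2 le_rfl _ hy.1 _ hy.2.1).symm
      rU := rU
      rL := fun y hy => by
        rw [finrank_tens, (h.ty _ hy.1).finrank_lS (h.le hy.1),
          hj.finrank (z := restr {0} y) hy.2.1]
      kill := fun y _ _ hm => evz_mulS _ hm
      into := fun y _ _ hm => evT_mem _ hm.1
      inj := inj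
      onto := onto
      val := fun y hy u hu => tmap_mem (fun _ h => h) (fun a _ => hj.mem hy.2.1 a) hu.1 }

lemma exact (h : IFam X p β n k I) {y : Pt} (hy : y ∈ (X.fib (Sg.S 0)).pts)
    (h0 : ∃ u ∈ U' β p k (I (restr X.B y)), ch β p j (restr {0} y) u ≠ 0) :
    (∃ u ∈ U' β p k (I (restr X.B y)), ch β p j (restr {0} y) u ≠ 0) ∧
      ∀ u ∈ U' β p k (I (restr X.B y)), ch β p j (restr {0} y) u = 0 → mu β p k u ∈
        ((r1 Sg k).KK (I (restr X.B y)) p 3).map (evz Sg 0 _ 3 (restr {0} y)) :=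
  let ⟨_, _, e, _⟩ := h.exists_fc hy.1
  ⟨h0, fun _ hu => ch_exact e (h.fam.le _ hy.1) (h.fam.reg _ hy.1) hy.2.1 h0 hu⟩
lemma finite (h : IFam X p β n k I) (hj : Lrg β j) {x : Pt} (hx : x ∈ X.pts) :
    ∃ T : Finset (Pnt Sg.V.X), (n = 0 → T = ∅) ∧ ∀ z (hz : z ∈ (Sg.S 0).pts), pnt Sg 0 z hz ∉ T →
      ∃ u ∈ U' β p k (I x), ch β p j z u ≠ 0 := by
  obtain ⟨f, hf, e, e'⟩ := h.exists_fc hx
  obtain ⟨T, h1, h2⟩ := finite_supp e
  exact ⟨T, fun h0 => h1 (e'.trans h0), fun z hz ht => ch_ne e (h.fam.reg x hx) hj hz (h2 _ ht)⟩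

section at_pt
variable (hX : 0 ∉ X.B) {q : Pt} (hq : q ∈ (Sg.S 0).pts)
lemma atPt_eB (i : ℕ) : K.atPt ((base_S Sg 0).disj hX) (Sg.S_ttriv 0) q hq (lbK _ (i • eB 0)) = 1 := by
  rw [K.atPt_lbK, ← mul_one (lbK X _), ← Sg1.lbK_eB hX i, ← lbK_add, add_neg_cancel, lbK_zero,
    Sg1.lbK_eB hX i]
lemma atPt_Acl : K.atPt ((base_S Sg 0).disj hX) (Sg.S_ttriv 0) q hq (Acl (r1 Sg k) X p I) =
    ucl (r1 Sg k) X I p := by
  rw [Acl, map_mul, K.atPt_lbK, Sg1.lbK_eB hX, one_mul, K.atPt_pull_fst]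
lemma atPt_U (h : IFam X p β n k I) : K.atPt ((base_S Sg 0).disj hX) (Sg.S_ttriv 0) q hq
    (kc _ (((r1 Sg k).G p).shift ((3 : ℕ) • eB 0)) fun y => (r1 Sg k).pc (I (restr X.B y)) p) =
    K.atPt ((base_S Sg 0).disj hX) (Sg.S_ttriv 0) q hq (Acl (r1 Sg k) X p I) := by
  have h1 := h.fam.ab p le_rfl
  refine (congrArg _ ((kc_shift (h1.pull (Spc.fib_fst X _)) (Sg1.eB_fib X 3)).trans
    (congrArg _ (kc_pull h1 (Spc.fib_fst X _)).symm))).trans ?_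
  rw [map_mul, atPt_eB hX, one_mul, K.atPt_pull_fst, atPt_Acl hX, ucl]
lemma atPt_B : K.atPt ((base_S Sg 0).disj hX) (Sg.S_ttriv 0) q hq
    (kc _ (WA Sg ((r1 Sg k).G p) 3) (fun y => (r1 Sg k).KK (I (restr X.B y)) p 3) -
      kc _ (WA Sg ((r1 Sg k).G p) 3) (ZZ Sg 0 X fun x => (r1 Sg k).KK (I x) p 2)) =
    K.atPt ((base_S Sg 0).disj hX) (Sg.S_ttriv 0) q hq (Bcl (r1 Sg k) X p I) := by
  rw [Bcl, bcl, map_mul, map_mul, K.atPt_lbK, K.atPt_lbK, Sg1.lbK_eB hX, Sg1.lbK_eB hX, one_mul,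
    one_mul]
lemma atPt_L (hl : IsAB X (LG Sg β k) fun x => lS β (I x)) (hj : Lrg β j) :
    K.atPt ((base_S Sg 0).disj hX) (Sg.S_ttriv 0) q hq
    (kc _ ((LG Sg β k).tens ((triv (Dual ℂ (SB Sg (β + j • Sg.V.h)))).shift
        ((3 : ℕ) • eB 0 + (p + j) • eB 0)))
      fun y => tens (lS β (I (restr X.B y))) (Lm β j (restr {0} y))) = lcl X β k I := by
  have h1 := hj.isAB.pull (Spc.fib_snd X (Sg.S 0))
  have hd : (3 : ℕ) • eB 0 + (p + j) • eB 0 ∈ DS (X.fib (Sg.S 0)).B :=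
    add_mem (Sg1.eB_fib X 3) (Sg1.eB_fib X _)
  have e := kc_congr (X := X) (V := triv _) fun x hx =>
    congrArg (Lm β j) (Sg1.add_mem hX hx hq).2.2
  refine (congrArg _ (kc_tens (hl.pull (Spc.fib_fst X _)) (h1.shift hd))).trans ?_
  rw [kc_shift h1 hd, map_mul, map_mul, ← kc_pull hl (Spc.fib_fst X _), K.atPt_pull_fst,
    ← add_nsmul, atPt_eB hX, one_mul, (Sg1.atPt_kc h1 (in_triv _) _ _ hq).2]
  erw [e]
  rw [kc_triv, hj.finrank hq, Nat.cast_one, mul_one, lcl]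
lemma pure_A (h : IFam X p β n k I) {w : ℕ → ℤ} (hw : X.TTriv w) : K.Pure hw k
    (K.atPt ((base_S Sg 0).disj hX) (Sg.S_ttriv 0) q hq (Acl (r1 Sg k) X p I)) := by
  rw [atPt_Acl hX]
  exact (sc_G k p).kpure (h.fam.ab p le_rfl) hw
lemma pure_B (h : IFam X p β n k I) {w : ℕ → ℤ} (hw : X.TTriv w) (hr : r + 1 = Uni.rkU Sg p β n) :
    K.Pure hw k (K.atPt ((base_S Sg 0).disj hX) (Sg.S_ttriv 0) q hq (Bcl (r1 Sg k) X p I)) := by
  have t := h.syz hX hr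
  have c := ((sc_G (Sg := Sg) k p).tens (sc_triv (SA Sg (2 + 1)))).of_eq (add_zero _)
  have e := t.atPt_bcl le_rfl hq
  have h1 := (c.kpure (t.ab (2 + 1) (by omega)) hw).sub (c.kpure (t.isAB_mulS le_rfl hq) hw)
  rw [Bcl, map_mul, K.atPt_lbK, Sg1.lbK_eB hX, one_mul]
  exact e.symm ▸ h1
end at_pt

/-- no points: `I|_q = l` -/
theorem bot' (h : IFam X p β 0 k I) (hl : IsAB X (LG Sg β k) fun x => lS β (I x)) (hX : 0 ∉ X.B)
    (q : Pt) (hq : q ∈ (Sg.S 0).pts) :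
    K.atPt ((base_S Sg 0).disj hX) (Sg.S_ttriv 0) q hq (SS (r1 Sg k) X p I) = lcl X β k I := by
  obtain ⟨j, hj⟩ := exists_lrg β
  obtain ⟨r, hr⟩ : ∃ r, r + 1 = Uni.rkU Sg p β 0 ∨ ∀ x, x ∉ X.pts := by
    by_cases hne : ∃ x, x ∈ X.pts
    · obtain ⟨x, hx⟩ := hne
      exact ⟨_, Or.inl (Nat.sub_add_cancel ((h.ty x hx).rkU_pos (h.le hx) (h.fam.reg x hx)))⟩
    · exact ⟨0, Or.inr (not_exists.1 hne)⟩
  rcases hr with hr | hr
  · have e := congrArg (K.atPt ((base_S Sg 0).disj hX) (Sg.S_ttriv 0) q hq)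
      ((h.seq hl hX hr hj).kc_eq fun y hy => h.exact hy (by
        obtain ⟨T, h1, h2⟩ := h.finite hj hy.1
        exact h2 _ hy.2.1 (h1 rfl ▸ Finset.notMem_empty _)))
    rw [map_add] at e
    rw [SS, map_sub, sub_eq_iff_eq_add]
    exact (h.atPt_U hX hq).symm.trans (e.trans (congrArg₂ _ (atPt_L hX hq hl hj) (atPt_B hX hq)))
  · have e : ∀ a : K X, a = 0 := fun a => by
      obtain ⟨A, B, rfl⟩ := K.exists_sub a
      rw [A.kl_eq_kc, B.kl_eq_kc, kc_of_bot fun x hx => (hr x hx).elim,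
        kc_of_bot fun x hx => (hr x hx).elim, sub_self]
    exact (e _).trans (e _).symm

/-- the determinant identity on `X × S` -/
theorem det_fib (h : IFam X p β n k I) (hl : IsAB X (LG Sg β k) fun x => lS β (I x))
    (hX : 0 ∉ X.B) {m : ℕ} (hs : X.Sm m) (hr : r + 1 = Uni.rkU Sg p β n) :
    ∃ (A B : Bun (X.fib (Sg.S 0))) (hA : A.Rk (r + 1)) (hB : B.Rk r),
      ∀ q (hq : q ∈ (Sg.S 0).pts), let ρ := K.atPt ((base_S Sg 0).disj hX) (Sg.S_ttriv 0) q hq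
        ρ A.kl = ρ (Acl (r1 Sg k) X p I) ∧ ρ B.kl = ρ (Bcl (r1 Sg k) X p I) ∧
        ρ (A.det _ hA).kl = lcl X β k I * ρ (B.det _ hB).kl := by
  obtain ⟨j, hj⟩ := exists_lrg β
  have s := h.seq hl hX hr hj
  obtain ⟨Z, hZ, hm⟩ := exists_zero s.hU' s.hχ
  have hc : ∀ y ∈ Z.pts, Z.ldim y + 2 ≤ (m + 3 : ℕ) := fun y hy => codim hX hZ hs (fun x hx => by
    obtain ⟨T, -, hT⟩ := h.finite hj hx
    refine ⟨T, fun y hy e => by_contra fun ht => ?_⟩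
    exact (hm y (hZ.2 hy)).2 (e ▸ hT _ _ ht) hy) hy
  obtain ⟨A, B, hA, hB, eA, eB, eD⟩ := s.det (hs.fib (Sg.S_sm 0) ((base_S Sg 0).disj hX)) hZ hc
    fun y hy hy' => h.exact hy ((hm y hy).1 hy')
  refine ⟨A, B, hA, hB, fun q hq => ⟨(congrArg _ eA).trans (h.atPt_U hX hq),
    (congrArg _ eB).trans (atPt_B hX hq), ?_⟩⟩
  rw [eD, map_mul]
  exact congrArg (· * _) (atPt_L hX hq hl hj)

/-- the bundles at the points of `S` and the determinant identity -/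
theorem exists_pt' (h : IFam X p β n k I) (hl : IsAB X (LG Sg β k) fun x => lS β (I x))
    (hX : 0 ∉ X.B) {m : ℕ} (hs : X.Sm m) {w : ℕ → ℤ}
    (hw : X.TTriv w) {r : ℕ} (hr : r + 1 = Uni.rkU Sg p β n) :
    ∃ (U B : Pt → Bun X) (l : Bun X) (hU : ∀ q ∈ (Sg.S 0).pts, (U q).Rk (r + 1))
      (hB : ∀ q ∈ (Sg.S 0).pts, (B q).Rk r), l.Rk 1 ∧ l.Pure w k ∧ l.kl = lcl X β k I ∧
      ∀ q (hq : q ∈ (Sg.S 0).pts), (U q).Pure w k ∧ (B q).Pure w k ∧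
        (U q).kl = K.atPt ((base_S Sg 0).disj hX) (Sg.S_ttriv 0) q hq (Acl (r1 Sg k) X p I) ∧
        (B q).kl = K.atPt ((base_S Sg 0).disj hX) (Sg.S_ttriv 0) q hq (Bcl (r1 Sg k) X p I) ∧
        ((U q).det _ (hU q hq)).kl = l.kl * ((B q).det _ (hB q hq)).kl := by
  classical
  obtain ⟨l, hl'⟩ := hl.exists_pres
  obtain ⟨A, B, hA, hB, H⟩ := h.det_fib hl hX hs hr
  have key : ∀ q (hq : q ∈ (Sg.S 0).pts), ∃ (U B : Bun X) (hU : U.Rk (r + 1)) (hB : B.Rk r),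
      U.Pure w k ∧ B.Pure w k ∧
        U.kl = K.atPt ((base_S Sg 0).disj hX) (Sg.S_ttriv 0) q hq (Acl (r1 Sg k) X p I) ∧
        B.kl = K.atPt ((base_S Sg 0).disj hX) (Sg.S_ttriv 0) q hq (Bcl (r1 Sg k) X p I) ∧
        (U.det _ hU).kl = l.kl * (B.det _ hB).kl := fun q hq => by
    obtain ⟨eA, eB, eD⟩ := H q hq
    obtain ⟨rA, dA⟩ := K.atPt_det ((base_S Sg 0).disj hX) (Sg.S_ttriv 0) q hq A hA
    obtain ⟨rB, dB⟩ := K.atPt_det ((base_S Sg 0).disj hX) (Sg.S_ttriv 0) q hq B hB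
    have kA := (K.atPt_kl _ _ q hq A).symm.trans eA
    have kB := (K.atPt_kl _ _ q hq B).symm.trans eB
    obtain ⟨U, hU, pU, eU, dU⟩ := K.Pure.exists_bun_det (kA ▸ h.pure_A hX hq hw) rA
    obtain ⟨V, hV, pV, eV, dV⟩ := K.Pure.exists_bun_det (kB ▸ h.pure_B hX hq hw hr) rB
    exact ⟨U, V, hU, hV, pU, pV, eU.trans kA, eV.trans kB, by
      rw [dU, dV, ← dA, ← dB, eD, hl'.kl, lcl]⟩
  choose U V hU hV H using key
  refine ⟨fun q => if hq : q ∈ (Sg.S 0).pts then U q hq else l,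
    fun q => if hq : q ∈ (Sg.S 0).pts then V q hq else l, l,
    fun q hq => by simpa only [dif_pos hq] using hU q hq,
    fun q hq => by simpa only [dif_pos hq] using hV q hq,
    fun x hx => (hl'.finrank hx).trans ((h.ty x hx).finrank_lS (h.le hx)),
    (sc_shift _ _).pure hl' w, hl'.kl, fun q hq => ?_⟩
  simp only [dif_pos hq]
  exact H q hq
end IFam

end Crest.Agent.N265.M
end
end

-- ▼ part N265/M/Fix

/-! # Row 265, task M-FIX (helper94): determinant lines, versality, obstruction bundle, level zero -/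

set_option autoImplicit false
set_option linter.dupNamespace false
noncomputable section
open MvPolynomial Module TensorProduct

namespace Crest.Agent.N265.M
open Crest.Agent.R274
open Defs_781 Lat_781 SnapA_99 SnapB_99 SnapE_99 Gen7_750 Xs1_781 SkDefs_474
open Alg GV Br N Fib _root_.Crest.Agent.N265.Pow
variable {Sg : Surf} {X Y : Spc} {p : ℕ} {β β' : Sg.V.G} {n n' : ℕ} {k k' : ℤ}
  {I J : Pt → XL Sg Sg.F}

namespace IFam
theorem isAB_lS (h : IFam X p β n k I) : IsAB X (LG Sg β k) fun x => lS β (I x) :=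
  h.isAB_lS'
theorem pull_lcl (h : IFam X p β n k I) (q : Proj Y X) :
    K.pull q (lcl X β k I) = lcl Y β k fun y => I (restr X.B y) := kc_pull h.isAB_lS q
/-- `l ≤ H⁰(β) ⊗ t^k` -/
theorem nil (h : IFam X p β n k I) :
    (1 - op X (lcl X β k I) * Top.tO X (-k)) ^ Sg.V.hh β 0 = 0 := h.nil'
theorem rk_chiK (h : IFam X p β n k I) (h' : IFam X p β' n' k' J) (hX : 0 ∉ X.B) {x : Pt}
    (hx : x ∈ X.pts) : K.rk hx (chiK (r1 Sg k) (r1 Sg k') X p I J) =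
      Sg.V.chi β - Sg.V.chi (β - β') + n' := h.rk_chiK' h' hX hx
/-- the bundles at the points of `S` and the determinant identity -/
theorem exists_pt (h : IFam X p β n k I) (hX : 0 ∉ X.B) {m : ℕ} (hs : X.Sm m) {w : ℕ → ℤ}
    (hw : X.TTriv w) {r : ℕ} (hr : r + 1 = Uni.rkU Sg p β n) :
    ∃ (U B : Pt → Bun X) (l : Bun X) (hU : ∀ q ∈ (Sg.S 0).pts, (U q).Rk (r + 1))
      (hB : ∀ q ∈ (Sg.S 0).pts, (B q).Rk r), l.Rk 1 ∧ l.Pure w k ∧ l.kl = lcl X β k I ∧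
      ∀ q (hq : q ∈ (Sg.S 0).pts), (U q).Pure w k ∧ (B q).Pure w k ∧
        (U q).kl = K.atPt ((base_S Sg 0).disj hX) (Sg.S_ttriv 0) q hq (Acl (r1 Sg k) X p I) ∧
        (B q).kl = K.atPt ((base_S Sg 0).disj hX) (Sg.S_ttriv 0) q hq (Bcl (r1 Sg k) X p I) ∧
        ((U q).det _ (hU q hq)).kl = l.kl * ((B q).det _ (hB q hq)).kl :=
  h.exists_pt' h.isAB_lS hX hs hw hr
/-- no points: `I|_q = l` -/
theorem bot (h : IFam X p β 0 k I) (hX : 0 ∉ X.B) (q : Pt) (hq : q ∈ (Sg.S 0).pts) :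
    K.atPt ((base_S Sg 0).disj hX) (Sg.S_ttriv 0) q hq (SS (r1 Sg k) X p I) = lcl X β k I :=
  h.bot' h.isAB_lS hX q hq
end IFam

namespace Uni
variable {β₁ β₂ : Sg.V.G} {n₁ n₂ : ℕ} {k₁ k₂ : ℤ} {b : ℕ} {u : Uni Sg p β₁ β₂ n₁ n₂ k₁ k₂ b}
/-- the tangent bound (`tan`, `ks_mem_Tv`, `Ty.finrank_Tv`) -/
theorem finrank_tan_le (u : Uni Sg p β₁ β₂ n₁ n₂ k₁ k₂ b) {x : Pt} (hx : x ∈ u.F.pts) :
    finrank ℂ (u.F.Tan x) ≤ u.dim := u.finrank_tan_le' hx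
/-- versality (count dimensions) -/
theorem Good.versal (h : u.Good) {x : Pt} (hx : x ∈ u.F.pts)
    {φ₁ : ((r1 Sg k₁).EG (r1 Sg k₁) p).V} {φ₂ : ((r1 Sg k₂).EG (r1 Sg k₂) p).V}
    (h₁ : φ₁ ∈ (r1 Sg k₁).Tv (r1 Sg k₁) (u.I₁ x) (u.I₁ x) p)
    (h₂ : φ₂ ∈ (r1 Sg k₂).Tv (r1 Sg k₂) (u.I₂ x) (u.I₂ x) p) : ∃ ξ ∈ u.F.Tan x,
      KS u.F (V := (r1 Sg k₁).G p) (fun y => (r1 Sg k₁).pc (u.I₁ y) p) hx ξ φ₁ ∧
      KS u.F (V := (r1 Sg k₂).G p) (fun y => (r1 Sg k₂).pc (u.I₂ y) p) hx ξ φ₂ :=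
  h.versal' hx h₁ h₂
theorem Good.finrank_Tv (h : u.Good) {x : Pt} (hx : x ∈ u.F.pts) :
    finrank ℂ ((r1 Sg k₁).Tv (r1 Sg k₁) (u.I₁ x) (u.I₁ x) p) + 1 =
      finrank ℂ ((r1 Sg k₁).stab (r1 Sg k₁) (u.I₁ x) (u.I₁ x) p) + Sg.V.hh β₁ 0 + 2 * n₁ :=
  h.finrank_Tv' hx
theorem Good.isAB_Tv (h : u.Good) : IsAB u.F ((r1 Sg k₁).EG (r1 Sg k₁) p) fun x =>
    (r1 Sg k₁).Tv (r1 Sg k₁) (u.I₁ x) (u.I₁ x) p := h.isAB_Tv'
/-- the tangent class (the family `{(ξ, φ₁, φ₂) | KS ξ φ₁, KS ξ φ₂}` is a bundle) -/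
theorem Good.tcl_eq (h : u.Good) : u.tcl h = 1 + tvc (r1 Sg k₁) (r1 Sg k₁) u.F p u.I₁ u.I₁ +
    tvc (r1 Sg k₂) (r1 Sg k₂) u.F p u.I₂ u.I₂ := h.tcl_eq'
/-- **the obstruction bundle contains `H¹(β_i) ⊗ l_i^∨`** -/
theorem Good.ob_split (h : u.Good) : ∃ C : Bun u.F, C.Rk (n₁ + n₂) ∧ u.obK h =
    Sg.V.hh β₁ 1 • (K.dual _ (lcl u.F β₁ k₁ u.I₁) * Top.tK u.F k₁) +
    Sg.V.hh β₂ 1 • (K.dual _ (lcl u.F β₂ k₂ u.I₂) * Top.tK u.F k₂) + C.kl := by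
  have hne := Jac.irred_nonempty h.1
  obtain ⟨C₁, r₁, e₁⟩ := u.f₁.ob_one u.nb hne h.isAB_Tv fun _ => h.finrank_Tv
  obtain ⟨C₂, r₂, e₂⟩ := u.f₂.ob_one u.nb hne h.swap.isAB_Tv fun _ => h.swap.finrank_Tv
  refine ⟨C₁.sum C₂, r₁.sum r₂, ?_⟩
  rw [obK, h.tcl_eq, fixK, kl_sum]
  linear_combination e₁ + e₂
/-- level zero: a graph over `P(H⁰ β₁) × P(H⁰ β₂)` -/
theorem good_zero (u : Uni Sg p β₁ β₂ 0 0 k₁ k₂ b) (h₁ : Ch.HasSec Sg.V β₁)
    (h₂ : Ch.HasSec Sg.V β₂) : u.Good := u.good_zero' h₁ h₂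
theorem top_zero (u : Uni Sg p β₁ β₂ 0 0 k₁ k₂ b) (h₁ : Ch.HasSec Sg.V β₁)
    (h₂ : Ch.HasSec Sg.V β₂) : ∃ P : Spc, P.Sub u.F ∧ P.IsPt (fun _ => u.w) ∧
      ((1 - op _ (lcl u.F β₁ k₁ u.I₁) * Top.tO u.F (-k₁)) ^ (Sg.V.hh β₁ 0 - 1) *
        (1 - op _ (lcl u.F β₂ k₂ u.I₂) * Top.tO u.F (-k₂)) ^ (Sg.V.hh β₂ 0 - 1)) • one u.F =
        incl P u.F (one P) := u.top_zero' h₁ h₂
end Uni

end Crest.Agent.N265.M
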