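import Crest.Agent.N265.Fib.H1
import Crest.Agent.N265.Fib.Kos
import Crest.Agent.N265.Fib.H2
import Crest.Agent.N265.M.Dic
import Crest.Agent.N265.M.Fam
import Crest.Agent.N265.Fx.Sc

-- ▼ part N265/Fib/H3
section

/-!
# Row 265, task M-TV, part 3 (helper42): Koszul recursion, sections of `Hom` bundles, uniformity
-/

set_option autoImplicit false
set_option linter.dupNamespace false
set_option linter.unusedSectionVars false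
noncomputable section
open Module TensorProduct Filter

namespace Crest.Agent.N265.M.Hx
open Crest.Agent.R274
open Defs_781 Lat_781 Ser_781
open Alg GV Br N N.Sg1 Hm Fib _root_.Crest.Agent.N265.Pow
variable {Sg : Surf} {X : Spc} {b : ℕ}

/-- dimension count in a four term complex -/
lemma fr4 {V W U V' : GV} {L L' : Submodule ℂ V.V} {M M' : Submodule ℂ W.V}
    {N N' : Submodule ℂ U.V} {P P' : Submodule ℂ V'.V} {f : V.V →ₗ[ℂ] W.V} {g : W.V →ₗ[ℂ] U.V}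
    {χ : U.V →ₗ[ℂ] V'.V} (h1 : SqInj L L' M' f) (h2 : SqEx L M M' N' f g) (h4 : SqSurj N P P' χ)
    (le : M.map g ⊔ N' ≤ N ⊓ P'.comap χ) : SqEx M N N' P' g χ ↔
      ((finrank ℂ L : ℤ) - finrank ℂ L') + (finrank ℂ N - finrank ℂ N') =
        (finrank ℂ M - finrank ℂ M') + (finrank ℂ P - finrank ℂ P') := by
  have e1 := finrank_inf_comap_add L M' f
  have e2 := finrank_inf_comap_add M N' g
  have e3 := finrank_inf_comap_add N P' χ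
  rw [h1, h2] at e1
  rw [h4] at e3
  refine ⟨fun h => ?_, fun h => Submodule.eq_of_le_of_finrank_eq le (by omega)⟩
  rw [h] at e2
  omega

/-- the recursion `Δ³ = 0` for sequences -/
def RecN {M : Type*} [AddCommGroup M] (H : ℕ → M) (n : ℕ) : Prop :=
  H n = 3 • H (n + 1) - 3 • H (n + 2) + H (n + 3)
lemma RecN.eq_of {M : Type*} [AddCommGroup M] {H : ℕ → M} {H' : ℤ → M} {n₀ n₁ : ℕ}
    (h : ∀ n ≥ n₀, RecN H n) (h' : ∀ j, Rec3 H' j) (e : ∀ n ≥ n₁, H n = H' n) :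
    ∀ n ≥ n₀, H n = H' n := fun n hn => by
  have := Rec3.eq_of (H := fun j => H j.toNat) (j₀ := n₀) (j₁ := n₁) (fun j hj => ?_)
    (fun j _ => h' j) (fun j hj => ?_) n (by omega)
  · simpa using this
  · obtain ⟨m, rfl⟩ := Int.eq_ofNat_of_zero_le (show 0 ≤ j by omega)
    exact h m (by omega)
  · obtain ⟨m, rfl⟩ := Int.eq_ofNat_of_zero_le (show 0 ≤ j by omega)
    exact e m (by omega)
lemma Rec3.map {M N : Type*} [AddCommGroup M] [AddCommGroup N] {H : ℤ → M} {j : ℤ} (h : Rec3 H j)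
    (f : M →+ N) : Rec3 (fun j => f (H j)) j := by
  rw [Rec3, h, map_add, map_sub, map_nsmul, map_nsmul]

section kos
variable {W : ℕ → GV} (τ : ∀ n, Fin 3 → (W n).V →ₗ[ℂ] (W (n + 1)).V)
/-- three copies -/
abbrev P3 (V : GV) : GV := GV.pi fun _ : Fin 3 => V
/-- three copies -/
abbrev p3 {V : GV} (M : Submodule ℂ V.V) : Submodule ℂ (P3 V).V :=
  Submodule.pi Set.univ fun _ => M
lemma mem_p3 {V : GV} {M : Submodule ℂ V.V} {y : (P3 V).V} : y ∈ p3 M ↔ ∀ i, y i ∈ M :=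
  ⟨fun h i => h i trivial, fun h i _ => h i⟩
lemma finrank_p3 {V : GV} (M : Submodule ℂ V.V) : finrank ℂ (p3 M) = 3 * finrank ℂ M := by
  have e : p3 M = LinearMap.range (M.subtype.compLeft (Fin 3)) := Submodule.ext fun y =>
    mem_p3.trans ⟨fun h => ⟨fun i => ⟨_, h i⟩, rfl⟩, fun ⟨z, hz⟩ i => hz ▸ (z i).2⟩
  rw [e, LinearMap.finrank_range_of_inj fun _ _ h => funext fun i => Subtype.ext (congrFun h i),
    finrank_pi_fintype]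
  simp
/-- first Koszul map -/
def k1 (n : ℕ) : (W n).V →ₗ[ℂ] (P3 (W (n + 1))).V := LinearMap.pi (τ n)
/-- second Koszul map -/
def k2 (n : ℕ) : (P3 (W n)).V →ₗ[ℂ] (P3 (W (n + 1))).V := LinearMap.pi fun i =>
  τ n (i + 1) ∘ₗ LinearMap.proj (i + 2) - τ n (i + 2) ∘ₗ LinearMap.proj (i + 1)
/-- third Koszul map -/
def k3 (n : ℕ) : (P3 (W n)).V →ₗ[ℂ] (W (n + 1)).V := ∑ i, τ n i ∘ₗ LinearMap.proj i
lemma k3_apply (n : ℕ) (z : (P3 (W n)).V) : k3 τ n z = ∑ i, τ n i (z i) :=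
  LinearMap.sum_apply _ _ _
/-- exactness of the Koszul complex of `M / M'` -/
def KosEx (M M' : ∀ n, Submodule ℂ (W n).V) (n : ℕ) : Prop :=
  SqInj (M n) (M' n) (p3 (M' (n + 1))) (k1 τ n) ∧
  SqEx (M n) (p3 (M (n + 1))) (p3 (M' (n + 1))) (p3 (M' (n + 2))) (k1 τ n) (k2 τ (n + 1)) ∧
  SqEx (p3 (M (n + 1))) (p3 (M (n + 2))) (p3 (M' (n + 2))) (M' (n + 3)) (k2 τ (n + 1))
    (k3 τ (n + 2)) ∧ SqSurj (p3 (M (n + 2))) (M (n + 3)) (M' (n + 3)) (k3 τ (n + 2))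
variable {τ}
lemma KosEx.num {M M' : ∀ n, Submodule ℂ (W n).V} {n : ℕ} (h : KosEx τ M M' n) :
    RecN (fun n => (finrank ℂ (M n) : ℤ) - finrank ℂ (M' n)) n := by
  have := (fr4 h.1 h.2.1 h.2.2.2 h.2.2.1.le).1 h.2.2.1
  rw [finrank_p3, finrank_p3, finrank_p3, finrank_p3] at this
  simp only [RecN, nsmul_eq_mul]
  push_cast at this ⊢
  linarith
lemma recN_kc {M M' : ∀ n, Pt → Submodule ℂ (W n).V} {n : ℕ}
    (hτ : ∀ n i, Deg0 (W n) (W (n + 1)) (τ n i)) (hM : ∀ j ≥ n, IsAB X (W j) (M j))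
    (hM' : ∀ j ≥ n, IsAB X (W j) (M' j))
    (h : ∀ x ∈ X.pts, KosEx τ (fun n => M n x) (fun n => M' n x) n) :
    RecN (fun n => kc X (W n) (M n) - kc X (W n) (M' n)) n := by
  have a := fun j hj => IsAB.pi fun _ : Fin 3 => hM j hj
  have a' := fun j hj => IsAB.pi fun _ : Fin 3 => hM' j hj
  have := kq4 (hM n le_rfl) (hM' n le_rfl) (a (n + 1) (by omega)) (a' (n + 1) (by omega))
    (a (n + 2) (by omega)) (a' (n + 2) (by omega)) (hM (n + 3) (by omega)) (hM' (n + 3) (by omega))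
    (.const (f := k1 τ n) fun v => funext fun i => hτ _ i v)
    (.const (f := k2 τ (n + 1)) fun v => funext fun i => by
      change τ _ _ ((W _).g _) - τ _ _ ((W _).g _) = (W _).g (_ - _)
      rw [hτ, hτ, map_sub]; rfl)
    (.const (f := k3 τ (n + 2)) fun v => by
      rw [k3_apply, k3_apply, map_sum]
      exact Finset.sum_congr rfl fun i _ => hτ _ i _) h
  rw [kc_pi fun _ => hM _ (by omega), kc_pi fun _ => hM _ (by omega),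
    kc_pi fun _ => hM' _ (by omega), kc_pi fun _ => hM' _ (by omega)] at this
  simp only [Finset.sum_const, Finset.card_univ, Fintype.card_fin, RecN, nsmul_eq_mul] at this ⊢
  linear_combination this

variable {F : Type} [Field F] [Algebra ℂ F] {c : Coord ℂ F 2} {V : Type} [AddCommGroup V]
  [Module ℂ V] [Module F V] [IsScalarTower ℂ F V] {𝓜 𝓝 : Lat c V} {j : ∀ n, (W n).V →ₗ[ℂ] V}
/-- Koszul exactness from a pair of lattices -/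
theorem kosEx_of_model (hj : ∀ n i w, j (n + 1) (τ n i w) = c.t i • j n w)
    (hs : ∀ n : ℕ, Gm 𝓜 n ≤ LinearMap.range (j n)) (le : 𝓝.toFam.LE 𝓜.toFam) {m : ℤ}
    (vM : Van 𝓜 m) (vN : Van 𝓝 m) {n : ℕ} (hn : m ≤ n) :
    KosEx τ (fun n => (Gm 𝓜 n).comap (j n)) (fun n => (Gm 𝓝 n).comap (j n)) n := by
  have h2 : ∀ n y i, j (n + 1) (k2 τ n y i) = kos2 V c.t (fun i => j n (y i)) i := fun n y i => by
    rw [kos2_apply, ← hj, ← hj, ← map_sub]; rfl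
  have h3 : ∀ n z, j (n + 1) (k3 τ n z) = kos3 V c.t fun i => j n (z i) := fun n z => by
    rw [k3_apply, kos3_apply, map_sum]
    exact Finset.sum_congr rfl fun i _ => hj _ _ _
  have lift : ∀ (n : ℕ) {y : Fin 3 → V}, (∀ i, y i ∈ Gm 𝓜 n) → ∃ w : (P3 (W n)).V,
      (fun i => j n (w i)) = y := fun n y hy =>
    ⟨fun i => (hs n (hy i)).choose, funext fun i => (hs n (hy i)).choose_spec⟩
  have gM := vM.reg.gen (e := (n + 2 : ℕ)) (by omega)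
  have gN := vN.reg.gen (e := (n + 2 : ℕ)) (by omega)
  refine ⟨le_antisymm (fun w hw => mem_Gm_of_smul fun i => hj n i w ▸ mem_p3.1 hw.2 i)
    fun w hw => ⟨Gm_mono le _ hw, mem_p3.2 fun i => (hj n i w).symm.subst (motive := (· ∈ _))
      (kos1_mem hw i)⟩, le_antisymm (sup_le ?_ fun y hy => ⟨?_, ?_⟩) fun y hy => ?_,
    le_antisymm (sup_le ?_ fun y hy => ⟨?_, ?_⟩) fun z hz => ?_,
    le_antisymm (sup_le ?_ fun y hy => Gm_mono le _ hy) fun x hx => ?_⟩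
  · rintro _ ⟨w, hw, rfl⟩
    refine ⟨mem_p3.2 fun i => (hj n i w).symm.subst (motive := (· ∈ _)) (kos1_mem hw i),
      mem_p3.2 fun i => ?_⟩
    rw [Submodule.mem_comap, h2, show (fun i => j (n + 1) (k1 τ n w i)) = kos1 V c.t (j n w) from
      funext fun i => hj n i w, kos2_kos1]
    exact zero_mem _
  · exact mem_p3.2 fun i => Gm_mono le _ (mem_p3.1 hy i)
  · exact mem_p3.2 fun i => (h2 _ y i).symm.subst (motive := (· ∈ Gm 𝓝 _))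
      (kos2_mem (e := (n + 1 : ℕ)) (fun i => mem_p3.1 hy i) i)
  · obtain ⟨x, hx, h⟩ := descend le (vN n hn 1 one_pos) (mem_p3.1 hy.1)
      fun i => h2 _ y i ▸ mem_p3.1 hy.2 i
    obtain ⟨w, rfl⟩ := hs n hx
    rw [← add_sub_cancel (k1 τ n w) y]
    refine Submodule.add_mem_sup ⟨w, hx, rfl⟩ (mem_p3.2 fun i => ?_)
    rw [Submodule.mem_comap, Pi.sub_apply, map_sub, show j _ (k1 τ n w i) = _ from hj n i w]
    exact h i
  · rintro _ ⟨y, hy, rfl⟩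
    refine ⟨mem_p3.2 fun i => (h2 _ y i).symm.subst (motive := (· ∈ Gm 𝓜 _))
      (kos2_mem (e := (n + 1 : ℕ)) (fun i => mem_p3.1 hy i) i), ?_⟩
    rw [SetLike.mem_coe, Submodule.mem_comap, Submodule.mem_comap, h3, funext (h2 _ y), kos3_kos2]
    exact zero_mem _
  · exact mem_p3.2 fun i => Gm_mono le _ (mem_p3.1 hy i)
  · exact (h3 _ y).symm.subst (motive := (· ∈ _)) (kos3_mem (mem_p3.1 hy))
  · obtain ⟨u, hu, e⟩ := kos_surj3 gN ((h3 _ z).subst (motive := (· ∈ Gm 𝓝 _)) hz.2)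
    obtain ⟨y, hy, e'⟩ := kos_ex2 (vM n hn 1 one_pos) (z := (fun i => j _ (z i)) - u)
      (fun i => sub_mem (mem_p3.1 hz.1 i) (Gm_mono le _ (hu i))) (by rw [map_sub, e, sub_self])
    obtain ⟨w, rfl⟩ := lift (n + 1) hy
    rw [← add_sub_cancel (k2 τ (n + 1) w) z]
    refine Submodule.add_mem_sup ⟨w, mem_p3.2 hy, rfl⟩ (mem_p3.2 fun i => ?_)
    rw [Submodule.mem_comap, Pi.sub_apply, map_sub, h2, e', Pi.sub_apply, sub_sub_cancel]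
    exact hu i
  · rintro _ ⟨z, hz, rfl⟩
    exact (h3 _ z).symm.subst (motive := (· ∈ _)) (kos3_mem (mem_p3.1 hz))
  · obtain ⟨u, hu, e⟩ := kos_surj3 gM hx
    obtain ⟨w, rfl⟩ := lift (n + 2) hu
    rw [← add_sub_cancel (k3 τ (n + 2) w) x]
    refine Submodule.add_mem_sup ⟨w, mem_p3.2 hu, rfl⟩ ?_
    rw [Submodule.mem_comap, map_sub, h3, e, sub_self]
    exact zero_mem _
end kos

/-! ### sections in high degree -/

variable (Sg b) in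
/-- `{t ∈ V ⊗ A_m | ev_z t ∈ L (x + z)}` -/
def gam0 {V : Type} [AddCommGroup V] [Module ℂ V] (m : ℕ) (L : Pt → Submodule ℂ V) (x : Pt) :
    Submodule ℂ (V ⊗[ℂ] SA Sg m) := gamT (Sg.S b) (evS Sg b m) L x
lemma mem_gam0 {V : Type} [AddCommGroup V] [Module ℂ V] {m : ℕ} {L : Pt → Submodule ℂ V} {x : Pt}
    {t : V ⊗[ℂ] SA Sg m} :
    t ∈ gam0 Sg b m L x ↔ ∀ z ∈ (Sg.S b).pts, evz Sg b V m z t ∈ L (x + z) := by
  simp only [gam0, gamT, Submodule.mem_iInf, ← evP_eq, Subtype.forall, Submodule.mem_comap]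
theorem piK_gam0 (hb : b ∉ X.B) {V : GV} (hV : V.In X.B) {L : Pt → Submodule ℂ V.V}
    (h : IsAB (X.fib (Sg.S b)) V L) : ∃ m₀ : ℕ, ∀ m ≥ m₀, IsAB X (WA Sg V m) (gam0 Sg b m L) ∧
      piK X (Sg.S b) b (lbK _ ((m : ℤ) • eB b) * kc _ V L) = kc X (WA Sg V m) (gam0 Sg b m L) := by
  obtain ⟨j₀, H⟩ := piK_gamT (base_S Sg b) hb hV (h.shift ((base_S Sg b).eB_mem 0))
  refine ⟨j₀.toNat, fun m hm => ?_⟩
  have := H m (by omega) _ _ ((add_zero (m : ℤ)).symm ▸ isSecM_evS Sg b m)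
  rwa [kc_shift h ((base_S Sg b).eB_mem 0), zero_smul, lbK_zero, one_mul] at this

variable (Sg b) in
/-- `{θ : P → T | ε z ∘ θ ∈ L (x + z)}` -/
def gamH {P T W : Type} [AddCommGroup P] [Module ℂ P] [AddCommGroup T] [Module ℂ T]
    [AddCommGroup W] [Module ℂ W] (ε : Pt → T →ₗ[ℂ] W) (L : Pt → Submodule ℂ (P →ₗ[ℂ] W))
    (x : Pt) : Submodule ℂ (P →ₗ[ℂ] T) :=
  ⨅ z : (Sg.S b).pts, (L (x + z.1)).comap (LinearMap.llcomp ℂ P T W (ε z.1))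
lemma mem_gamH {P T W : Type} [AddCommGroup P] [Module ℂ P] [AddCommGroup T] [Module ℂ T]
    [AddCommGroup W] [Module ℂ W] {ε : Pt → T →ₗ[ℂ] W} {L : Pt → Submodule ℂ (P →ₗ[ℂ] W)}
    {x : Pt} {θ : P →ₗ[ℂ] T} :
    θ ∈ gamH Sg b ε L x ↔ ∀ z ∈ (Sg.S b).pts, ε z ∘ₗ θ ∈ L (x + z) := by
  simp only [gamH, Submodule.mem_iInf, Subtype.forall, Submodule.mem_comap]; rfl
theorem piK_gamH (hb : b ∉ X.B) {P W : GV} (hP : P.In X.B) (hW : W.In X.B)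
    {L : Pt → Submodule ℂ (P.hom W).V} (h : IsAB (X.fib (Sg.S b)) (P.hom W) L) :
    ∃ m₀ : ℕ, ∀ m ≥ m₀, ∀ (T : GV) (ω : (WA Sg W m).V →ₗ[ℂ] T.V) (ε : Pt → T.V →ₗ[ℂ] W.V),
      T.In X.B → Deg0 _ T ω → Function.Bijective ω → (∀ z t, ε z (ω t) = evz Sg b _ m z t) →
      IsAB X (P.hom T) (gamH Sg b ε L) ∧ piK X (Sg.S b) b (lbK _ ((m : ℤ) • eB b) * kc _ _ L) =
        kc X (P.hom T) (gamH Sg b ε L) := by
  obtain ⟨m₀, H⟩ := piK_gam0 hb (hP.hom hW) h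
  refine ⟨m₀, fun m hm T ω ε hT h0 hω hε => ?_⟩
  let Φ : (WA Sg (P.hom W) m).V →ₗ[ℂ] (P.hom T).V :=
    LinearMap.llcomp ℂ _ _ _ ω ∘ₗ (rTensorHomEquivHomRTensor ℂ P.V W.V (SA Sg m)).toLinearMap
  have hΦ : ∀ φ a v, Φ (φ ⊗ₜ a) v = ω (φ v ⊗ₜ a) := fun φ a v =>
    congrArg ω (LinearMap.congr_fun (rTensorHomEquivHomRTensor_apply ..) v)
  have hb : Function.Bijective Φ := ((LinearEquiv.refl ℂ P.V).arrowCongr
    (LinearEquiv.ofBijective ω hω)).bijective.comp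
      (rTensorHomEquivHomRTensor ℂ P.V W.V (SA Sg m)).bijective
  have hd : IsRM X (WA Sg (P.hom W) m) (P.hom T) fun _ => Φ := .const fun s => by
    induction s using TensorProduct.induction_on with
    | zero => simp only [map_zero]
    | tmul φ a =>
      exact LinearMap.ext fun v => (hΦ _ _ _).trans ((h0 (φ (P.g.symm v) ⊗ₜ a)).trans
        (congrArg _ (hΦ _ _ _).symm))
    | add s s' h h' => simp only [map_add, h, h']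
  have he : ∀ z s, ε z ∘ₗ Φ s = evz Sg b _ m z s := fun z s => by
    induction s using TensorProduct.induction_on with
    | zero => simp only [map_zero, LinearMap.comp_zero]
    | tmul φ a => exact LinearMap.ext fun v => by simp [hΦ, hε]
    | add s s' h h' => simp only [map_add, LinearMap.comp_add, h, h']
  have hi : ∀ x ∈ X.pts, gam0 Sg b m L x ⊓ LinearMap.ker Φ = ⊥ := fun x _ => by
    rw [LinearMap.ker_eq_bot.2 hb.1, inf_bot_eq]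
  have hm' : ∀ x ∈ X.pts, (gam0 Sg b m L x).map Φ = gamH Sg b ε L x := fun x _ => by
    rw [← Submodule.map_comap_eq_of_surjective hb.2 (gamH Sg b ε L x)]
    exact congrArg _ (Submodule.ext fun s => by
      simp only [mem_gam0, Submodule.mem_comap, mem_gamH, he])
  have hA := (((H m hm).1.map_of_inj (hP.hom hT) hd hi).congr hm')
  exact ⟨hA, (H m hm).2.trans (kc_iso (H m hm).1 hA hd fun x hx => ⟨hi x hx, hm' x hx⟩)⟩

theorem piK_O (hb : b ∉ X.B) (m : ℕ) :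
    piK X (Sg.S b) b (lbK _ ((m : ℤ) • eB b)) = (finrank ℂ (SA Sg m) : K X) := by
  obtain ⟨j₀, H⟩ := piK_lbK_big (base_S Sg b) hb
  have := RecN.eq_of (H := fun m => (finrank ℂ (SA Sg m) : K X)) (n₀ := 0) (n₁ := j₀.toNat)
    (fun n _ => ?_) ((base_S Sg b).rec3 (piK X (Sg.S b) b) 1) (fun n hn => ?_) m (by omega)
  · rw [this, mul_one]
  · have e : ∀ n : ℕ, (finrank ℂ (SA Sg n) : K X) = (cL (SnapE_99.OX Sg.V.X).toLat n : ℤ) :=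
      fun n => by rw [cL_OX, ← finrank_AA Sg (by omega), AA_nat, Int.cast_natCast]
    simp only [RecN, e]
    rw [cL_rec]
    push_cast
    ring
  · rw [mul_one, H n (by omega), ← (isSecM_evS Sg b n).range,
      LinearMap.finrank_range_of_inj (isSecM_evS Sg b n).inj]

lemma near_rk (u : K X) (x : X.pts) : Near X.fn x fun y => K.rk y.2 u = K.rk x.2 u := by
  induction u using K.ind with
  | h0 => exact .of_forall fun _ => by simp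
  | hneg a h => exact h.mono fun _ h => by rw [map_neg, map_neg, h]
  | hadd a a' h h' => exact (h.and h').mono fun _ h => by rw [map_add, map_add, h.1, h.2]
  | hkl A =>
    exact (lc_iff.1 A.isAB.lc x).mono fun y h => by rw [K.rk_kl, K.rk_kl]; exact congrArg _ h

/-- open, increasing and exhausting conditions hold uniformly -/
lemma unif_of_open {q : ℕ → X.pts → Prop} {n₀ : ℕ} (ho : ∀ n ≥ n₀, ∀ x, q n x → Near X.fn x (q n))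
    (hm : ∀ n ≥ n₀, ∀ x, q n x → q (n + 1) x) (he : ∀ x, ∀ᶠ n in atTop, q n x) :
    ∃ N, ∀ n ≥ N, ∀ x, q n x := by
  classical
  have H : ∀ x : X.pts, ∃ (N : ℕ) (r : R), MvPolynomial.eval x.1 r ≠ 0 ∧
      ∀ y : X.pts, MvPolynomial.eval y.1 r ≠ 0 → ∀ n ≥ N, q n y := fun x => by
    obtain ⟨N, h1, h2⟩ := ((he x).and (eventually_ge_atTop n₀)).exists
    obtain ⟨r, h3, h4⟩ := near_iff.1 (ho N h2 x h1)
    refine ⟨N, r, h3, fun y hy n hn => ?_⟩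
    induction n, hn using Nat.le_induction with
    | base => exact h4 y hy
    | succ k hk ih => exact hm k (le_trans h2 hk) y ih
  choose N r h1 h2 using H
  obtain ⟨t, ht⟩ := Jac.exists_finite_cover X r fun x hx => ⟨⟨x, hx⟩, h1 ⟨x, hx⟩⟩
  obtain ⟨N₀, hN₀⟩ := (t.image N).exists_le
  refine ⟨N₀, fun n hn x => ?_⟩
  obtain ⟨y, hy, h⟩ := ht x.1 x.2
  exact h2 y x h n ((hN₀ _ (Finset.mem_image_of_mem _ hy)).trans hn)

end Crest.Agent.N265.M.Hx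
end
end

-- ▼ part N265/Fib/H4
section

/-!
# Row 265, task M-TV, part 4 (helper42): relations of `KK 3`, the spaces `Hn n / Dn n =
Hom(B, O'/L'(n))` and their lattice models
-/

set_option autoImplicit false
set_option linter.dupNamespace false
set_option linter.unusedSectionVars false
noncomputable section
open Module TensorProduct Filter

namespace Crest.Agent.N265.M.Hx
open Crest.Agent.R274
open Defs_781 Lat_781 Ser_781 SnapA_99 SnapB_99 SnapC_99 SnapD_99 SnapE_99 Gen7_750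
open Xs1_781 SkDefs_474
open Alg GV Br N N.Sg1 Hm Fib Fib.Hz _root_.Crest.Agent.N265.Pow
variable {Sg : Surf} {b e k m n p : ℕ}

section rel
variable {V W : Type} [AddCommGroup V] [Module ℂ V] [AddCommGroup W] [Module ℂ W]
/-- relations of degree `k` -/
def Rel (K : Submodule ℂ (V ⊗[ℂ] SA Sg e)) (k : ℕ) :
    Submodule ℂ ((V ⊗[ℂ] SA Sg e) ⊗[ℂ] SA Sg k) := tens K ⊤ ⊓ LinearMap.ker (mm V e k)
variable (b) in
/-- `Z z` consists of the values of the relations -/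
structure ZR (K : Submodule ℂ (V ⊗[ℂ] SA Sg e)) (Z : Pt → Submodule ℂ (V ⊗[ℂ] SA Sg e)) :
    Prop where
  le : ∀ z ∈ (Sg.S b).pts, Z z ≤ K
  ker : ∀ z ∈ (Sg.S b).pts, ∀ c ∈ Z z, evz Sg b V e z c = 0
  ev : ∀ z ∈ (Sg.S b).pts, ∀ k, ∀ t ∈ Rel K k, evz Sg b _ k z t ∈ Z z
  ex : ∀ z ∈ (Sg.S b).pts, ∀ c ∈ Z z, ∃ t ∈ Rel K 1, evz Sg b _ 1 z t = c
lemma ZR.mem_Rel [FiniteDimensional ℂ V] {K : Submodule ℂ (V ⊗[ℂ] SA Sg e)}
    {Z : Pt → Submodule ℂ (V ⊗[ℂ] SA Sg e)} (h : ZR b K Z) {t : (V ⊗[ℂ] SA Sg e) ⊗[ℂ] SA Sg k} :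
    t ∈ Rel K k ↔ ∀ z ∈ (Sg.S b).pts, evz Sg b _ k z t ∈ Z z :=
  ⟨fun ht z hz => h.ev z hz k t ht, fun H => ⟨mem_tens_of_evz b fun z hz => h.le z hz (H z hz),
    eq_zero_of_evz b fun z hz => (evz_mm z t).trans (h.ker z hz _ (H z hz))⟩⟩
lemma evz_muW (z : Pt) (l : SA Sg 1) (t : V ⊗[ℂ] SA Sg k) :
    evz Sg b V (k + 1) z (muW Sg V k (l ⊗ₜ t)) = evP Sg b 1 z l • evz Sg b V k z t := by
  induction t using TensorProduct.induction_on with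
  | zero => simp
  | tmul v a => rw [muW_tmul, evT_tmul, evT_tmul, evP_mul, mul_smul]
  | add t t' h h' => simp only [tmul_add, map_add, smul_add, h, h']
lemma mm_muW_comm (l l' : SA Sg 1) (t : V ⊗[ℂ] SA Sg k) :
    mm V (k + 1) 1 (muW Sg V k (l ⊗ₜ t) ⊗ₜ l') = mm V (k + 1) 1 (muW Sg V k (l' ⊗ₜ t) ⊗ₜ l) := by
  induction t using TensorProduct.induction_on with
  | zero => simp
  | tmul v a =>
    rw [muW_tmul, muW_tmul, Hm.mm_tmul, Hm.mm_tmul]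
    exact congrArg _ (Subtype.ext (by simp only [mulA_val]; ring))
  | add t t' h h' => simp only [tmul_add, map_add, add_tmul, h, h']
lemma zr_mulS {N : Submodule ℂ (V ⊗[ℂ] SA Sg k)} {K : Submodule ℂ (V ⊗[ℂ] SA Sg (k + 1))}
    (hN : ∀ P, mulS Sg P N ≤ K) (ev : ∀ z ∈ (Sg.S b).pts, ∀ j, ∀ t ∈ Rel K j,
      evz Sg b _ j z t ∈ mulS Sg (mP Sg b 1 z) N) : ZR b K fun z => mulS Sg (mP Sg b 1 z) N where
  le _ _ := hN _
  ker z _ := by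
    rintro _ ⟨s, hs, rfl⟩
    refine tens_ind hs (by simp) (fun l hl t _ => ?_) fun _ _ h h' => by
      rw [map_add, map_add, h, h', add_zero]
    rw [evz_muW, show evP Sg b 1 z l = 0 from hl, zero_smul]
  ev := ev
  ex z hz := by
    obtain ⟨l₀, h₀⟩ := evP_surj Sg b 1 hz 1
    rintro _ ⟨s, hs, rfl⟩
    refine tens_ind hs ⟨0, zero_mem _, by simp⟩ (fun l hl t ht => ?_)
      fun _ _ ⟨t, h1, h2⟩ ⟨t', h3, h4⟩ => ⟨t + t', add_mem h1 h3, by rw [map_add, map_add, h2, h4]⟩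
    refine ⟨muW Sg V k (l ⊗ₜ t) ⊗ₜ l₀ - muW Sg V k (l₀ ⊗ₜ t) ⊗ₜ l, ⟨sub_mem
      (tmul_mem (hN ⊤ ⟨_, tmul_mem trivial ht, rfl⟩) trivial)
      (tmul_mem (hN ⊤ ⟨_, tmul_mem trivial ht, rfl⟩) trivial), ?_⟩, ?_⟩
    · rw [SetLike.mem_coe, LinearMap.mem_ker, map_sub, mm_muW_comm, sub_self]
    · rw [map_sub, evT_tmul, evT_tmul, h₀, show evP Sg b 1 z l = 0 from hl, one_smul, zero_smul,
        sub_zero]
end rel

variable {𝔞 𝔟 : Amb Sg} {L : XL Sg 𝔞.M} {L' : XL Sg 𝔟.M}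

variable (𝔞 L p b) in
/-- `V_z KK 2` -/
abbrev Zf (z : Pt) : Submodule ℂ (WA Sg (𝔞.G p) 3).V := mulS Sg (mP Sg b 1 z) (𝔞.KK L p 2)
theorem zr_KK (h : LeL L 𝔞.O) (hr : RegL L.toLat p) : ZR b (𝔞.KK L p 3) (Zf b p 𝔞 L) :=
  zr_mulS mulS_le_KK fun _ hz _ _ ht => evz_mem_ZZ h hr le_rfl hz ht.1 ht.2
lemma mm_mem_KK {t : (WA Sg (𝔞.G p) e).V ⊗[ℂ] SA Sg k} (ht : t ∈ tens (𝔞.KK L p e) ⊤) :
    mm _ e k t ∈ 𝔞.KK L p (k + e) := ⟨mm_mem inf_le_left ht, (mF_mm _ t).trans (by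
  refine tens_ind ht (map_zero _) (fun κ hκ a _ => ?_) fun _ _ h h' => by
    rw [map_add, h, h', add_zero]
  exact (congrArg (a.1 • ·) hκ.2).trans (smul_zero _))⟩
theorem map_mm_KK (h : LeL L 𝔞.O) (hr : RegL L.toLat p) (k : ℕ) :
    (tens (𝔞.KK L p 3) ⊤).map (mm _ 3 k) = 𝔞.KK L p (k + 3) := by
  have le : (tens (𝔞.KK L p 3) ⊤).map (mm _ 3 k) ≤ 𝔞.KK L p (k + 3) := by
    rintro _ ⟨t, ht, rfl⟩
    exact mm_mem_KK ht
  refine le_antisymm le fun t ht => mem_of_cB le ht ?_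
  have h1 := (map_cB (k + 3)).le (Submodule.mem_map_of_mem ht)
  rw [Nat.cast_add, gen_AA (fun _ he => (reg_B0 h hr).gen he) (by omega), ← map_cB,
    ← map_mF] at h1
  obtain ⟨s, hs, e⟩ := h1
  exact ⟨_, ⟨s, hs, rfl⟩, (mF_mm _ s).trans e⟩

variable (𝔟) in
/-- the fibre of the ambient bundle -/
abbrev W0 : GV := GV.pi fun a : 𝔟.ι => line (𝔟.wt a • eT)
variable (𝔟 b n) in
/-- evaluation of sections -/
def evG (z : Pt) : (𝔟.G n).V →ₗ[ℂ] (W0 𝔟).V := (evP Sg b n z).compLeft 𝔟.ι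
lemma evG_mul (z : Pt) (s : (𝔟.G n).V ⊗[ℂ] SA Sg k) :
    evG b (k + n) 𝔟 z (𝔟.mul n k s) = evG b n 𝔟 z (evz Sg b _ k z s) := by
  induction s using TensorProduct.induction_on with
  | zero => simp only [map_zero]
  | tmul w a =>
    rw [evT_tmul, map_smul]
    exact funext fun i => (evP_mul z (w i) a).trans (mul_comm _ _)
  | add t t' h h' => simp only [map_add, h, h']
variable (b) in
lemma eq_zero_of_evG {w : (𝔟.G n).V} (h : ∀ z ∈ (Sg.S b).pts, evG b n 𝔟 z w = 0) : w = 0 :=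
  funext fun i => (isSecM_evS Sg b n).inj (funext fun z => by
    rw [← evP_apply, ← evP_apply]; exact (congrFun (h z.1 z.2) i).trans (map_zero _).symm)
variable (𝔟) in
/-- multiplication by a coordinate -/
def tG (n : ℕ) (i : Fin 3) : (𝔟.G n).V →ₗ[ℂ] (𝔟.G (n + 1)).V :=
  (mulA Sg 1 n ⟨Sg.V.X.t i, mem_SA.2 (t_mem_AA i)⟩).compLeft 𝔟.ι
lemma inc_tG (n : ℕ) (i : Fin 3) (w : (𝔟.G n).V) :
    𝔟.inc (n + 1) (tG 𝔟 n i w) = Sg.V.X.t i • 𝔟.inc n w := by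
  rw [Amb.inc_apply, Amb.inc_apply, ← map_smul]; rfl
lemma deg0_tG (n : ℕ) (i : Fin 3) : Deg0 (𝔟.G n) (𝔟.G (n + 1)) (tG 𝔟 n i) := fun w =>
  funext fun a => map_smul (mulA Sg 1 n _) _ (w a)
lemma pc_bot (j : ℕ) : 𝔟.pc (bot _ _) j = ⊥ := eq_bot_iff.2 fun _ hw => 𝔟.inc_inj j
  (((smul_eq_zero.1 (mem_Gm.1 hw 0)).resolve_left (zpow_ne_zero _ (Sg.V.X.t_ne 0))).trans
    (map_zero _).symm)

variable (𝔟 n k) in
/-- `θ ↦ mul ∘ (θ ⊗ 1)` -/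
def Psi (P : Type) [AddCommGroup P] [Module ℂ P] :
    (P →ₗ[ℂ] (𝔟.G n).V) →ₗ[ℂ] (P ⊗[ℂ] SA Sg k →ₗ[ℂ] (𝔟.G (k + n)).V) :=
  LinearMap.llcomp ℂ _ _ _ (𝔟.mul n k) ∘ₗ LinearMap.rTensorHom (SA Sg k)
variable (𝔞 𝔟 p) in
/-- maps `W_p ⊗ A_3 → W'_n` -/
abbrev HN (n : ℕ) : GV := (WA Sg (𝔞.G p) 3).hom (𝔟.G n)
variable (L L' p) in
/-- maps that send all relations into `L'` -/
def Hn (n : ℕ) : Submodule ℂ (HN p 𝔞 𝔟 n).V :=
  ⨅ k, (homMap (Rel (𝔞.KK L p 3) k) (𝔟.pc L' (k + n))).comap (Psi k n 𝔟 _)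
variable (L L' p) in
/-- maps that send `KK 3` into `L'` -/
def Dn (n : ℕ) : Submodule ℂ (HN p 𝔞 𝔟 n).V := homMap (𝔞.KK L p 3) (𝔟.pc L' n)
lemma mem_Hn {θ : (HN p 𝔞 𝔟 n).V} : θ ∈ Hn p L L' n ↔ ∀ k, ∀ t ∈ Rel (𝔞.KK L p 3) k,
    𝔟.mul n k (θ.rTensor _ t) ∈ 𝔟.pc L' (k + n) := Submodule.mem_iInf _
lemma Hb_eq : 𝔞.Hb 𝔟 L L' p = Hn p L L' (3 + p) := Submodule.ext fun _ =>
  ⟨fun h => mem_Hn.2 fun k t ht => h k t ht.1 ht.2, fun h k t h1 h2 => mem_Hn.1 h k t ⟨h1, h2⟩⟩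
variable (L p) in
/-- coordinates of the frame of `KK 3` -/
def gK (a : Ix (𝔞.KK L p 3)) : Ix (𝔞.pc L p) → Sg.F :=
  Hm.co (Sg := Sg) (𝔞.pc L p) 3 (fu (V := (WA Sg (𝔞.G p) 3).V) (𝔞.KK L p 3) a)
variable (𝔟 L p) in
/-- values on the frame of `KK 3` -/
def jH (n : ℕ) : (HN p 𝔞 𝔟 n).V →ₗ[ℂ] (Ix (𝔞.KK L p 3) → 𝔟.M) :=
  LinearMap.pi fun a => 𝔟.inc n ∘ₗ LinearMap.applyₗ (fu _ a)
lemma jH_apply (θ : (HN p 𝔞 𝔟 n).V) (a : Ix (𝔞.KK L p 3)) :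
    jH p 𝔟 L n θ a = 𝔟.inc n (θ (fu _ a)) := rfl
lemma mem_Rel_iff {t : (WA Sg (𝔞.G p) 3).V ⊗[ℂ] SA Sg k} (ht : t ∈ tens (𝔞.KK L p 3) ⊤) :
    t ∈ Rel (𝔞.KK L p 3) k ↔ Hm.co (𝔞.KK L p 3) k t ∈ relW (gK p L) :=
  ⟨fun h => (co_mm ht).symm.trans ((congrArg _ h.2).trans (map_zero _)),
    fun h => ⟨ht, co_inj (mm_mem inf_le_left ht) ((co_mm ht).trans h)⟩⟩
lemma inc_Psi (θ : (HN p 𝔞 𝔟 n).V) {t : (WA Sg (𝔞.G p) 3).V ⊗[ℂ] SA Sg k}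
    (ht : t ∈ tens (𝔞.KK L p 3) ⊤) : 𝔟.inc (k + n) (𝔟.mul n k (θ.rTensor _ t)) =
      ∑ a, Hm.co (𝔞.KK L p 3) k t a • jH p 𝔟 L n θ a := by
  rw [Amb.inc_mul, mF_rT, mF_co _ ht]; rfl
lemma jH_mem (θ : (HN p 𝔞 𝔟 n).V) (a : Ix (𝔞.KK L p 3)) : jH p 𝔟 L n θ a ∈ Gm 𝔟.O.toLat n :=
  (𝔟.range_inc n).le ⟨_, rfl⟩
lemma rel_iff (θ : (HN p 𝔞 𝔟 n).V) (k : ℕ) : (∀ t ∈ Rel (𝔞.KK L p 3) k,
    𝔟.mul n k (θ.rTensor _ t) ∈ 𝔟.pc L' (k + n)) ↔ ∀ c ∈ relW (gK p L), (∀ a, c a ∈ AA Sg.V.X k) →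
      ∑ a, c a • jH p 𝔟 L n θ a ∈ Gm L'.toLat (n + k) := by
  rw [add_comm (n : ℤ), ← Nat.cast_add]
  refine ⟨fun h c hc h' => ?_, fun h t ht => ?_⟩
  · obtain ⟨t, ht, rfl⟩ := exists_co fun a => mem_SA.2 (h' a)
    exact inc_Psi θ ht ▸ h t ((mem_Rel_iff ht).2 hc)
  · rw [Amb.mem_pc, inc_Psi θ ht.1]
    exact h _ ((mem_Rel_iff ht.1).1 ht) fun a => mem_SA.1 (co_mem _ t a)
variable (L L' p) in
/-- the lattice model of `Hn` -/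
abbrev MH : XL Sg (Ix (𝔞.KK L p 3) → 𝔟.M) := MtX (relW (gK p L)) 𝔟.O L'
lemma Hn_eq (n : ℕ) : Hn p L L' n = (Gm (MH p L L').toLat n).comap (jH p 𝔟 L n) :=
  Submodule.ext fun θ => mem_Hn.trans ((forall_congr' (rel_iff θ)).trans
    (mem_Gm_MtX.trans (and_iff_right (jH_mem θ))).symm)
lemma Dn_eq (n : ℕ) : Dn p L L' n = (Gm (piX fun _ => L').toLat n).comap (jH p 𝔟 L n) :=
  Submodule.ext fun _ => mem_homMap_fu.trans Gm_pi.symm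
lemma exists_jH {φ : Ix (𝔞.KK L p 3) → 𝔟.M} (h : ∀ a, φ a ∈ Gm 𝔟.O.toLat n) :
    ∃ θ, jH p 𝔟 L n θ = φ := by
  choose w hw using fun a => (𝔟.range_inc n).ge (h a)
  exact ⟨fext _ w, funext fun a => by rw [jH_apply, fext_fu, hw]⟩
lemma le_range_jH (n : ℕ) : Gm (MH p L L').toLat n ≤ LinearMap.range (jH p 𝔟 L n) :=
  fun _ h => exists_jH (mem_Gm_MtX.1 h).1
variable (𝔞 𝔟 p) in
/-- multiplication by a coordinate -/
def tH (n : ℕ) (i : Fin 3) : (HN p 𝔞 𝔟 n).V →ₗ[ℂ] (HN p 𝔞 𝔟 (n + 1)).V :=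
  LinearMap.llcomp ℂ _ _ _ (tG 𝔟 n i)
lemma jH_tH (n : ℕ) (i : Fin 3) (θ : (HN p 𝔞 𝔟 n).V) :
    jH p 𝔟 L (n + 1) (tH p 𝔞 𝔟 n i θ) = Sg.V.X.t i • jH p 𝔟 L n θ := funext fun _ => inc_tG n i _
lemma tH_Hn (i : Fin 3) {θ : (HN p 𝔞 𝔟 n).V} (h : θ ∈ Hn p L L' n) :
    tH p 𝔞 𝔟 n i θ ∈ Hn p L L' (n + 1) := by
  rw [Hn_eq, Submodule.mem_comap] at h ⊢
  rw [jH_tH, Nat.cast_succ]
  exact smul_mem_Gm (M := (MH p L L').toLat) (t_mem_T1 i) h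
lemma tH_Dn (i : Fin 3) {θ : (HN p 𝔞 𝔟 n).V} (h : θ ∈ Dn p L L' n) :
    tH p 𝔞 𝔟 n i θ ∈ Dn p L L' (n + 1) := fun c hc => by
  change 𝔟.inc _ (tG 𝔟 n i (θ c)) ∈ Gm L'.toLat _
  rw [inc_tG, Nat.cast_succ]
  exact smul_mem_Gm (M := L'.toLat) (t_mem_T1 i) (h c hc)

theorem kosEx_pc (h' : LeL L' 𝔟.O) (hr' : RegL L'.toLat p) (hp : 2 ≤ p) (hn : p ≤ n) :
    KosEx (tG 𝔟) (fun n => 𝔟.pc 𝔟.O n) (fun n => 𝔟.pc L' n) n :=
  kosEx_of_model inc_tG (fun n => (𝔟.range_inc n).ge) h' ((RegL.toVan 𝔟.reg_O).mono (by omega))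
    (RegL.toVan hr') (by omega)

section reg
variable (h : LeL L 𝔞.O) (hr : RegL L.toLat p)
include h hr
theorem gens_gK : Hz.Gens Sg.V.X (sW 𝔞 L p) (gK p L) (3 : ℕ) :=
  gens_of_gen (fun a => (mem_KK.1 (fu_mem _ a)).2) (fun a l => mem_SA.1 (co_mem _ _ l))
    (fun w hw h' => by
      obtain ⟨t, ht, rfl⟩ := exists_co fun l => mem_SA.2 (h' l)
      rw [← sum_fc (mem_KK.2 ⟨ht, hw⟩), map_sum]
      exact Submodule.sum_mem _ fun a _ => by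
        rw [map_smul]; exact Submodule.smul_mem _ _ (Submodule.subset_span ⟨a, rfl⟩))
    fun _ hd => (reg_B0 h hr).gen (by omega)
theorem spl_gK (x : Pnt Sg.V.X) : Spl x (relW (gK p L)) :=
  let ⟨_, hb⟩ := locF_B0 x
  (gens_gK h hr).spl hb
theorem kosEx_Hn (h' : LeL L' 𝔟.O) (hr' : RegL L'.toLat p) (hf' : XFull L') (hp : 2 ≤ p)
    (hn : p + 2 ≤ n) : KosEx (tH p 𝔞 𝔟) (Hn p L L') (Dn p L L') n := by
  rw [funext (Hn_eq (L := L) (L' := L')), funext (Dn_eq (L := L) (L' := L'))]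
  exact kosEx_of_model jH_tH le_range_jH (pi_le_MtX h') ((gens_gK h hr).van (by omega) hf' h'
    ((RegL.toVan 𝔟.reg_O).mono (by omega)) (RegL.toVan hr'))
    ((Van.pi fun _ => RegL.toVan hr').mono (by omega)) (by omega)
theorem ev_S1 : ∀ᶠ n in atTop, Hn p L L' n ≤ Hn p L (bot _ _) n ⊔ Dn p L L' n :=
  (tendsto_natCast_atTop_atTop.eventually (ev_MtX_sup (spl_gK h hr) 𝔟.O L')).mono fun n hn θ hθ => by
    rw [Hn_eq] at hθ
    obtain ⟨φ, h1, φ', h2, e⟩ := Submodule.mem_sup.1 (hn hθ)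
    obtain ⟨θ', rfl⟩ := le_range_jH n h1
    rw [← add_sub_cancel θ' θ, Hn_eq, Dn_eq]
    refine Submodule.add_mem_sup h1 ?_
    rwa [Submodule.mem_comap, map_sub, ← e, add_sub_cancel_left]
theorem S1_succ (h' : LeL L' 𝔟.O) (hr' : RegL L'.toLat p) (hf' : XFull L') (hp : 2 ≤ p)
    (hn : p + 4 ≤ n) (H : Hn p L L' n ≤ Hn p L (bot _ _) n ⊔ Dn p L L' n) :
    Hn p L L' (n + 1) ≤ Hn p L (bot _ _) (n + 1) ⊔ Dn p L L' (n + 1) := by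
  obtain ⟨n, rfl⟩ : ∃ m, n = m + 2 := ⟨n - 2, by omega⟩
  refine (kosEx_Hn h hr h' hr' hf' hp (n := n) (by omega)).2.2.2.ge.trans (sup_le ?_ le_sup_right)
  rintro _ ⟨z, hz, rfl⟩
  rw [k3_apply]
  refine Submodule.sum_mem _ fun i _ => ?_
  obtain ⟨a, ha, c, hc, e⟩ := Submodule.mem_sup.1 (H (mem_p3.1 hz i))
  rw [← e, map_add]
  exact Submodule.add_mem_sup (tH_Hn i ha) (tH_Dn i hc)
end reg

end Crest.Agent.N265.M.Hx
end
end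

-- ▼ part N265/Fib/H5
section

/-!
# Row 265, task M-TV, part 5 (helper42): the complex `Γ Hom(B, B' → A' → O' → O'/L')`
-/

set_option autoImplicit false
set_option linter.dupNamespace false
set_option linter.unusedSectionVars false
noncomputable section
open Module TensorProduct Filter

namespace Crest.Agent.N265.M.Hx
open Crest.Agent.R274
open Defs_781 Lat_781 Ser_781 SnapA_99 SnapB_99 SnapC_99 SnapD_99 SnapE_99 Gen7_750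
open Xs1_781 SkDefs_474
open Alg GV Br N N.Sg1 Hm Fib Fib.Hz Fib.Pnt _root_.Crest.Agent.N265.Pow
variable {Sg : Surf} {b m n p : ℕ} {𝔞 𝔟 : Amb Sg} {L : XL Sg 𝔞.M} {L' : XL Sg 𝔟.M}

variable (𝔞 p) in
/-- `W_p ⊗ A_3` -/
abbrev PP : GV := WA Sg (𝔞.G p) 3
section gS
variable {T W : Type} [AddCommGroup T] [Module ℂ T] [AddCommGroup W] [Module ℂ W]
  {ε : Pt → T →ₗ[ℂ] W} {M N : Pt → Submodule ℂ W} {θ : (PP p 𝔞).V →ₗ[ℂ] T}
variable (b p L ε M N) in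
/-- `gS / gS' = Γ Hom(B, M / N)` -/
def gS : Submodule ℂ ((PP p 𝔞).V →ₗ[ℂ] T) := ⨅ z : (Sg.S b).pts,
  (homMap (𝔞.KK L p 3) (M z) ⊓ homMap (Zf b p 𝔞 L z) (N z)).comap (LinearMap.llcomp ℂ _ _ _ (ε z))
variable (b p L ε N) in
/-- `gS / gS' = Γ Hom(B, M / N)` -/
def gS' : Submodule ℂ ((PP p 𝔞).V →ₗ[ℂ] T) := ⨅ z : (Sg.S b).pts,
  (homMap (𝔞.KK L p 3) (N z)).comap (LinearMap.llcomp ℂ _ _ _ (ε z))
lemma mem_gS : θ ∈ gS b p L ε M N ↔ (∀ c ∈ 𝔞.KK L p 3, ∀ z ∈ (Sg.S b).pts, ε z (θ c) ∈ M z) ∧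
    ∀ z ∈ (Sg.S b).pts, ∀ c ∈ Zf b p 𝔞 L z, ε z (θ c) ∈ N z := (Submodule.mem_iInf _).trans
  ⟨fun h => ⟨fun c hc z hz => (h ⟨z, hz⟩).1 c hc, fun z hz => (h ⟨z, hz⟩).2⟩,
    fun h z => ⟨fun c hc => h.1 c hc z z.2, h.2 z z.2⟩⟩
lemma mem_gS' : θ ∈ gS' b p L ε N ↔ ∀ c ∈ 𝔞.KK L p 3, ∀ z ∈ (Sg.S b).pts, ε z (θ c) ∈ N z :=
  (Submodule.mem_iInf _).trans ⟨fun h c hc z hz => h ⟨z, hz⟩ c hc, fun h z c hc => h c hc z z.2⟩
lemma gS'_bot (h : ∀ t, (∀ z ∈ (Sg.S b).pts, ε z t = 0) → t = 0) :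
    gS' b p L ε (fun _ => ⊥) = homMap (𝔞.KK L p 3) ⊥ := Submodule.ext fun _ => mem_gS'.trans
  ⟨fun H c hc => h _ (H c hc), fun H c hc _ _ => (congrArg _ (H c hc)).trans (map_zero _)⟩
lemma sub_fu {θ' : (PP p 𝔞).V →ₗ[ℂ] T} {Q : Submodule ℂ ((PP p 𝔞).V →ₗ[ℂ] T)} (h : θ' ∈ Q)
    (e : ∀ a, θ' (fu (𝔞.KK L p 3) a) = θ (fu (𝔞.KK L p 3) a)) : θ ∈ Q ⊔ homMap (𝔞.KK L p 3) ⊥ ∧
      ∀ c ∈ 𝔞.KK L p 3, θ' c = θ c := by
  have H : θ - θ' ∈ homMap (𝔞.KK L p 3) ⊥ := mem_homMap_fu.2 fun a => sub_eq_zero.2 (e a).symm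
  exact ⟨add_sub_cancel θ' θ ▸ Submodule.add_mem_sup h H, fun c hc => (sub_eq_zero.1 (H c hc)).symm⟩
end gS

variable (b m p L L')
/-- `Γ Hom(B, B'(m))` -/
abbrev Bs : Submodule ℂ ((PP p 𝔞).hom (WA Sg (PP p 𝔟) m)).V :=
  gS b p L (evz Sg b _ m) (fun _ => 𝔟.KK L' p 3) (Zf b p 𝔟 L')
/-- `Γ Hom(B, B'(m))` -/
abbrev Bs' : Submodule ℂ ((PP p 𝔞).hom (WA Sg (PP p 𝔟) m)).V :=
  gS' b p L (evz Sg b _ m) (Zf b p 𝔟 L')
/-- `Γ Hom(B, A'(m))` -/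
abbrev As : Submodule ℂ ((PP p 𝔞).hom (WA Sg (𝔟.G p) m)).V :=
  gS b p L (evz Sg b _ m) (fun _ => 𝔟.pc L' p) fun _ => ⊥
variable (𝔟) in
/-- `Γ Hom(B, O'(m))` -/
abbrev Vs : Submodule ℂ (HN p 𝔞 𝔟 m).V := gS b p L (evG b m 𝔟) (fun _ => ⊤) fun _ => ⊥
variable (𝔞 𝔟) in
/-- `B' → A'` -/
abbrev fB : ((PP p 𝔞).hom (WA Sg (PP p 𝔟) m)).V →ₗ[ℂ] ((PP p 𝔞).hom (WA Sg (𝔟.G p) (m + 3))).V :=
  LinearMap.llcomp ℂ _ _ _ (mm _ 3 m)
variable (𝔞 𝔟) in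
/-- `A' → O'` -/
abbrev gA : ((PP p 𝔞).hom (WA Sg (𝔟.G p) m)).V →ₗ[ℂ] (HN p 𝔞 𝔟 (m + p)).V :=
  LinearMap.llcomp ℂ _ _ _ (𝔟.mul p m)
variable {b m p L L'}

lemma le_V : (As b m p L L').map (gA m p 𝔞 𝔟) ⊔ homMap (𝔞.KK L p 3) ⊥ ≤
    Vs b (m + p) p 𝔟 L ⊓ (Dn p L L' (m + p)).comap LinearMap.id := by
  refine sup_le ?_ fun θ hθ => ⟨mem_gS.2 ⟨fun _ _ _ _ => trivial, fun z _ c hc => (congrArg _
    (hθ c (mulS_le_KK _ hc))).trans (map_zero _)⟩, fun c hc => (hθ c hc).symm ▸ zero_mem _⟩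
  rintro _ ⟨ψ, hψ, rfl⟩
  obtain ⟨h1, h2⟩ := mem_gS.1 hψ
  exact ⟨mem_gS.2 ⟨fun _ _ _ _ => trivial, fun z hz c hc => (evG_mul z _).trans
    ((congrArg _ (h2 z hz c hc)).trans (map_zero _))⟩,
    fun c hc => Amb.mul_mem_pc (mem_tens_of_evz b (h1 c hc))⟩

variable (h : LeL L 𝔞.O) (hr : RegL L.toLat p) (h' : LeL L' 𝔟.O) (hr' : RegL L'.toLat p)
include h hr in
lemma Vs_eq : Vs b n p 𝔟 L = Hn p L (bot _ _) n := Submodule.ext fun θ => by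
  refine mem_gS.trans (Iff.trans ?_ mem_Hn.symm)
  simp only [pc_bot, Submodule.mem_bot]
  refine ⟨fun H k t ht => eq_zero_of_evG b fun z hz => ?_,
    fun H => ⟨fun _ _ _ _ => trivial, fun z hz c hc => ?_⟩⟩
  · rw [evG_mul, evT_rT]
    exact H.2 z hz _ ((zr_KK h hr).ev z hz k t ht)
  · obtain ⟨t, ht, rfl⟩ := (zr_KK h hr).ex z hz c hc
    rw [← evT_rT, ← evG_mul, H 1 t ht, map_zero]
include h' hr' in
lemma inj_B : SqInj (Bs b m p L L') (Bs' b m p L L') (homMap (𝔞.KK L p 3) ⊥) (fB m p 𝔞 𝔟) :=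
  le_antisymm (fun _ hθ => mem_gS'.2 fun c hc => (zr_KK h' hr').mem_Rel.1
    ⟨mem_tens_of_evz b ((mem_gS.1 hθ.1).1 c hc), hθ.2 c hc⟩) fun _ hθ =>
    ⟨mem_gS.2 ⟨fun c hc z hz => mulS_le_KK _ (mem_gS'.1 hθ c hc z hz),
      fun z hz c hc => mem_gS'.1 hθ c (mulS_le_KK _ hc) z hz⟩,
      fun c hc => ((zr_KK h' hr').mem_Rel.2 (mem_gS'.1 hθ c hc)).2⟩
include h hr h' hr' in
lemma ex_A : SqEx (Bs b m p L L') (As b (m + 3) p L L') (homMap (𝔞.KK L p 3) ⊥)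
    (homMap (𝔞.KK L p 3) ⊥) (fB m p 𝔞 𝔟) (gA (m + 3) p 𝔞 𝔟) := by
  refine le_antisymm (sup_le ?_ fun θ hθ => ⟨mem_gS.2 ⟨fun c hc z _ => ?_, fun z _ c hc => ?_⟩,
    fun c hc => (congrArg (𝔟.mul _ _) (hθ c hc)).trans (map_zero _)⟩) fun ψ hψ => ?_
  · rintro _ ⟨θ, hθ, rfl⟩
    obtain ⟨h1, h2⟩ := mem_gS.1 hθ
    have h3 := fun c hc => mm_mem_KK (mem_tens_of_evz b (h1 c hc))
    exact ⟨mem_gS.2 ⟨fun c hc z _ => evT_mem _ (h3 c hc).1, fun z hz c hc =>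
      (evz_mm z _).trans ((zr_KK h' hr').ker z hz _ (h2 z hz c hc))⟩,
      fun c hc => (𝔟.ker_mF _ _).le (h3 c hc).2⟩
  · rw [show θ c = 0 from hθ c hc, map_zero]; exact zero_mem _
  · rw [show θ c = 0 from hθ c (mulS_le_KK _ hc), map_zero]; exact zero_mem _
  obtain ⟨h1, h2⟩ := mem_gS.1 hψ.1
  choose s h3 h4 using fun a => (map_mm_KK h' hr' m).ge (show ψ (fu (𝔞.KK L p 3) a) ∈ _ from
    ⟨mem_tens_of_evz b (h1 _ (fu_mem _ a)), (𝔟.ker_mF _ _).ge (hψ.2 _ (fu_mem _ a))⟩)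
  have h5 : fext (𝔞.KK L p 3) s ∈ homMap (𝔞.KK L p 3) (tens (𝔟.KK L' p 3) ⊤) :=
    mem_homMap_fu.2 fun a => (fext_fu _ s a).symm ▸ h3 a
  have h6 := fun a => (congrArg (mm _ 3 m) (fext_fu _ s a)).trans (h4 a)
  refine (sub_fu (Submodule.mem_map_of_mem (f := fB m p 𝔞 𝔟) (mem_gS.2
    ⟨fun c hc z _ => evT_mem _ (h5 c hc), fun z hz c hc => ?_⟩)) h6).1
  obtain ⟨t, ht, rfl⟩ := (zr_KK h hr).ex z hz c hc
  rw [← evT_rT, ← evz_mm]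
  refine (zr_KK h' hr').ev z hz _ _ ⟨mm_mem le_rfl (rT_mem h5 ht.1),
    eq_zero_of_evz b fun z hz => ?_⟩
  have h7 := (zr_KK h hr).ev z hz _ _ ht
  rw [evz_mm, evz_mm, evT_rT, ← evz_mm]
  exact (congrArg _ ((sub_fu (θ' := fB m p 𝔞 𝔟 (fext _ s)) (Q := ⊤) trivial h6).2 _
    (mulS_le_KK _ h7))).trans (h2 z hz _ h7)
include h hr h' hr' in
lemma ev_V : ∀ᶠ m in atTop, SqEx (As b m p L L') (Vs b (m + p) p 𝔟 L) (homMap (𝔞.KK L p 3) ⊥)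
    (Dn p L L' (m + p)) (gA m p 𝔞 𝔟) LinearMap.id := by
  refine (((tendsto_atTop_add_const_right _ (p : ℤ) tendsto_natCast_atTop_atTop).eventually
    (ev_MtX_surj (spl_gK h hr) (T := twX (OP Sg.V.X _) (-p)) (N := L')
    (γ := Fintype.linearCombination Sg.F (gu 𝔟 L' p))
    (fun I hI v hv => genX_le (fun l => Amb.mem_pc.1 (fu_mem _ l)) I hI ⟨v, hv, rfl⟩)
    fun x _ hw => mem_loc_mapX.1 (loc_mono (le_genX h' hr') hw)))).mono fun m hm =>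
      le_antisymm le_V fun θ hθ => ?_
  have h1 := hθ.1
  have h2 := hθ.2
  rw [Vs_eq h hr, Hn_eq] at h1
  rw [Submodule.comap_id, Dn_eq] at h2
  obtain ⟨φ, h3, h4⟩ := hm (jH p 𝔟 L _ θ) (Nat.cast_add (R := ℤ) m p ▸ mem_Gm_MtX.2
    ⟨Gm_pi.1 h2, (mem_Gm_MtX.1 h1).2⟩)
  choose s h5 h6 using fun a => exists_co (U := 𝔟.pc L' p) fun l =>
    mem_SA.2 (mem_Gm_twOP.1 ((mem_Gm_MtX.1 h3).1 a) l)
  have h7 : fext (𝔞.KK L p 3) s ∈ homMap (𝔞.KK L p 3) (tens (𝔟.pc L' p) ⊤) :=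
    mem_homMap_fu.2 fun a => (fext_fu _ s a).symm ▸ h5 a
  refine (sub_fu (Submodule.mem_map_of_mem (f := gA m p 𝔞 𝔟) (mem_gS.2
    ⟨fun c hc z _ => evT_mem _ (h7 c hc), fun z hz c hc => ?_⟩)) fun a => 𝔟.inc_inj _ ?_).1
  · obtain ⟨t, ht, rfl⟩ := (zr_KK h hr).ex z hz c hc
    have h8 := Gm_MtX_apply h3 ((mem_Rel_iff ht.1).1 ht) fun a => mem_SA.1 (co_mem _ t a)
    refine (congrArg _ (evT_rT _ _ t).symm).trans ((evz_mm z _).symm.trans ((congrArg _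
      (co_inj (mm_mem le_rfl (rT_mem (mem_homMap.1 h7) ht.1)) ?_)).trans (map_zero _)))
    rw [Hm.co, mF_mm, mF_rT, mF_co _ ht.1]
    refine Eq.trans (Finset.sum_congr rfl fun a _ => ?_) ((smul_eq_zero.1
      (mem_Gm.1 h8 0)).resolve_left (zpow_ne_zero _ (Sg.V.X.t_ne 0)))
    rw [LinearMap.comp_apply, fext_fu, ← h6]; rfl
  · change 𝔟.inc _ (𝔟.mul _ _ (fext _ s _)) = jH p 𝔟 L _ θ a
    rw [fext_fu, Amb.inc_mul, mF_co _ (h5 a), h6, ← h4]; rfl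

end Crest.Agent.N265.M.Hx
end
end

-- ▼ part N265/M/TV0
section

/-! # Row 265, task M-TV0: the formal part of `M/TV` (ranks, pull-backs, splitting, purity) -/

set_option autoImplicit false
set_option linter.dupNamespace false
noncomputable section
open MvPolynomial Module TensorProduct

namespace Crest.Agent.N265.M
open Crest.Agent.R274
open Defs_781 Lat_781 SnapA_99 SnapB_99 SnapE_99 Gen7_750 Xs1_781 SkDefs_474
open Alg GV Br N Fib _root_.Crest.Agent.N265.Pow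
variable {Sg : Surf} {𝔞 𝔟 : Amb Sg} {X Y : Spc} {p : ℕ}

namespace TV0

lemma exists_big (a b : ℤ) : ∃ k : ℕ, b < k * (k - a) := by
  refine ⟨b.natAbs + a.natAbs + 1, ?_⟩
  push_cast
  nlinarith [le_abs_self a, le_abs_self b, abs_nonneg a, abs_nonneg b]

lemma finrank_SA (j : ℕ) : (finrank ℂ (SA Sg j) : ℤ) = Sg.V.chi (j • Sg.V.h) := by
  have := finrank_AA Sg (e := j) (Int.natCast_nonneg j)
  rwa [AA_nat, natCast_zsmul] at this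

/-- the Hilbert polynomial forces at least `rk` generators -/
theorem card_le {L : XL Sg 𝔞.M} (le : LeL L 𝔞.O) (hr : RegL L.toLat p) {d : ℕ} {c : ℤ}
    (hp : cL L.toLat = HP Sg (Fintype.card 𝔞.ι) d c) :
    Fintype.card 𝔞.ι ≤ finrank ℂ (𝔞.pc L p) := by
  by_contra hlt
  have hlt' : (finrank ℂ (𝔞.pc L p) : ℤ) + 1 ≤ Fintype.card 𝔞.ι := by omega
  obtain ⟨k, hk⟩ := exists_big (1 - 2 * (Sg.V.chi Sg.V.h - Sg.V.chi 0) + 2 * d)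
    (2 * (d * p + c - Fintype.card 𝔞.ι * (Sg.V.chi (p • Sg.V.h) - Sg.V.chi 0)) - 2 * Sg.V.chi 0)
  have h1 : finrank ℂ (𝔞.pc L (k + p)) ≤ finrank ℂ (𝔞.pc L p) * finrank ℂ (SA Sg k) := by
    rw [← Amb.map_mul_pc le hr le_rfl k]
    have : Module.Finite ℂ (tens (𝔞.pc L p) (⊤ : Submodule ℂ (SA Sg k))) :=
      @Submodule.finiteDimensional_of_le _ _ _ _ _ _ ⊤
        (@Module.Finite.top _ _ _ _ _ (WA Sg (𝔞.G p) k).fd) le_top
    exact (Submodule.finrank_map_le _ _).trans (by rw [finrank_tens, finrank_top])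
  have h2 := Amb.finrank_pc le hr (j := k + p) (by omega)
  rw [hp, HP, natCast_zsmul, add_smul, Ch.chi_twn, Ch.dg, Ch.ip_nsmul_left] at h2
  have h3 := Ch.chi_nsmul Sg.V Sg.V.h k
  have h4 : 0 < Ch.ip Sg.V Sg.V.h Sg.V.h := Ch.dg_h_pos Sg.V
  have h5 : (finrank ℂ (𝔞.pc L (k + p)) : ℤ) ≤
      finrank ℂ (𝔞.pc L p) * (finrank ℂ (SA Sg k) : ℤ) := by exact_mod_cast h1
  have h6 : (0 : ℤ) ≤ finrank ℂ (SA Sg k) := Int.natCast_nonneg _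
  have h7 := mul_le_mul_of_nonneg_right hlt' h6
  rw [finrank_SA] at h5 h7
  have h8 : (0 : ℤ) ≤ Fintype.card 𝔞.ι * (p * (k * Ch.ip Sg.V Sg.V.h Sg.V.h)) := by positivity
  have h9 : (0 : ℤ) ≤ k * (k - 1) := by
    rcases k with _ | k
    · simp
    · push_cast; exact mul_nonneg (by positivity) (by linarith)
  have h10 := mul_le_mul_of_nonneg_left (show (1 : ℤ) ≤ Ch.ip Sg.V Sg.V.h Sg.V.h from h4) h9
  push_cast at h2
  linarith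

lemma eB_mem' (X : Spc) (j : ℕ) : -(j • eB 0) ∈ DS (X.fib (Sg.S 0)).B :=
  neg_mem (nsmul_mem (N265.eB_mem (Finset.mem_union_right _ (Finset.mem_singleton_self 0))) j)

lemma mulS_mono {M : Type} [AddCommGroup M] [Module ℂ M] {k : ℕ} {P P' : Submodule ℂ (SA Sg 1)}
    (h : P ≤ P') (T : Submodule ℂ (M ⊗[ℂ] SA Sg k)) : mulS Sg P T ≤ mulS Sg P' T :=
  Submodule.map_mono (tens_mono h le_rfl)

lemma mulS_sup {M : Type} [AddCommGroup M] [Module ℂ M] {k : ℕ} (P : Submodule ℂ (SA Sg 1))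
    (T T' : Submodule ℂ (M ⊗[ℂ] SA Sg k)) : mulS Sg P (T ⊔ T') = mulS Sg P T ⊔ mulS Sg P T' := by
  rw [mulS, tens_sup_right, Submodule.map_sup]; rfl

lemma muW_nat {M M' : Type} [AddCommGroup M] [Module ℂ M] [AddCommGroup M'] [Module ℂ M']
    (f : M →ₗ[ℂ] M') (k : ℕ) :
    muW Sg M' k ∘ₗ TensorProduct.map LinearMap.id (LinearMap.rTensor _ f) =
      LinearMap.rTensor _ f ∘ₗ muW Sg M k := by
  refine TensorProduct.ext' fun l t => ?_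
  induction t using TensorProduct.induction_on with
  | zero => simp
  | tmul w a => simp [muW]
  | add s t hs ht => simp only [tmul_add, map_add, hs, ht]

lemma mulS_map {M M' : Type} [AddCommGroup M] [Module ℂ M] [AddCommGroup M'] [Module ℂ M']
    (f : M →ₗ[ℂ] M') {k : ℕ} (P : Submodule ℂ (SA Sg 1)) (T : Submodule ℂ (M ⊗[ℂ] SA Sg k)) :
    mulS Sg P (T.map (LinearMap.rTensor _ f)) = (mulS Sg P T).map (LinearMap.rTensor _ f) := by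
  rw [mulS, mulS, ← Submodule.map_comp, ← muW_nat, Submodule.map_comp, tens_map, Submodule.map_id]

/-- a family that splits along two constant maps -/
lemma kc_split {V V₁ V₂ : GV} (hV : V.In X.B) {i₁ : V₁.V →ₗ[ℂ] V.V} {i₂ : V₂.V →ₗ[ℂ] V.V}
    (d₁ : Deg0 V₁ V i₁) (d₂ : Deg0 V₂ V i₂) (inj : Function.Injective (i₁.coprod i₂))
    {L : Pt → Submodule ℂ V.V} {L₁ : Pt → Submodule ℂ V₁.V} {L₂ : Pt → Submodule ℂ V₂.V}
    (h₁ : IsAB X V₁ L₁) (h₂ : IsAB X V₂ L₂)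
    (e : ∀ x ∈ X.pts, L x = (L₁ x).map i₁ ⊔ (L₂ x).map i₂) :
    kc X V L = kc X V₁ L₁ + kc X V₂ L₂ := by
  have hφ := (IsRM.const (X := X) d₁).coprod (IsRM.const d₂)
  have k0 : ∀ x ∈ X.pts, (L₁ x).prod (L₂ x) ⊓ LinearMap.ker (i₁.coprod i₂) = ⊥ := fun x _ => by
    rw [LinearMap.ker_eq_bot.2 inj, inf_bot_eq]
  have e' : ∀ x ∈ X.pts, ((L₁ x).prod (L₂ x)).map (i₁.coprod i₂) = L x := fun x hx => by
    rw [LinearMap.map_coprod_prod, e x hx]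
  rw [← kc_prod h₁ h₂]
  exact (kc_iso (h₁.prod h₂) (((h₁.prod h₂).map_of_inj hV hφ k0).congr e') hφ
    fun x hx => ⟨k0 x hx, e' x hx⟩).symm

lemma deg0_rTensor {V W : GV} {f : V.V →ₗ[ℂ] W.V} (h : Deg0 V W f) (k : ℕ) :
    Deg0 (WA Sg V k) (WA Sg W k) (LinearMap.rTensor _ f) := fun t => by
  induction t using TensorProduct.induction_on with
  | zero => simp only [map_zero]
  | tmul w a => exact congrArg (· ⊗ₜ[ℂ] a) (h w)
  | add s t hs ht => simp only [map_add, hs, ht]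

/-- functoriality of the syzygy modules -/
lemma rTensor_mem_KK {L : XL Sg 𝔞.M} {L' : XL Sg 𝔟.M} {f : (𝔞.G p).V →ₗ[ℂ] (𝔟.G p).V}
    (g : 𝔞.M →ₗ[Sg.F] 𝔟.M) (e : ∀ w, 𝔟.inc p (f w) = g (𝔞.inc p w))
    (m : ∀ v ∈ Gm L.toLat p, g v ∈ Gm L'.toLat p) {k : ℕ} {t : (WA Sg (𝔞.G p) k).V}
    (ht : t ∈ 𝔞.KK L p k) : LinearMap.rTensor _ f t ∈ 𝔟.KK L' p k := by
  have key : ∀ t : (𝔞.G p).V ⊗[ℂ] SA Sg k,
      mF (𝔟.inc p) k (LinearMap.rTensor _ f t) = g (mF (𝔞.inc p) k t) := fun t => by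
    induction t using TensorProduct.induction_on with
    | zero => simp only [map_zero]
    | tmul w a => rw [LinearMap.rTensor_tmul, mF_tmul, mF_tmul, e, map_smul]
    | add s t hs ht => simp only [map_add, hs, ht]
  refine ⟨?_, ?_⟩
  · refine (tens_le (N := (tens (𝔟.pc L' p) ⊤).comap (LinearMap.rTensor _ f))).2
      (fun v hv a _ => ?_) ht.1
    refine tmul_mem ?_ Submodule.mem_top
    rw [Amb.mem_pc, e]
    exact m _ hv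
  · change mF (𝔟.inc p) k (LinearMap.rTensor _ f t) = 0
    rw [key, show mF (𝔞.inc p) k t = 0 from ht.2, map_zero]

section pair
variable (Sg p)
/-- inclusion of the `i`-th summand -/
def ii (k : ℤ) (i : Fin 2) : ((r1 Sg k).G p).V →ₗ[ℂ] ((r2 Sg).G p).V :=
  LinearMap.single ℂ (fun _ : Fin 2 => SA Sg p) i ∘ₗ
    LinearMap.proj (R := ℂ) (φ := fun _ : Unit => SA Sg p) ()
/-- projection to the `i`-th summand -/
def pp (k : ℤ) (i : Fin 2) : ((r2 Sg).G p).V →ₗ[ℂ] ((r1 Sg k).G p).V :=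
  LinearMap.pi fun _ => LinearMap.proj (R := ℂ) (φ := fun _ : Fin 2 => SA Sg p) i
variable {Sg p}
lemma ii_apply (k : ℤ) (i : Fin 2) (w : ((r1 Sg k).G p).V) :
    ii Sg p k i w = Pi.single (M := fun _ : Fin 2 => SA Sg p) i (w ()) := rfl

lemma deg0_ii (i : Fin 2) : Deg0 ((r1 Sg (i : ℕ)).G p) ((r2 Sg).G p) (ii Sg p (i : ℕ) i) :=
  fun w => funext fun j => by
    change (Pi.single (M := fun _ : Fin 2 => SA Sg p) i (chi (((i : ℕ) : ℤ) • eT) • w ())) j =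
      chi (((j : ℕ) : ℤ) • eT) • (Pi.single (M := fun _ : Fin 2 => SA Sg p) i (w ())) j
    by_cases h : j = i
    · rw [h, Pi.single_eq_same, Pi.single_eq_same]
    · rw [Pi.single_eq_of_ne h, Pi.single_eq_of_ne h, smul_zero]

lemma ii_pp : ii Sg p 0 0 ∘ₗ pp Sg p 0 0 + ii Sg p 1 1 ∘ₗ pp Sg p 1 1 = LinearMap.id :=
  LinearMap.ext fun w => funext fun j => by
    change (Pi.single (M := fun _ : Fin 2 => SA Sg p) 0 (w 0)) j +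
      (Pi.single (M := fun _ : Fin 2 => SA Sg p) 1 (w 1)) j = w j
    fin_cases j <;> simp

lemma pp_ii (k : ℤ) (i : Fin 2) : pp Sg p k i ∘ₗ ii Sg p k i = LinearMap.id :=
  LinearMap.ext fun w => funext fun _ => Pi.single_eq_same (M := fun _ : Fin 2 => SA Sg p) i (w ())

lemma pp_ii_ne (k k' : ℤ) {i j : Fin 2} (h : i ≠ j) : pp Sg p k i ∘ₗ ii Sg p k' j = 0 :=
  LinearMap.ext fun w => funext fun _ =>
    Pi.single_eq_of_ne (M := fun _ : Fin 2 => SA Sg p) h (w ())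

lemma inj_ii (k : ℕ) : Function.Injective
    ((LinearMap.rTensor (SA Sg k) (ii Sg p 0 0)).coprod (LinearMap.rTensor _ (ii Sg p 1 1))) := by
  refine Function.LeftInverse.injective (g := (LinearMap.rTensor (SA Sg k) (pp Sg p 0 0)).prod
    (LinearMap.rTensor _ (pp Sg p 1 1))) fun t => ?_
  simp only [LinearMap.coprod_apply, LinearMap.prod_apply, Function.prod_apply, map_add,
    ← LinearMap.rTensor_comp_apply, pp_ii_ne _ _ (show (0 : Fin 2) ≠ 1 by decide),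
    pp_ii_ne _ _ (show (1 : Fin 2) ≠ 0 by decide), LinearMap.rTensor_zero, LinearMap.zero_apply]
  rw [pp_ii, pp_ii, LinearMap.rTensor_id, Prod.mk_add_mk, add_zero, zero_add]
  rfl

lemma ii_mem_KK (I : Fin 2 → XL Sg Sg.F) (k : ℤ) (i : Fin 2) {j : ℕ}
    {t : (WA Sg ((r1 Sg k).G p) j).V} (ht : t ∈ (r1 Sg k).KK (I i) p j) :
    LinearMap.rTensor _ (ii Sg p k i) t ∈ (r2 Sg).KK (piX I) p j := by
  refine rTensor_mem_KK (𝔞 := r1 Sg k) (𝔟 := r2 Sg) (L := I i) (L' := piX I) (f := ii Sg p k i)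
    (LinearMap.single Sg.F (fun _ : Fin 2 => Sg.F) i)
    (fun w => _root_.funext fun l => ?_) (fun v hv => Gm_pi.2 fun l => ?_) ht
  · rw [r2_inc, r1_inc, ii_apply, LinearMap.single_apply]
    by_cases h : l = i
    · rw [h, Pi.single_eq_same, Pi.single_eq_same]
    · rw [Pi.single_eq_of_ne h, Pi.single_eq_of_ne h]; rfl
  · rw [LinearMap.single_apply]
    by_cases h : l = i
    · rw [h, Pi.single_eq_same]; exact hv
    · rw [Pi.single_eq_of_ne h]; exact zero_mem _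

lemma pp_mem_KK (I : Fin 2 → XL Sg Sg.F) (k : ℤ) (i : Fin 2) {j : ℕ}
    {t : (WA Sg ((r2 Sg).G p) j).V} (ht : t ∈ (r2 Sg).KK (piX I) p j) :
    LinearMap.rTensor _ (pp Sg p k i) t ∈ (r1 Sg k).KK (I i) p j :=
  rTensor_mem_KK (𝔞 := r2 Sg) (𝔟 := r1 Sg k) (L := piX I) (L' := I i) (f := pp Sg p k i)
    (LinearMap.proj (R := Sg.F) (φ := fun _ : Fin 2 => Sg.F) i) (fun _ => rfl)
    (fun _ hv => Gm_pi.1 hv i) ht

lemma KK_pair (I₁ I₂ : XL Sg Sg.F) (j : ℕ) : (r2 Sg).KK (piX ![I₁, I₂]) p j =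
    ((r1 Sg 0).KK I₁ p j).map (LinearMap.rTensor _ (ii Sg p 0 0)) ⊔
      ((r1 Sg 1).KK I₂ p j).map (LinearMap.rTensor _ (ii Sg p 1 1)) := by
  refine le_antisymm (fun t ht => ?_) (sup_le ?_ ?_)
  · have h₁ : LinearMap.rTensor _ (pp Sg p 0 0) t ∈ (r1 Sg 0).KK I₁ p j :=
      pp_mem_KK ![I₁, I₂] 0 0 ht
    have h₂ : LinearMap.rTensor _ (pp Sg p 1 1) t ∈ (r1 Sg 1).KK I₂ p j :=
      pp_mem_KK ![I₁, I₂] 1 1 ht
    refine Submodule.mem_sup.2 ⟨_, Submodule.mem_map_of_mem h₁, _, Submodule.mem_map_of_mem h₂, ?_⟩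
    rw [← LinearMap.rTensor_comp_apply, ← LinearMap.rTensor_comp_apply, ← LinearMap.add_apply,
      ← LinearMap.rTensor_add, ii_pp, LinearMap.rTensor_id, LinearMap.id_apply]
  · rintro _ ⟨t, ht, rfl⟩
    exact ii_mem_KK ![I₁, I₂] 0 0 ht
  · rintro _ ⟨t, ht, rfl⟩
    exact ii_mem_KK ![I₁, I₂] 1 1 ht
end pair

lemma sc_G (k : ℤ) (j : ℕ) : ((r1 Sg k).G j).Sc (k • eT) := sc_pi fun _ => sc_shift _ _
lemma sc_EG (k k' : ℤ) : ((r1 Sg k).EG (r1 Sg k') p).Sc ((k' - k) • eT) :=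
  ((sc_G k p).hom (sc_G k' p)).of_eq (sub_smul _ _ _).symm
lemma sc_HG (k k' : ℤ) : ((r1 Sg k).HG (r1 Sg k') p).Sc ((k' - k) • eT) :=
  (((sc_G k p).tens (sc_triv _)).hom (sc_G k' (3 + p))).of_eq (by rw [add_zero, sub_smul])

lemma exists_pure_sq {V : GV} {k : ℤ} (hV : V.Sc (k • eT)) {L L' : Pt → Submodule ℂ V.V}
    (h : IsAB X V L) (h' : IsAB X V L') (le : ∀ x ∈ X.pts, L' x ≤ L x) {w : ℕ → ℤ}
    (hw : X.TTriv w) : ∃ A : Bun X, A.Pure w k ∧ A.kl = kc X V L - kc X V L' := by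
  obtain ⟨A, e, -⟩ := h.exists_bun_sq h' le
  obtain ⟨A', h1, h2, -⟩ := K.Pure.exists_bun (hw := hw) (k := k) (A := A)
    (e ▸ (hV.kpure h hw).sub (hV.kpure h' hw))
  exact ⟨A', h1, h2.trans e⟩

end TV0
open TV0

variable {L : Pt → XL Sg 𝔞.M} {L' : Pt → XL Sg 𝔟.M}

theorem LFam.exists_rk'' (h : LFam 𝔞 X p L) :
    ∃ r, ∀ x ∈ X.pts, finrank ℂ (𝔞.pc (L x) p) = r + Fintype.card 𝔞.ι := by
  obtain ⟨r, hr⟩ := h.exists_rk le_rfl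
  obtain ⟨d, c, hp⟩ := h.hp
  refine ⟨r - Fintype.card 𝔞.ι, fun x hx => ?_⟩
  have := card_le (h.le x hx) (h.reg x hx) (hp x hx)
  have := hr x hx
  omega

theorem pull_Bcl' {r : ℕ} (hs : SyzF Sg 0 X (𝔞.G p) (fun k x => 𝔞.KK (L x) p k) 2 r)
    (q : Proj Y X) (hY : 0 ∉ Y.B) :
    K.pull (q.fib_map _) (Bcl 𝔞 X p L) = Bcl 𝔞 Y p fun y => L (restr X.B y) := by
  rw [Bcl, Bcl, map_mul, K.pull_lbK _ (eB_mem' X p), hs.pull_bcl q hY le_rfl]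

theorem pull_chiK' (hX : 0 ∉ X.B) (q : Proj Y X) (hY : 0 ∉ Y.B)
    (e : K.pull (q.fib_map _) (SS 𝔞 X p L) = SS 𝔞 Y p fun y => L (restr X.B y))
    (e' : K.pull (q.fib_map _) (SS 𝔟 X p L') = SS 𝔟 Y p fun y => L' (restr X.B y)) :
    K.pull q (chiK 𝔞 𝔟 X p L L') =
      chiK 𝔞 𝔟 Y p (fun y => L (restr X.B y)) fun y => L' (restr X.B y) := by
  rw [chiK, chiK, ← piK_pull (base_S Sg 0) hX q hY, map_mul, K.pull_dual, map_sub, e, e',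
    Amb.pull_V]

theorem LFam.exists_AB' (h : LFam 𝔞 X p L) {r r' : ℕ}
    (hs : SyzF Sg 0 X (𝔞.G p) (fun k x => 𝔞.KK (L x) p k) 2 r)
    (hr : ∀ x ∈ X.pts, finrank ℂ (𝔞.pc (L x) p) = r') :
    ∃ A B : Bun (X.fib (Sg.S 0)), A.kl = Acl 𝔞 X p L ∧ B.kl = Bcl 𝔞 X p L ∧ A.Rk r' ∧ B.Rk r := by
  obtain ⟨A, hA⟩ := (h.ab p le_rfl).exists_pres
  obtain ⟨B, hB, rk⟩ := ((hs.ab 3 (by norm_num)).pull (Spc.fib_fst X (Sg.S 0))).exists_bun_sq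
    (hs.isAB_ZZ le_rfl) fun y hy => (mulS_mono le_top _).trans (hs.gen 2 le_rfl _ hy.1).le
  have rA : A.Rk r' := fun x hx => (hA.finrank hx).trans (hr x hx)
  have rB : B.Rk r := fun y hy => by
    have h1 := (rk y hy).trans (hs.rk 2 le_rfl _ hy.1 _ hy.2.1).symm
    exact Nat.add_right_cancel (h1.trans (add_comm _ _))
  refine ⟨(Bun.line _ (-(p • eB 0))).tens (A.pull (Spc.fib_fst X _)),
    (Bun.line _ (-(p • eB 0))).tens ((Bun.line _ (-((2 + 1 : ℕ) • eB 0))).tens B), ?_, ?_, ?_, ?_⟩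
  · rw [kl_tens, ← K.pull_kl, hA.kl]; rfl
  · rw [kl_tens, kl_tens, hB]; rfl
  · simpa only [one_mul] using (Bun.rk_line _).tens (rA.pull (Spc.fib_fst X (Sg.S 0)))
  · simpa only [one_mul] using (Bun.rk_line _).tens ((Bun.rk_line _).tens rB)

section split
variable {I₁ I₂ : Pt → XL Sg Sg.F}
theorem Bcl_pair' {r₁ r₂ : ℕ}
    (s₁ : SyzF Sg 0 X ((r1 Sg 0).G p) (fun k x => (r1 Sg 0).KK (I₁ x) p k) 2 r₁)
    (s₂ : SyzF Sg 0 X ((r1 Sg 1).G p) (fun k x => (r1 Sg 1).KK (I₂ x) p k) 2 r₂) :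
    Bcl (r2 Sg) X p (fun x => piX ![I₁ x, I₂ x]) =
      Bcl (r1 Sg 0) X p I₁ + Bcl (r1 Sg 1) X p I₂ := by
  have hV : (WA Sg ((r2 Sg).G p) (2 + 1)).In (X.fib (Sg.S 0)).B :=
    ((r2 Sg).in_G p _).tens (in_triv _)
  have d₁ := deg0_rTensor (Sg := Sg) (deg0_ii (Sg := Sg) (p := p) 0) (2 + 1)
  have d₂ := deg0_rTensor (Sg := Sg) (deg0_ii (Sg := Sg) (p := p) 1) (2 + 1)
  have e₁ := kc_split hV d₁ d₂ (inj_ii _) ((s₁.ab (2 + 1) (by norm_num)).pull (Spc.fib_fst X _))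
    ((s₂.ab (2 + 1) (by norm_num)).pull (Spc.fib_fst X _)) fun y _ => KK_pair _ _ _
  have e₂ := kc_split hV d₁ d₂ (inj_ii _) (s₁.isAB_ZZ le_rfl) (s₂.isAB_ZZ le_rfl)
    (L := ZZ Sg 0 X fun x => (r2 Sg).KK (piX ![I₁ x, I₂ x]) p 2) fun y _ => by
      rw [ZZ, KK_pair, mulS_sup, mulS_map, mulS_map]; rfl
  rw [Bcl, Bcl, Bcl, bcl, bcl, bcl, ← mul_add, ← mul_add]
  refine congrArg _ (congrArg _ ((congrArg₂ (· - ·) e₁ e₂).trans ?_))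
  exact add_sub_add_comm _ _ _ _
end split

section pure
variable {k k' : ℤ} {I J : Pt → XL Sg Sg.F} {w : ℕ → ℤ}
theorem pure_dcl' (h : LFam (r1 Sg k) X p I) (hw : X.TTriv w) (r : ℕ) :
    K.Pure hw (r * k) (dcl (r1 Sg k) X p I r) :=
  (((sc_G k p).lam r).of_eq (by rw [mul_smul, natCast_zsmul])).kpure ((h.ab p le_rfl).lamS r) hw
theorem exists_hm_hb' (h : LFam (r1 Sg k) X p I) (h' : LFam (r1 Sg k') X p J) (hw : X.TTriv w)
    (hb : IsAB X ((r1 Sg k).HG (r1 Sg k') p) fun x => (r1 Sg k).Hb (r1 Sg k') (I x) (J x) p) :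
    ∃ A B : Bun X, A.Pure w (k' - k) ∧ B.Pure w (k' - k) ∧
      A.kl = hmc (r1 Sg k) (r1 Sg k') X p I J ∧ B.kl = hbc (r1 Sg k) (r1 Sg k') X p I J := by
  obtain ⟨A, h1, h2⟩ := exists_pure_sq (sc_EG k k') (IsAB.top (h.isAB_stab h').hin)
    (h.isAB_stab h') (fun _ _ => le_top) hw
  obtain ⟨B, h3, h4⟩ := exists_pure_sq (sc_HG k k') hb (h.isAB_den h')
    (fun _ _ => Amb.den_le_Hb) hw
  exact ⟨A, B, h1, h3, h2, h4⟩
end pure

end Crest.Agent.N265.M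
end
end

-- ▼ part N265/Fib/H6
section

/-!
# Row 265, task M-TV, part 6 (helper42): `π(O(j) O/L)` and `π(O(j) Hom(B, O'/L'))`
-/

set_option autoImplicit false
set_option linter.dupNamespace false
set_option linter.unusedSectionVars false
noncomputable section
open Module TensorProduct Filter

namespace Crest.Agent.N265.M.Hx
open Crest.Agent.R274
open Defs_781 Lat_781 Ser_781 SnapA_99 SnapB_99 SnapC_99 SnapD_99 SnapE_99 Gen7_750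
open Xs1_781 SkDefs_474
open Alg GV Br N N.Sg1 Hm Fib Fib.Hz _root_.Crest.Agent.N265.Pow
variable {Sg : Surf} {b m n p : ℕ} {𝔞 𝔟 : Amb Sg} {X : Spc}

lemma deg0_mm (V : GV) (e k : ℕ) : Deg0 (WA Sg (WA Sg V e) k) (WA Sg V (k + e)) (mm V.V e k) :=
  ext3 (f := mm V.V e k ∘ₗ (WA Sg (WA Sg V e) k).g.toLinearMap)
    (g := (WA Sg V (k + e)).g.toLinearMap ∘ₗ mm V.V e k) fun _ _ _ => rfl
lemma deg0_ll (P : GV) {W W' : GV} {f : W.V →ₗ[ℂ] W'.V} (h : Deg0 W W' f) :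
    Deg0 (P.hom W) (P.hom W') (LinearMap.llcomp ℂ _ _ _ f) := fun _ => LinearMap.ext fun _ => h _
lemma deg0_Psi (P : GV) (k : ℕ) :
    Deg0 (P.hom (𝔟.G n)) ((WA Sg P k).hom (𝔟.G (k + n))) (Psi k n 𝔟 P.V) := fun φ => by
  refine TensorProduct.ext' fun w a => ?_
  exact 𝔟.deg0_mul n k (φ (P.g.symm w) ⊗ₜ a)
variable (𝔟 n) in
/-- `W0 ⊗ A_n = W_n` -/
def ωG : (WA Sg (W0 𝔟) n).V →ₗ[ℂ] (𝔟.G n).V :=
  piScalarRightHom ℂ ℂ (SA Sg n) 𝔟.ι ∘ₗ (TensorProduct.comm ℂ _ _).toLinearMap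
lemma ωG_tmul (v : (W0 𝔟).V) (a : SA Sg n) : ωG n 𝔟 (v ⊗ₜ a) = fun i => v i • a :=
  piScalarRightHom_tmul ℂ ℂ _ _ a v
lemma bij_ωG : Function.Bijective (ωG n 𝔟) := by
  classical
  exact (piScalarRight ℂ ℂ (SA Sg n) 𝔟.ι).bijective.comp (TensorProduct.comm ℂ _ _).bijective
lemma deg0_ωG : Deg0 _ (𝔟.G n) (ωG n 𝔟) := fun t => by
  induction t using TensorProduct.induction_on with
  | zero => simp only [map_zero]
  | tmul v a =>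
    refine (ωG_tmul ((W0 𝔟).g v) a).trans ?_
    rw [ωG_tmul]
    exact funext fun i => mul_smul (chi _) (v i) a
  | add t t' h h' => simp only [map_add, h, h']
lemma evG_ωG (z : Pt) (t : (WA Sg (W0 𝔟) n).V) : evG b n 𝔟 z (ωG n 𝔟 t) = evz Sg b _ n z t := by
  induction t using TensorProduct.induction_on with
  | zero => simp only [map_zero]
  | tmul v a =>
    rw [ωG_tmul, evT_tmul]
    exact funext fun i => (map_smul (evP Sg b n z) (v i) a).trans (mul_comm _ _)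
  | add t t' h h' => simp only [map_add, h, h']
lemma in_W0 (B : Finset ℕ) : (W0 𝔟).In B := in_pi fun _ => in_line (zsmul_mem (eT_mem B) _)
lemma kc_W0 : kc X (W0 𝔟) (fun _ => ⊤) = 𝔟.V X := by
  rw [← kc_congr (fun _ _ => Submodule.pi_top Set.univ),
    kc_pi fun _ => IsAB.top (in_line (zsmul_mem (eT_mem _) _))]
  exact Finset.sum_congr rfl fun a _ => kc_line (zsmul_mem (eT_mem _) _)
lemma lb_cancel (Y : Spc) (k j : ℕ) :
    lbK Y (((k + j : ℕ) : ℤ) • eB b) * lbK Y (-(j • eB b)) = lbK Y ((k : ℤ) • eB b) := by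
  rw [← lbK_add, Nat.cast_add, add_smul, natCast_zsmul _ j, add_neg_cancel_right]
lemma kc_WA {V : GV} {U : Pt → Submodule ℂ V.V} (h : IsAB X V U) (k : ℕ) :
    kc X (WA Sg V k) (fun x => tens (U x) ⊤) = kc X V U * (finrank ℂ (SA Sg k) : K X) := by
  rw [kc_tens h (IsAB.top (in_triv _)), kc_triv, finrank_top]
lemma piK_pl (hb : b ∉ X.B) (a : K X) (k : ℕ) : piK X (Sg.S b) b (lbK _ ((k : ℤ) • eB b) *
    K.pull (Spc.fib_fst X _) a) = a * (finrank ℂ (SA Sg k) : K X) := by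
  rw [mul_comm, piK_mul (base_S Sg b) hb, piK_O hb]

variable {L : Pt → XL Sg 𝔞.M} {L' : Pt → XL Sg 𝔟.M}
theorem syzF (h : LFam 𝔞 X p L) (hb : b ∉ X.B) {r : ℕ}
    (hr : ∀ x ∈ X.pts, finrank ℂ (𝔞.pc (L x) p) = r + Fintype.card 𝔞.ι) :
    SyzF Sg b X (𝔞.G p) (fun k x => 𝔞.KK (L x) p k) 2 r :=
  ⟨hb, fun k _ => h.isAB_KK k, fun _ hk x hx => gen_KK (h.le x hx) (h.reg x hx) hk,
    fun k hk x hx z hz => by
      have h1 := rk_KK (h.le x hx) (h.reg x hx) hk hz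
      have h2 := finrank_sW (h.le x hx) (h.reg x hx)
        (xfull_of_HP (h.le x hx) (h.hp.choose_spec.choose_spec x hx))
      have h3 := hr x hx
      omega⟩

variable (b p X L)
/-- `KK 3` on `X × S` -/
abbrev KY (y : Pt) : Submodule ℂ (PP p 𝔞).V := 𝔞.KK (L (restr X.B y)) p 3
/-- `V_z KK 2` on `X × S` -/
abbrev ZY : Pt → Submodule ℂ (PP p 𝔞).V := ZZ Sg b X fun x => 𝔞.KK (L x) p 2
/-- the syzygy bundle -/
def βc : K (X.fib (Sg.S b)) := kc _ (PP p 𝔞) (KY p X L) - kc _ (PP p 𝔞) (ZY b p X L)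
/-- the class of `O / L` -/
def Qc : K (X.fib (Sg.S b)) := 𝔞.V _ - lbK _ (-(p • eB b)) *
  (K.pull (Spc.fib_fst X _) (ucl 𝔞 X L p) - lbK _ (-(3 • eB b)) * βc b p X L)
variable {b p X L}
lemma SS_eq : SS 𝔞 X p L = lbK _ (-(p • eB 0)) *
    (K.pull (Spc.fib_fst X _) (ucl 𝔞 X L p) - lbK _ (-(3 • eB 0)) * βc 0 p X L) := (mul_sub ..).symm
lemma mul_Qc (u : K (X.fib (Sg.S b))) : lbK _ (((m + 3 + p : ℕ) : ℤ) • eB b) * (u * Qc b p X L) =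
    lbK _ (((m + 3 + p : ℕ) : ℤ) • eB b) * (u * 𝔞.V _) - lbK _ (((m + 3 : ℕ) : ℤ) • eB b) *
      (u * K.pull (Spc.fib_fst X _) (ucl 𝔞 X L p)) + lbK _ ((m : ℤ) • eB b) * (u * βc b p X L) := by
  rw [← lb_cancel _ m 3, ← lb_cancel _ (m + 3) p, Qc]; ring

variable (h : LFam 𝔞 X p L) (h' : LFam 𝔟 X p L') (hb : b ∉ X.B)
include h
lemma isAB_KY : IsAB (X.fib (Sg.S b)) (PP p 𝔞) (KY p X L) := (h.isAB_KK 3).pull (Spc.fib_fst X _)
lemma isAB_Rel (k : ℕ) : (IsAB X (WA Sg (PP p 𝔞) k) fun x => Rel (𝔞.KK (L x) p 3) k) ∧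
    kc X (PP p 𝔞) (fun x => 𝔞.KK (L x) p 3) * (finrank ℂ (SA Sg k) : K X) =
      kc X (WA Sg (PP p 𝔞) k) (fun x => Rel (𝔞.KK (L x) p 3) k) +
        kc X (WA Sg (𝔞.G p) (k + 3)) fun x => 𝔞.KK (L x) p (k + 3) := by
  have e := fun x hx => map_mm_KK (h.le x hx) (h.reg x hx) k
  have h1 := (h.isAB_KK 3).tens (IsAB.top (in_triv (SA Sg k)))
  have h2 := (h.isAB_KK (k + 3)).congr fun x hx => (e x hx).symm
  have h3 := IsRM.const (X := X) (deg0_mm (Sg := Sg) (𝔞.G p) 3 k)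
  exact ⟨h1.ker_of_map h3 h2, (kc_WA (h.isAB_KK 3) k).symm.trans
    ((kc_map h1 h3 h2).trans (congrArg _ (kc_congr e)))⟩
lemma ucl_mul (k : ℕ) : ucl 𝔞 X L p * (finrank ℂ (SA Sg k) : K X) =
    kc X (WA Sg (𝔞.G p) k) (fun x => 𝔞.KK (L x) p k) + ucl 𝔞 X L (k + p) := by
  have e := fun x hx => Amb.map_mul_pc (h.le x hx) (h.reg x hx) le_rfl k
  exact (kc_WA (h.ab p le_rfl) k).symm.trans ((kc_map (h.isAB_tens le_rfl k)
    (.const (𝔞.deg0_mul p k)) ((h.ab _ (by omega)).congr fun x hx => (e x hx).symm)).trans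
    (congrArg₂ _ (kc_congr fun _ _ => (𝔞.KK_eq _ p k).symm) (kc_congr e)))
include hb
lemma isAB_ZY : IsAB (X.fib (Sg.S b)) (PP p 𝔞) (ZY b p X L) :=
  (syzF h hb h.exists_rk''.choose_spec).isAB_ZZ le_rfl

theorem piK_Qc (hn : p ≤ n) : piK X (Sg.S b) b (lbK _ ((n : ℤ) • eB b) * Qc b p X L) =
    kc X (𝔞.G n) (fun _ => ⊤) - ucl 𝔞 X L n := by
  obtain ⟨m₀, hm⟩ := piK_gam0 hb (h.isAB_KK 3).hin (isAB_ZY h hb)
  have := RecN.eq_of (n₁ := m₀ + 3 + p) (fun n hn => recN_kc (M := fun n _ => 𝔞.pc 𝔞.O n)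
    deg0_tG (fun j _ => 𝔞.pc_O j ▸ .top (𝔞.in_G _ _)) (fun j hj => h.ab j (hn.trans hj))
    fun x hx => kosEx_pc (h.le x hx) (h.reg x hx) h.two hn)
    ((base_S Sg b).rec3 (piK X (Sg.S b) b) (Qc b p X L)) (fun n hn => ?_) n hn
  · rw [← this, 𝔞.pc_O]; rfl
  obtain ⟨m, rfl⟩ : ∃ m, n = m + 3 + p := ⟨n - 3 - p, by omega⟩
  have e1 := mul_Qc (m := m) (b := b) (p := p) (L := L) (X := X) 1
  have e2 : ∀ x ∈ X.pts, gam0 Sg b m (ZY b p X L) x = Rel (𝔞.KK (L x) p 3) m := fun x hx =>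
    Submodule.ext fun t => mem_gam0.trans (Iff.trans (forall₂_congr fun z hz => by
      rw [ZY, ZZ_add _ hb hx hz]) (zr_KK (h.le x hx) (h.reg x hx)).mem_Rel.symm)
  simp only [one_mul] at e1
  rw [e1, map_add, map_sub, ← 𝔞.pull_V (Spc.fib_fst X _), piK_pl hb, piK_pl hb, βc, mul_sub,
    map_sub, (hm m (by omega)).2, ← kc_pull (h.isAB_KK 3) (Spc.fib_fst X _), piK_pl hb,
    (isAB_Rel h m).2, kc_congr (V := WA Sg (PP p 𝔞) m) e2, 𝔞.pc_O, 𝔞.kc_G, ucl_mul h, ucl]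
  ring

theorem piK_gS {W : GV} (hW : W.In X.B) {M N : Pt → Submodule ℂ W.V}
    (hM : IsAB (X.fib (Sg.S b)) W M) (hN : IsAB (X.fib (Sg.S b)) W N)
    (le : ∀ y ∈ (X.fib (Sg.S b)).pts, N y ≤ M y) {M₀ N₀ : Pt → Pt → Submodule ℂ W.V}
    (e : ∀ x ∈ X.pts, ∀ z ∈ (Sg.S b).pts, M (x + z) = M₀ x z ∧ N (x + z) = N₀ x z) :
    ∀ᶠ m : ℕ in atTop, ∀ (T : GV) (ω : (WA Sg W m).V →ₗ[ℂ] T.V) (ε : Pt → T.V →ₗ[ℂ] W.V),
      T.In X.B → Deg0 _ T ω → Function.Bijective ω → (∀ z t, ε z (ω t) = evz Sg b _ m z t) →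
      (IsAB X ((PP p 𝔞).hom T) fun x => gS b p (L x) ε (M₀ x) (N₀ x)) ∧
      (IsAB X ((PP p 𝔞).hom T) fun x => gS' b p (L x) ε (N₀ x)) ∧
      piK X (Sg.S b) b (lbK _ ((m : ℤ) • eB b) * (K.dual _ (βc b p X L) * (kc _ W M - kc _ W N))) =
        kc X ((PP p 𝔞).hom T) (fun x => gS b p (L x) ε (M₀ x) (N₀ x)) -
          kc X ((PP p 𝔞).hom T) fun x => gS' b p (L x) ε (N₀ x) := by
  have hl : ∀ y ∈ (X.fib (Sg.S b)).pts, ZY b p X L y ≤ KY p X L y := fun _ _ => mulS_le_KK _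
  have h1 := piK_gamH hb (h.isAB_KK 3).hin hW ((isAB_KY h).homMap_inf (isAB_ZY h hb) hM hN hl le)
  have h2 := piK_gamH hb (h.isAB_KK 3).hin hW ((isAB_KY h).homMap hN)
  refine ((eventually_atTop.2 h1).and (eventually_atTop.2 h2)).mono
    fun m H T ω ε hT h0 hω hε => ?_
  obtain ⟨h3, h4⟩ := H.1 T ω ε hT h0 hω hε
  obtain ⟨h5, h6⟩ := H.2 T ω ε hT h0 hω hε
  have e1 : ∀ x ∈ X.pts, gamH Sg b ε (fun y => homMap (KY p X L y) (M y) ⊓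
      homMap (ZY b p X L y) (N y)) x = gS b p (L x) ε (M₀ x) (N₀ x) := fun x hx =>
    iInf_congr fun z => by
      simp only [KY, ZY, (add_mem hb hx z.2).2.1, ZZ_add _ hb hx z.2, e x hx z z.2]
  have e2 : ∀ x ∈ X.pts, gamH Sg b ε (fun y => homMap (KY p X L y) (N y)) x =
      gS' b p (L x) ε (N₀ x) := fun x hx =>
    iInf_congr fun z => by simp only [KY, (add_mem hb hx z.2).2.1, e x hx z z.2]
  refine ⟨h3.congr e1, h5.congr e2, ?_⟩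
  rw [βc, ← kq_hom (isAB_KY h) (isAB_ZY h hb) hM hN hl le, mul_sub, map_sub, h4, h6]
  exact congrArg₂ _ (kc_congr e1) (kc_congr e2)

variable (b p X L L') in
/-- the class of `Γ Hom(B, O'/L'(j))` -/
def Hc (j : ℤ) : K X :=
  piK X (Sg.S b) b (lbK _ (j • eB b) * (K.dual _ (βc b p X L) * Qc b p X L'))
variable (p L) in
/-- maps that kill `KK 3` -/
abbrev Z0 (T : GV) (x : Pt) : Submodule ℂ ((PP p 𝔞).hom T).V := homMap (𝔞.KK (L x) p 3) ⊥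
lemma ev_Vs : ∀ᶠ n : ℕ in atTop, (IsAB X (HN p 𝔞 𝔟 n) fun x => Vs b n p 𝔟 (L x)) ∧
    piK X (Sg.S b) b (lbK _ ((n : ℤ) • eB b) * (K.dual _ (βc b p X L) * 𝔟.V _)) =
      kc X (HN p 𝔞 𝔟 n) (fun x => Vs b n p 𝔟 (L x)) - kc X _ (Z0 p L (𝔟.G n)) :=
  (piK_gS h hb (in_W0 _) (.top (in_W0 _)) (.bot (in_W0 _)) (fun _ _ => bot_le)
    (M₀ := fun _ _ => ⊤) (N₀ := fun _ _ => ⊥) fun _ _ _ _ => ⟨rfl, rfl⟩).mono fun n H => by
    obtain ⟨h1, -, h2⟩ := H (𝔟.G n) (ωG n 𝔟) (evG b n 𝔟) (𝔟.in_G _ _) deg0_ωG bij_ωG evG_ωG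
    rw [kc_W0, kc_of_bot (L := fun _ => ⊥) fun _ _ => rfl, sub_zero] at h2
    exact ⟨h1, h2.trans (congrArg _ (kc_congr fun x _ => gS'_bot fun _ => eq_zero_of_evG b))⟩
include h'
lemma ev_six : ∀ᶠ m : ℕ in atTop,
    (IsAB X ((PP p 𝔞).hom (WA Sg (PP p 𝔟) m)) fun x => Bs b m p (L x) (L' x)) ∧
    (IsAB X ((PP p 𝔞).hom (WA Sg (PP p 𝔟) m)) fun x => Bs' b m p (L x) (L' x)) ∧
    (IsAB X ((PP p 𝔞).hom (WA Sg (𝔟.G p) (m + 3))) fun x => As b (m + 3) p (L x) (L' x)) ∧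
    (IsAB X (HN p 𝔞 𝔟 (m + 3 + p)) fun x => Vs b (m + 3 + p) p 𝔟 (L x)) ∧
    Hc b p X L L' (m + 3 + p : ℕ) =
      (kc X (HN p 𝔞 𝔟 (m + 3 + p)) (fun x => Vs b (m + 3 + p) p 𝔟 (L x)) -
        kc X _ (Z0 p L (𝔟.G (m + 3 + p)))) -
      (kc X ((PP p 𝔞).hom (WA Sg (𝔟.G p) (m + 3))) (fun x => As b (m + 3) p (L x) (L' x)) -
        kc X _ (Z0 p L (WA Sg (𝔟.G p) (m + 3)))) +
      (kc X ((PP p 𝔞).hom (WA Sg (PP p 𝔟) m)) (fun x => Bs b m p (L x) (L' x)) -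
        kc X ((PP p 𝔞).hom (WA Sg (PP p 𝔟) m)) fun x => Bs' b m p (L x) (L' x)) := by
  have hB := piK_gS h hb (h'.isAB_KK 3).hin (isAB_KY h') (isAB_ZY h' hb) (fun _ _ => mulS_le_KK _)
    (M₀ := fun x _ => 𝔟.KK (L' x) p 3) (N₀ := fun x => Zf b p 𝔟 (L' x)) fun x hx z hz =>
      ⟨by rw [KY, (add_mem hb hx hz).2.1], ZZ_add _ hb hx hz⟩
  have hA := piK_gS h hb (𝔟.in_G p _) ((h'.ab p le_rfl).pull (Spc.fib_fst X _))
    (.bot (𝔟.in_G p _)) (fun _ _ => bot_le) (M₀ := fun x _ => 𝔟.pc (L' x) p) (N₀ := fun _ _ => ⊥)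
    fun x hx z hz => ⟨by rw [(add_mem hb hx hz).2.1], rfl⟩
  refine (hB.and (((tendsto_add_atTop_nat 3).eventually hA).and (((tendsto_add_atTop_nat p).comp
    (tendsto_add_atTop_nat 3)).eventually (ev_Vs (𝔟 := 𝔟) h hb)))).mono fun m ⟨H1, H2, H3⟩ => ?_
  obtain ⟨a1, a2, a3⟩ := H1 _ LinearMap.id (evz Sg b _ m) ((h'.isAB_KK 3).hin.tens (in_triv _))
    deg0_id Function.bijective_id fun _ _ => rfl
  obtain ⟨a4, -, a5⟩ := H2 _ LinearMap.id (evz Sg b _ (m + 3)) ((𝔟.in_G p _).tens (in_triv _))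
    deg0_id Function.bijective_id fun _ _ => rfl
  rw [kc_of_bot (L := fun _ => ⊥) fun _ _ => rfl, sub_zero,
    ← kc_pull (h'.ab p le_rfl) (Spc.fib_fst X _)] at a5
  refine ⟨a1, a2, a4, H3.1, ?_⟩
  rw [Hc, mul_Qc, map_add, map_sub]
  exact congrArg₂ _ (congrArg₂ _ H3.2 (a5.trans (congrArg _ (kc_congr fun x _ =>
    gS'_bot fun _ => eq_zero_of_evz b)))) a3


omit hb h' in
lemma isAB_Z0 {T : GV} (hT : T.In X.B) : IsAB X _ (Z0 p L T) := (h.isAB_KK 3).homMap (.bot hT)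
omit hb in
lemma isAB_Dn (hn : p ≤ n) : IsAB X (HN p 𝔞 𝔟 n) fun x => Dn p (L x) (L' x) n :=
  (h.isAB_KK 3).homMap (h'.ab n hn)
omit hb h h' in
lemma sup_le_Hn {L : XL Sg 𝔞.M} {L' : XL Sg 𝔟.M} :
    Hn p L (bot _ _) n ⊔ Dn p L L' n ≤ Hn p L L' n :=
  sup_le (fun _ H => mem_Hn.2 fun k t ht => by
    have := mem_Hn.1 H k t ht
    rw [pc_bot] at this
    exact bot_le (a := 𝔟.pc L' _) this)
    fun _ H => mem_Hn.2 fun _ _ ht => Amb.mul_mem_pc (rT_mem (mem_homMap.1 H) ht.1)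
/-- the Euler characteristic decides exactness at `Γ Hom(B, O')` -/
lemma ev_iff : ∀ᶠ m : ℕ in atTop, ∀ x (hx : x ∈ X.pts), Hn p (L x) (L' x) (m + 3 + p) ≤
    Hn p (L x) (bot _ _) (m + 3 + p) ⊔ Dn p (L x) (L' x) (m + 3 + p) →
    SqSurj (V := HN p 𝔞 𝔟 _) (W := HN p 𝔞 𝔟 _) (Vs b (m + 3 + p) p 𝔟 (L x))
      (Hn p (L x) (L' x) _) (Dn p (L x) (L' x) _) LinearMap.id ∧
    (SqEx (As b (m + 3) p (L x) (L' x)) (Vs b (m + 3 + p) p 𝔟 (L x)) (Z0 p L _ x)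
      (Dn p (L x) (L' x) _) (gA (m + 3) p 𝔞 𝔟) LinearMap.id ↔
    (finrank ℂ (Hn p (L x) (L' x) (m + 3 + p)) : ℤ) - finrank ℂ (Dn p (L x) (L' x) (m + 3 + p)) =
      K.rk hx (Hc b p X L L' (m + 3 + p : ℕ))) :=
  (ev_six h h' hb).mono fun m ⟨a1, a2, a3, a4, a5⟩ x hx H => by
    have s : SqSurj (V := HN p 𝔞 𝔟 _) (W := HN p 𝔞 𝔟 _) (Vs b (m + 3 + p) p 𝔟 (L x))
        (Hn p (L x) (L' x) _) (Dn p (L x) (L' x) _) LinearMap.id := by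
      rw [SqSurj, Submodule.map_id, Vs_eq (h.le x hx) (h.reg x hx)]
      exact le_antisymm sup_le_Hn H
    refine ⟨s, (fr4 (inj_B (h'.le x hx) (h'.reg x hx)) (ex_A (h.le x hx) (h.reg x hx) (h'.le x hx)
      (h'.reg x hx)) s le_V).trans ?_⟩
    rw [a5, map_add, map_sub, map_sub, map_sub, map_sub, rk_kc a1, rk_kc a2, rk_kc a3, rk_kc a4,
      rk_kc (isAB_Z0 h (𝔟.in_G _ _)), rk_kc (isAB_Z0 h ((𝔟.in_G _ _).tens (in_triv _)))]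
    exact ⟨fun e => by linarith, fun e => by linarith⟩
omit hb h in
lemma xfull {x : Pt} (hx : x ∈ X.pts) : XFull (L' x) :=
  xfull_of_HP (h'.le x hx) (h'.hp.choose_spec.choose_spec x hx)
lemma rk_Hc (hn : p + 2 ≤ n) {x : Pt} (hx : x ∈ X.pts) :
    (finrank ℂ (Hn p (L x) (L' x) n) : ℤ) - finrank ℂ (Dn p (L x) (L' x) n) =
      K.rk hx (Hc b p X L L' n) := by
  obtain ⟨m₀, hm⟩ := eventually_atTop.1 ((ev_iff h h' hb).and ((((tendsto_add_atTop_nat p).comp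
    (tendsto_add_atTop_nat 3)).eventually (ev_S1 (L' := L' x) (h.le x hx) (h.reg x hx))).and
    ((tendsto_add_atTop_nat 3).eventually
      (ev_V (b := b) (h.le x hx) (h.reg x hx) (h'.le x hx) (h'.reg x hx)))))
  refine RecN.eq_of (n₁ := m₀ + 3 + p) (fun n hn => (kosEx_Hn (h.le x hx) (h.reg x hx)
    (h'.le x hx) (h'.reg x hx) (xfull h' hx) h.two hn).num) (fun j => Rec3.map
    ((base_S Sg b).rec3 (piK X (Sg.S b) b) _ j) (K.rk hx).toAddMonoidHom) (fun n hn => ?_) n hn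
  obtain ⟨m, rfl⟩ : ∃ m, n = m + 3 + p := ⟨n - 3 - p, by omega⟩
  obtain ⟨h1, h2, h3⟩ := hm m (by omega)
  exact (h1 x hx h2).2.1 h3
theorem isAB_Hn (hn : p + 2 ≤ n) : IsAB X (HN p 𝔞 𝔟 n) fun x => Hn p (L x) (L' x) n := by
  have hD := isAB_Dn h h' (n := n) (by omega)
  have hR := fun k => (isAB_Rel h k).1.homMap (h'.ab (k + n) (by omega))
  have hC : CogA X fun x => Hn p (L x) (L' x) n := CogA.iInf fun k =>
    (hR k).cog.comap (IsRM.const (X := X) (deg0_Psi (PP p 𝔞) k)).reg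
  refine ⟨hD.hin, hC.alg_of_usc (usc_iff.2 fun x => ((hD.alg.near_finrank x).and
      (near_rk (Hc b p X L L' n) x)).mono fun y hy => ?_),
    Eqv.iInf fun k => (hR k).eqv'.comap (.const (deg0_Psi _ k))⟩
  have h1 := rk_Hc h h' hb hn x.2
  have h2 := rk_Hc h h' hb hn y.2
  change -(finrank ℂ (Hn p (L y) (L' y) n) : ℤ) ≤ -(finrank ℂ (Hn p (L x) (L' x) n) : ℤ)
  omega
theorem kq_Hn (hn : p + 2 ≤ n) : kc X (HN p 𝔞 𝔟 n) (fun x => Hn p (L x) (L' x) n) -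
    kc X (HN p 𝔞 𝔟 n) (fun x => Dn p (L x) (L' x) n) = Hc b p X L L' n := by
  obtain ⟨n₀, h₀⟩ := eventually_atTop.1 (ev_Vs (𝔟 := 𝔟) h hb)
  obtain ⟨n₁, h₁⟩ := unif_of_open (n₀ := n₀ + (p + 4)) (q := fun n x => Hn p (L x) (L' x) n ≤
    Hn p (L x) (bot _ _) n ⊔ Dn p (L x) (L' x) n) (fun n hn x H => by
      have h1 := (((h₀ n (by omega)).1.congr fun x hx => Vs_eq (h.le x hx) (h.reg x hx)).gen.sup
        (isAB_Dn h h' (n := n) (by omega)).gen).usc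
      refine ((usc_iff.1 h1 x).and ((isAB_Hn h h' hb (n := n) (by omega)).alg.near_finrank x)).mono
        fun y hy => (Submodule.eq_of_le_of_finrank_le sup_le_Hn ?_).ge
      have := Submodule.finrank_mono H
      omega) (fun n hn x => S1_succ
      (h.le x x.2) (h.reg x x.2) (h'.le x x.2) (h'.reg x x.2) (xfull h' x.2) h.two (by omega))
    fun x => ev_S1 (h.le x x.2) (h.reg x x.2)
  obtain ⟨m₀, hm⟩ := eventually_atTop.1 ((ev_iff h h' hb).and (ev_six h h' hb))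
  refine RecN.eq_of (n₁ := m₀ + n₁ + 3 + p) (fun n hn => recN_kc (τ := tH p 𝔞 𝔟)
    (fun n i => deg0_ll _ (deg0_tG n i)) (fun j hj => isAB_Hn h h' hb (by omega))
    (fun j hj => isAB_Dn h h' (by omega)) fun x hx => kosEx_Hn (h.le x hx) (h.reg x hx)
    (h'.le x hx) (h'.reg x hx) (xfull h' hx) h.two hn)
    ((base_S Sg b).rec3 (piK X (Sg.S b) b) _) (fun n hn => ?_) n hn
  obtain ⟨m, rfl⟩ : ∃ m, n = m + 3 + p := ⟨n - 3 - p, by omega⟩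
  obtain ⟨H, a1, a2, a3, a4, a5⟩ := hm m (by omega)
  have := kq4 a1 a2 a3 (isAB_Z0 h ((𝔟.in_G _ _).tens (in_triv _))) a4 (isAB_Z0 h (𝔟.in_G _ _))
    (isAB_Hn h h' hb (by omega)) (isAB_Dn h h' (by omega)) (.const (deg0_ll _ (deg0_mm _ 3 m)))
    (.const (deg0_ll _ (𝔟.deg0_mul p (m + 3)))) .id fun x hx =>
      have H1 := H x hx (h₁ _ (by omega) ⟨x, hx⟩)
      ⟨inj_B (h'.le x hx) (h'.reg x hx), ex_A (h.le x hx) (h.reg x hx) (h'.le x hx) (h'.reg x hx),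
        H1.2.2 (rk_Hc h h' hb (by omega) hx), H1.1⟩
  exact Eq.trans (by linear_combination -this) a5.symm

end Crest.Agent.N265.M.Hx
end
end

-- ▼ part N265/M/TV

/-! # Row 265, task M-TV (helper42): syzygy bundles and `χ(L, O'/L')` in families -/

set_option autoImplicit false
set_option linter.dupNamespace false
noncomputable section
open MvPolynomial Module TensorProduct

namespace Crest.Agent.N265.M
open Crest.Agent.R274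
open Defs_781 Lat_781 SnapA_99 SnapB_99 SnapE_99 Gen7_750 Xs1_781 SkDefs_474
open Alg GV Br N Fib _root_.Crest.Agent.N265.Pow
variable {Sg : Surf} {𝔞 𝔟 : Amb Sg} {X Y : Spc} {p : ℕ} {L : Pt → XL Sg 𝔞.M}
  {L' : Pt → XL Sg 𝔟.M}

namespace LFam
theorem syzF (h : LFam 𝔞 X p L) {b : ℕ} (hb : b ∉ X.B) {r : ℕ}
    (hr : ∀ x ∈ X.pts, finrank ℂ (𝔞.pc (L x) p) = r + Fintype.card 𝔞.ι) :
    SyzF Sg b X (𝔞.G p) (fun k x => 𝔞.KK (L x) p k) 2 r := Hx.syzF h hb hr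
theorem exists_rk' (h : LFam 𝔞 X p L) :
    ∃ r, ∀ x ∈ X.pts, finrank ℂ (𝔞.pc (L x) p) = r + Fintype.card 𝔞.ι := h.exists_rk''
theorem pull_Bcl (h : LFam 𝔞 X p L) (hX : 0 ∉ X.B) (q : Proj Y X) (hY : 0 ∉ Y.B) :
    K.pull (q.fib_map _) (Bcl 𝔞 X p L) = Bcl 𝔞 Y p fun y => L (restr X.B y) := by
  obtain ⟨r, hr⟩ := h.exists_rk'
  exact pull_Bcl' (h.syzF hX hr) q hY
theorem pull_SS (h : LFam 𝔞 X p L) (hX : 0 ∉ X.B) (q : Proj Y X) (hY : 0 ∉ Y.B) :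
    K.pull (q.fib_map _) (SS 𝔞 X p L) = SS 𝔞 Y p fun y => L (restr X.B y) := by
  rw [SS, SS, map_sub, h.pull_Acl q, h.pull_Bcl hX q hY]
theorem pull_chiK (h : LFam 𝔞 X p L) (h' : LFam 𝔟 X p L') (hX : 0 ∉ X.B) (q : Proj Y X)
    (hY : 0 ∉ Y.B) : K.pull q (chiK 𝔞 𝔟 X p L L') =
      chiK 𝔞 𝔟 Y p (fun y => L (restr X.B y)) fun y => L' (restr X.B y) :=
  pull_chiK' hX q hY (h.pull_SS hX q hY) (h'.pull_SS hX q hY)
theorem isAB_Hb (h : LFam 𝔞 X p L) (h' : LFam 𝔟 X p L') :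
    IsAB X (𝔞.HG 𝔟 p) fun x => 𝔞.Hb 𝔟 (L x) (L' x) p :=
  (Hx.isAB_Hn h h' X.B.exists_notMem.choose_spec (n := 3 + p) (by omega)).congr
    fun _ _ => Hx.Hb_eq.symm
/-- **`χ(L, O'/L') = Hom(A, O'/L') - Hom(B, O'/L')`** -/
theorem chiK_eq (h : LFam 𝔞 X p L) (h' : LFam 𝔟 X p L') (hX : 0 ∉ X.B) :
    chiK 𝔞 𝔟 X p L L' = hmc 𝔞 𝔟 X p L L' - hbc 𝔞 𝔟 X p L L' := by
  have h1 : hbc 𝔞 𝔟 X p L L' = _ := (congrArg (· - _) (kc_congr fun _ _ => Hx.Hb_eq)).trans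
    (Hx.kq_Hn h h' hX (n := 3 + p) (by omega))
  have h2 : hmc 𝔞 𝔟 X p L L' = _ := kq_hom_top (h.ab p le_rfl) (h'.ab p le_rfl)
  rw [h1, h2, ← ucl, ← ucl, ← Hx.piK_Qc h' hX le_rfl, ← piK_mul (base_S Sg 0) hX, Hx.Hc, ← map_sub,
    chiK, Hx.SS_eq (L := L), Hx.SS_eq, ← Hx.Qc]
  congr 1
  rw [map_mul, map_sub, map_mul, K.dual_lbK, K.dual_lbK, neg_neg, neg_neg, K.pull_dual,
    natCast_zsmul, natCast_zsmul, add_smul, lbK_add]
  ring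
/-- honest bundles -/
theorem exists_AB (h : LFam 𝔞 X p L) (hX : 0 ∉ X.B) {r : ℕ}
    (hr : ∀ x ∈ X.pts, finrank ℂ (𝔞.pc (L x) p) = r + Fintype.card 𝔞.ι) :
    ∃ A B : Bun (X.fib (Sg.S 0)), A.kl = Acl 𝔞 X p L ∧ B.kl = Bcl 𝔞 X p L ∧
      A.Rk (r + Fintype.card 𝔞.ι) ∧ B.Rk r := h.exists_AB' (h.syzF hX hr) hr
end LFam

section split
variable {I₁ I₂ : Pt → XL Sg Sg.F}
theorem Bcl_pair (h₁ : LFam (r1 Sg 0) X p I₁) (h₂ : LFam (r1 Sg 1) X p I₂) (hX : 0 ∉ X.B) :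
    Bcl (r2 Sg) X p (fun x => piX ![I₁ x, I₂ x]) = Bcl (r1 Sg 0) X p I₁ + Bcl (r1 Sg 1) X p I₂ := by
  obtain ⟨r₁, e₁⟩ := h₁.exists_rk'
  obtain ⟨r₂, e₂⟩ := h₂.exists_rk'
  exact Bcl_pair' (h₁.syzF hX e₁) (h₂.syzF hX e₂)
theorem SS_pair (h₁ : LFam (r1 Sg 0) X p I₁) (h₂ : LFam (r1 Sg 1) X p I₂) (hX : 0 ∉ X.B) :
    SS (r2 Sg) X p (fun x => piX ![I₁ x, I₂ x]) = SS (r1 Sg 0) X p I₁ + SS (r1 Sg 1) X p I₂ := by
  rw [SS, SS, SS, Acl_pair h₁ h₂, Bcl_pair h₁ h₂ hX]; ring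
theorem chiK_pair (h₁ : LFam (r1 Sg 0) X p I₁) (h₂ : LFam (r1 Sg 1) X p I₂) (hX : 0 ∉ X.B) :
    chiK (r2 Sg) (r2 Sg) X p (fun x => piX ![I₁ x, I₂ x]) (fun x => piX ![I₁ x, I₂ x]) =
      (chiK (r1 Sg 0) (r1 Sg 0) X p I₁ I₁ + chiK (r1 Sg 1) (r1 Sg 1) X p I₂ I₂) +
      (chiK (r1 Sg 0) (r1 Sg 1) X p I₁ I₂ + chiK (r1 Sg 1) (r1 Sg 0) X p I₂ I₁) := by
  simp only [chiK]
  rw [SS_pair h₁ h₂ hX, r1_V, r1_V, r2_V, map_add (K.dual _), ← map_add (piK X (Sg.S 0) 0),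
    ← map_add (piK X (Sg.S 0) 0), ← map_add (piK X (Sg.S 0) 0)]
  congr 1; ring
end split

section pure
variable {k k' : ℤ} {I J : Pt → XL Sg Sg.F} {w : ℕ → ℤ}
theorem pure_dcl (h : LFam (r1 Sg k) X p I) (hw : X.TTriv w) (r : ℕ) :
    K.Pure hw (r * k) (dcl (r1 Sg k) X p I r) := pure_dcl' h hw r
/-- honest pure bundles for the two terms of `chiK` -/
theorem exists_hm_hb (h : LFam (r1 Sg k) X p I) (h' : LFam (r1 Sg k') X p J) (hw : X.TTriv w) :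
    ∃ A B : Bun X, A.Pure w (k' - k) ∧ B.Pure w (k' - k) ∧
      A.kl = hmc (r1 Sg k) (r1 Sg k') X p I J ∧ B.kl = hbc (r1 Sg k) (r1 Sg k') X p I J :=
  exists_hm_hb' h h' hw (h.isAB_Hb h')
end pure

end Crest.Agent.N265.M
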