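import Crest.Agent.N265.N.Dim2
import Crest.Agent.N265.M.Fix
import Crest.Agent.N265.Fib.P5
import Crest.Agent.N265.N.KK
import Crest.Agent.N265.M.TV
import Crest.Agent.N265.M.Ty
import Crest.Agent.N265.Fib.P4
import Crest.Agent.N265.Fib.R1
import Crest.Agent.N265.M.Dic
import Crest.Agent.N265.K.AB4
import Crest.Agent.N265.V.Loc
import Crest.Agent.N265.N.Dim0

-- ▼ part N265/N/Dim3
section

/-!
# Row 265, layer N, dimension induction, part 3 (helper83): `good_step`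
-/

set_option autoImplicit false
noncomputable section
open MvPolynomial Module TensorProduct

namespace Crest.Agent.N265.N.Dim
open Crest.Agent.R274
open Defs_781 Lat_781 SnapA_99 SnapB_99 SnapE_99 Gen7_750 Xs1_781 SkDefs_474
open Alg GV Br N Fib M _root_.Crest.Agent.N265.Pow
variable {Sg : Surf} {p c : ℕ} {k : ℤ} {I J : XL Sg Sg.F} {β : Sg.V.G} {n : ℕ}

lemma stab_r1 (k : ℤ) (j : ℕ) (U : Submodule ℂ ((r1 Sg k).G j).V) : ((r1 Sg k).G j).Stab U :=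
  stab_of_le fun _ hv => U.smul_mem (chi (k • eT)) hv

lemma ial_pc {X : Spc} {I : Pt → XL Sg Sg.F} (h : LFam (r1 Sg k) X p I) {j : ℕ} (hj : p ≤ j) :
    IAl X fun x => (r1 Sg k).pc (I x) j := (h.ab j hj).ial (stab_r1 k j)

/-- multiplication by linear forms -/
def mu (Sg : Surf) (k : ℤ) (p : ℕ) :
    SA Sg 1 ⊗[ℂ] ((r1 Sg k).G p).V →ₗ[ℂ] ((r1 Sg k).G (1 + p)).V :=
  (r1 Sg k).mul p 1 ∘ₗ (TensorProduct.comm ℂ _ _).toLinearMap

lemma inc_mu (l : SA Sg 1) (w : ((r1 Sg k).G p).V) :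
    (r1 Sg k).inc (1 + p) (mu Sg k p (l ⊗ₜ w)) = l.1 • (r1 Sg k).inc p w :=
  (r1 Sg k).inc_mul p 1 (w ⊗ₜ l)

lemma cast_one_add (p : ℕ) : ((1 + p : ℕ) : ℤ) = p + 1 := by push_cast; ring

lemma T_le_iff (h : LeL I (r1 Sg k).O) {P : Submodule ℂ (SA Sg 1)} {H : Submodule ℂ Sg.F} :
    (tens P ((r1 Sg k).pc I p)).map (mu Sg k p) ≤ H.comap ((r1 Sg k).inc (1 + p)) ↔
      P.map (SA Sg 1).subtype • Gm I.toLat p ≤ H := by
  have e : Gm I.toLat p = ((r1 Sg k).pc I p).map ((r1 Sg k).inc p) :=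
    (Amb.map_pc (𝔞 := r1 Sg k) h p).symm
  rw [Submodule.map_le_iff_le_comap, tens_le, Submodule.smul_le, e]
  constructor
  · rintro H' _ ⟨l, hl, rfl⟩ _ ⟨w, hw, rfl⟩
    exact Set.mem_of_eq_of_mem (inc_mu l w).symm (H' l hl w hw)
  · intro H' l hl w hw
    rw [Submodule.mem_comap, Submodule.mem_comap, inc_mu]
    exact H' _ ⟨l, hl, rfl⟩ _ ⟨w, hw, rfl⟩

lemma pc_one_add (J : XL Sg Sg.F) :
    (r1 Sg k).pc J (1 + p) = (Gm J.toLat (p + 1)).comap ((r1 Sg k).inc (1 + p)) := by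
  rw [Amb.pc, cast_one_add]

lemma T_le_pc {z : Pt} (hz : z ∈ (Sg.S c).pts) (h : LeL I (r1 Sg k).O) :
    (tens (mP Sg c 1 z) ((r1 Sg k).pc I p)).map (mu Sg k p) ≤ (r1 Sg k).pc J (1 + p) ↔
      van (pnt Sg c z hz) 1 • Gm I.toLat p ≤ Gm J.toLat (p + 1) := by
  rw [pc_one_add, T_le_iff h, Fib.map_mP hz, Nat.cast_one]

lemma exists_ne (h : Ty I β n) (le : LeL I (OX Sg.V.X)) (hr : RegL I.toLat p) :
    ∃ g ∈ (r1 Sg k).pc I p, g ≠ 0 := Submodule.exists_mem_ne_zero_of_ne_bot fun h0 => by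
  have h1 := h.finrank_pc (k := k) le hr
  have h2 := h.rkU_pos le hr
  rw [h0, finrank_bot] at h1
  omega

lemma ty_down {x : Pnt Sg.V.X} (h : Ty I β n) (h1 : One x J I) : Ty J β (n + 1) :=
  let ⟨f, hf, a1, a2⟩ := h
  ⟨f, hf, h1.fc.trans a1, by rw [h1.fc.len_trans a1, h1.len, a2, add_comm]⟩

lemma ty_up (h : Ty I β (n + 1)) (le : LeL I (OX Sg.V.X)) :
    ∃ x J, One x I J ∧ Ty J β n ∧ LeL J (OX Sg.V.X) := by
  obtain ⟨f, hf, a1, a2⟩ := h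
  obtain ⟨x, J, b1, b2, b3⟩ := a1.exists_bot a2
  exact ⟨x, J, b1, ⟨f, hf, b2, b3⟩,
    (b1.fc.le_OL (le.trans (OL_zero Sg.V.T).symm.le)).trans (OL_zero Sg.V.T).le⟩

variable {β₁ β₂ : Sg.V.G} {n₁ n₂ : ℕ} {k₁ k₂ : ℤ} {b b' : ℕ}

/-- **dimension induction** -/
theorem good_step {u : Uni Sg p β₁ β₂ n₁ n₂ k₁ k₂ b} (h : u.Good)
    (u' : Uni Sg p β₁ β₂ (n₁ + 1) n₂ k₁ k₂ b') (hb : b ≠ b') : u'.Good := by
  obtain ⟨c, hc⟩ := Infinite.exists_notMem_finset ({b, b'} : Finset ℕ)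
  rw [Finset.mem_insert, Finset.mem_singleton, not_or] at hc
  have f₁ := u.f₁.fam
  have f₂ := u.f₂.fam
  have f₁' := u'.f₁.fam
  have f₂' := u'.f₂.fam
  have rk : ∀ x ∈ u.F.pts, ∀ x' ∈ u'.F.pts, finrank ℂ ((r1 Sg k₁).pc (u'.I₁ x') (1 + p)) + 1 =
      finrank ℂ ((r1 Sg k₁).pc (u.I₁ x) (1 + p)) := fun x hx x' hx' => by
    have h1 := Amb.finrank_pc (f₁.le x hx) (f₁.reg x hx) (j := 1 + p) (by omega)
    have h2 := Amb.finrank_pc (f₁'.le x' hx') (f₁'.reg x' hx') (j := 1 + p) (by omega)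
    rw [(u.f₁.ty x hx).cL] at h1
    rw [(u'.f₁.ty x' hx').cL] at h2
    omega
  have eq₂ : ∀ {x x' : Pt}, x ∈ u.F.pts → x' ∈ u.F.pts →
      (r1 Sg k₂).pc (u.I₂ x) p = (r1 Sg k₂).pc (u.I₂ x') p → EqL (u.I₂ x) (u.I₂ x') :=
    fun hx hx' e => eqv_of_le (Amb.le_of_pc (f₂.le _ hx) (f₂.reg _ hx) le_rfl e.le)
      (Amb.le_of_pc (f₂.le _ hx') (f₂.reg _ hx') le_rfl e.ge)
  obtain ⟨x₀, hx₀⟩ := h.1.nonempty
  obtain ⟨g, hg, hg0⟩ := exists_ne (k := k₁) (u.f₁.ty x₀ hx₀) (u.f₁.le hx₀) (f₁.reg x₀ hx₀)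
  obtain ⟨z₀, hz₀, r, hr, hr'⟩ := exists_evP_ne (b := c) (g := g ())
    fun h0 => hg0 (funext fun _ => h0)
  refine dim_step (F := u.F) (S := Sg.S c) (F' := u'.F) ?_ ?_ ?_ (mu Sg k₁ p) (ial_mP 1)
    (ial_pc f₁ le_rfl) (ial_pc f₁ (Nat.le_add_left p 1)) (ial_pc f₂ le_rfl)
    (ial_pc f₁' (Nat.le_add_left p 1)) (ial_pc f₂' le_rfl) rk (fun x hx z hz => ?_)
    (fun x hx z hz H a1 a2 a3 => ?_) (fun x' hx' => ?_) (fun y hy y' hy' e₁ e₂ => ?_) hx₀ hz₀ hr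
    (fun x hx z hz hz' x' hx' a1 a2 a3 a4 a5 => ?_) h.1 (Sg.S_irred c) h.2 (Sg.S_sm c)
    (fun y hy => u'.finrank_tan_le hy) ?_
  · rw [u.B, Sg.S_B, Finset.disjoint_singleton]; exact fun e => hc.1 e.symm
  · rw [u.B, u'.B, Finset.disjoint_singleton]; exact hb
  · rw [u'.B, Sg.S_B, Finset.disjoint_singleton]; exact hc.2
  · refine lt_of_le_of_ne ((T_le_pc hz (f₁.le x hx)).2 ((Submodule.smul_mono_left
      (van_le _ _)).trans (add_comm (1 : ℤ) p ▸ AA_smul_le _ 1 p))) fun e => ?_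
    obtain ⟨g, hg, hg0⟩ := exists_ne (k := k₁) (u.f₁.ty x hx) (u.f₁.le hx) (f₁.reg x hx)
    refine (ng Sg).van_smul_ne (pnt Sg c z hz) (f₁.reg x hx) le_rfl (fun h0 => hg0 ?_)
      (le_antisymm ((T_le_pc hz (f₁.le x hx)).1 e.le) ?_)
    · have h1 := Pnt.Gm_mem_loc (x := pnt Sg c z hz) (Amb.mem_pc.1 hg)
      rw [h0, Submodule.mem_bot, smul_eq_zero] at h1
      exact (r1 Sg k₁).inc_inj p ((h1.resolve_left (zpow_ne_zero _ (Sg.V.X.t_ne _))).trans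
        (map_zero _).symm)
    · rw [← cast_one_add, ← Amb.map_pc (f₁.le x hx) (1 + p), ← e, Submodule.map_le_iff_le_comap,
        T_le_iff (f₁.le x hx), Fib.map_mP hz, Nat.cast_one]
  · obtain ⟨N, b1, b2⟩ := (ng Sg).exists_one_of_hyper (pnt Sg c z hz) (f₁.reg x hx) le_rfl
      (H := H.map ((r1 Sg k₁).inc (1 + p)))
      (by rw [← Nat.cast_one, ← Fib.map_mP hz, ← T_le_iff (f₁.le x hx)]
          exact a1.trans (Submodule.le_comap_map _ _))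
      (by rw [Submodule.map_le_iff_le_comap, ← pc_one_add]; exact a2)
      (by rw [← cast_one_add, ← Amb.map_pc (f₁.le x hx),
          ← (Submodule.equivMapOfInjective _ ((r1 Sg k₁).inc_inj _) _).finrank_eq,
          ← (Submodule.equivMapOfInjective _ ((r1 Sg k₁).inc_inj _) _).finrank_eq, a3])
    obtain ⟨x', hx', e₁, e₂⟩ := u'.ex N (u.I₂ x) (b1.le.trans (u.f₁.le hx)) (u.f₂.le hx)
      (ty_down (u.f₁.ty x hx) b1) (u.f₂.ty x hx)
    refine ⟨x', hx', ?_, Amb.pc_congr (𝔞 := r1 Sg k₂) e₂ p⟩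
    rw [Amb.pc_congr (𝔞 := r1 Sg k₁) e₁, pc_one_add, b2,
      Submodule.comap_map_eq_of_injective ((r1 Sg k₁).inc_inj _)]
  · obtain ⟨y, J, b1, b2, b3⟩ := ty_up (u'.f₁.ty x' hx') (u'.f₁.le hx')
    obtain ⟨x, hx, e₁, e₂⟩ := u.ex J (u'.I₂ x') b3 (u'.f₂.le hx') b2 (u'.f₂.ty x' hx')
    obtain ⟨z, hz, rfl⟩ := pnt_surj c y
    refine ⟨x, hx, z, hz, (T_le_pc hz (f₁.le x hx)).2 ?_,
      Amb.pc_mono (𝔞 := r1 Sg k₁) (b1.le.trans e₁.symm.le) _,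
      (Amb.pc_congr (𝔞 := r1 Sg k₂) e₂ p).symm⟩
    rw [Gm_congr e₁]
    exact b1.van_smul_le p
  · obtain ⟨a, -, ha⟩ := u'.uniq y hy y' hy'
      (eqv_of_le (Amb.le_of_pc (f₁'.le _ hy) (f₁'.reg _ hy) (Nat.le_add_left p 1) e₁.le)
        (Amb.le_of_pc (f₁'.le _ hy') (f₁'.reg _ hy') (Nat.le_add_left p 1) e₁.ge))
      (eqv_of_le (Amb.le_of_pc (f₂'.le _ hy) (f₂'.reg _ hy) le_rfl e₂.le)
        (Amb.le_of_pc (f₂'.le _ hy') (f₂'.reg _ hy') le_rfl e₂.ge))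
    exact ⟨fun _ => a, fun v => congrFun ha v⟩
  · obtain ⟨q, rfl⟩ : ∃ q, p = q + 1 := ⟨p - 1, by have := f₁.two; omega⟩
    have a6 := a3.trans a2
    rw [pc_one_add, T_le_iff (f₁.le x hx), Submodule.smul_le] at a6
    have h1 : LeL (u.I₁ x) (u.I₁ x₀) := Amb.le_of_pc (f₁.le x hx) (f₁.reg x hx) le_rfl fun w hw =>
      mem_Gm_of_mP hz (g ()) (by rwa [hr' z hz]) (by
        have := AA_smul_mem (mem_AA_of_SA (w ())) (Amb.mem_pc.1 hg)
        rw [r1_inc, smul_eq_mul, mul_comm] at this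
        exact this) fun l hl => a6 _ ⟨l, hl, rfl⟩ _ hw
    have h2 : EqL (u.I₁ x) (u.I₁ x₀) := eqv_of_cL h1 (Filter.Eventually.of_forall fun e => by
      rw [(u.f₁.ty x hx).cL, (u.f₁.ty x₀ hx₀).cL])
    obtain ⟨a, -, ha⟩ := u.uniq x₀ hx₀ x hx h2.symm (eq₂ hx₀ hx a5.symm)
    refine ⟨⟨fun _ => a, fun v => congrFun ha v⟩, scal_of_mP hz₀ hz (by_contra fun hn => ?_)⟩
    rw [Amb.pc_congr (𝔞 := r1 Sg k₁) h2] at a3
    rw [pc_one_add, T_le_iff (f₁.le x₀ hx₀)] at a1 a3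
    have h3 : (r1 Sg k₁).pc (u.I₁ x₀) (1 + (q + 1)) ≤ (r1 Sg k₁).pc (u'.I₁ x') (1 + (q + 1)) := by
      rw [← Amb.map_mul_pc (f₁.le x₀ hx₀) (f₁.reg x₀ hx₀) le_rfl 1, Submodule.map_le_iff_le_comap]
      refine tens_le.2 fun w hw l _ => ?_
      have h4 := (T_le_iff (k := k₁) (f₁.le x₀ hx₀) (P := ⊤)
        (H := Gm (u'.I₁ x').toLat ((q + 1 : ℕ) + 1))).2 (by
        rw [← mP_sup hz hn, Submodule.map_sup, Submodule.sup_smul]
        exact sup_le a3 a1) ⟨_, tmul_mem (Submodule.mem_top (x := l)) hw, rfl⟩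
      rw [← pc_one_add] at h4
      exact h4
    have h4 := Submodule.finrank_mono h3
    have h5 := rk x₀ hx₀ x' hx'
    omega
  · rw [u.B, u'.B, Sg.S_B]
    simp only [Uni.dim, Finset.card_singleton]
    omega

end Crest.Agent.N265.N.Dim
end
end

-- ▼ part N265/N/Fw0
section

/-!
# Row 265, layer N: ideals as an instance of `AD`; task N-FW0: numerical facts and the dictionary
-/

set_option autoImplicit false
noncomputable section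
open MvPolynomial Module TensorProduct

namespace Crest.Agent.N265.N
open Crest.Agent.R274
open Defs_781 Lat_781 SnapA_99 SnapB_99 SnapE_99 Gen7_750 Xs1_781 SkDefs_474
open Alg GV Br Fib M _root_.Crest.Agent.N265.Pow

/-- sections of `O(p) t^k` -/
abbrev ad (Sg : Surf) (p : ℕ) (k : ℤ) : AD Sg :=
  { b := 0, e := 2, he := one_le_two, W := (r1 Sg k).G p, wt := k, hg := fun _ => rfl
    M := Sg.F, emb := (r1 Sg k).inc p }
variable {Sg : Surf} {p : ℕ} {k : ℤ} {β : Sg.V.G} {n : ℕ} {I : XL Sg Sg.F}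
lemma ad_mu (j : ℕ) : (ad Sg p k).mu j = mF ((r1 Sg k).inc p) j := rfl
/-- `p`-regular ideals of type `(β, n)` -/
structure RT (p : ℕ) (β : Sg.V.G) (n : ℕ) (I : XL Sg Sg.F) : Prop where
  le : LeL I (OX Sg.V.X)
  ty : Ty I β n
  reg : RegL I.toLat p
/-- their pieces of degree `p` -/
def TT (Sg : Surf) (p : ℕ) (k : ℤ) (β : Sg.V.G) (n : ℕ) (U : Submodule ℂ (ad Sg p k).W.V) : Prop :=
  ∃ I, RT p β n I ∧ U = (r1 Sg k).pc I p
/-- the dimension of the syzygies -/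
def hT (Sg : Surf) (p : ℕ) (β : Sg.V.G) (n j : ℕ) : ℕ :=
  Uni.rkU Sg p β n * finrank ℂ (SA Sg j) - Uni.rkU Sg (j + p) β n

namespace RT
theorem leO (h : RT p β n I) (k : ℤ) : LeL I (r1 Sg k).O :=
  fun J hJ => (h.le J hJ).trans (r1_O k J hJ).ge
theorem regL (h : RT p β n I) (j : ℕ) : RegL I.toLat (j + p : ℕ) :=
  h.reg.mono (by push_cast; omega)
theorem lfam (h : RT p β n I) (hp : 2 ≤ p) (X : Spc) : LFam (r1 Sg k) X p fun _ => I where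
  two := hp
  le := fun _ _ => h.leO k
  reg := fun _ _ => h.reg
  hp := ⟨_, _, fun _ _ => (h.ty.hp h.le).trans (by rw [Fintype.card_unique])⟩
  ab := fun j _ => IsAB.const ((r1 Sg k).in_G j _) (stab_of_le fun v hv => by
    rw [(ad Sg j k).hg v]; exact Submodule.smul_mem _ _ hv)
/-- `A_j U = Γ(I(p + j))` (`map_mul_pc`, `inc_mul`, `map_pc`) -/
theorem gen_eq (h : RT p β n I) (j : ℕ) :
    (ad Sg p k).gen ((r1 Sg k).pc I p) j = Gm I.toLat (j + p : ℕ) := by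
  have e : (ad Sg p k).mu j = (r1 Sg k).inc (j + p) ∘ₗ (r1 Sg k).mul p j :=
    LinearMap.ext fun t => ((r1 Sg k).inc_mul p j t).symm
  rw [AD.gen, e, Submodule.map_comp, Amb.map_mul_pc (h.leO k) h.reg le_rfl, Amb.map_pc (h.leO k)]
theorem finrank_gen (h : RT p β n I) (j : ℕ) :
    finrank ℂ ((ad Sg p k).gen ((r1 Sg k).pc I p) j) = Uni.rkU Sg (j + p) β n := by
  rw [(h.gen_eq j).trans (Amb.map_pc (𝔞 := r1 Sg k) (h.leO k) (j + p)).symm,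
    ← h.ty.finrank_pc (k := k) h.le (h.regL j)]
  exact (LinearEquiv.finrank_eq (Submodule.equivMapOfInjective _ ((r1 Sg k).inc_inj _) _)).symm
theorem homP_iff (h : RT p β n I) {φ : (ad Sg p k).W.V →ₗ[ℂ] (ad Sg p k).W.V} :
    (ad Sg p k).HomP ((r1 Sg k).pc I p) φ ↔ φ ∈ (r1 Sg k).Tv (r1 Sg k) I I p := by
  have e : ∀ κ, (ad Sg p k).mu 3 (LinearMap.rTensor _ φ κ) ∈ (ad Sg p k).gen ((r1 Sg k).pc I p) 3 ↔
      (r1 Sg k).res (r1 Sg k) p φ κ ∈ (r1 Sg k).pc I (3 + p) := fun κ => by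
    rw [h.gen_eq, Amb.mem_pc, Amb.res_apply, Amb.inc_mul]
    rfl
  exact ⟨fun H => mem_homMap.2 fun κ hκ => (e κ).1 (H κ hκ),
    fun H κ hκ => (e κ).2 (mem_homMap.1 H κ hκ)⟩
theorem hf_add (h : RT p β n I) (k : ℤ) (j : ℕ) :
    Uni.rkU Sg (j + p) β n + finrank ℂ ((r1 Sg k).KK I p j) =
      Uni.rkU Sg p β n * finrank ℂ (SA Sg j) := by
  rw [← h.finrank_gen (k := k) j, ← h.ty.finrank_pc (k := k) h.le h.reg]
  exact AD.finrank_gen (α := ad Sg p k) _ j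
theorem hf (h : RT p β n I) (j : ℕ) : finrank ℂ ((r1 Sg k).KK I p j) = hT Sg p β n j := by
  have := h.hf_add k j
  rw [hT]
  omega
theorem syzF (h : RT p β n I) (hp : 2 ≤ p) (k : ℤ) : SyzF Sg 0 Spc.pt0 ((r1 Sg k).G p)
    (fun j _ => (r1 Sg k).KK I p j) 2 (Uni.rkU Sg p β n - 1) :=
  (h.lfam hp Spc.pt0).syzF (by simp) fun _ _ => by
    have := h.ty.rkU_pos h.le h.reg
    rw [h.ty.finrank_pc h.le h.reg, Fintype.card_unique]
    omega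
/-- `LFam.syzF` over `Spc.pt0` -/
theorem gen (h : RT p β n I) (hp : 2 ≤ p) {j : ℕ} (hj : 2 ≤ j) :
    mulS Sg ⊤ ((r1 Sg k).KK I p j) = (r1 Sg k).KK I p (j + 1) :=
  (h.syzF hp k).gen j hj 0 (by rw [Spc.pt0_pts]; rfl)
theorem fib (h : RT p β n I) (hp : 2 ≤ p) {j : ℕ} (hj : 2 ≤ j) {z : Pt} (hz : z ∈ (Sg.S 0).pts) :
    finrank ℂ ((ad Sg p k).ZK ((r1 Sg k).pc I p) j z) + Uni.rkU Sg p β n =
      hT Sg p β n (j + 1) + 1 := by
  have h1 : finrank ℂ ((ad Sg p k).ZK ((r1 Sg k).pc I p) j z) + (Uni.rkU Sg p β n - 1) =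
      finrank ℂ ((r1 Sg k).KK I p (j + 1)) :=
    (h.syzF hp k).rk j hj 0 (by rw [Spc.pt0_pts]; rfl) z hz
  have h2 := h.ty.rkU_pos h.le h.reg
  rw [h.hf] at h1
  omega
theorem rkU_succ (h : RT p β (n + 1) I) (j : ℕ) :
    Uni.rkU Sg (j + p) β n = Uni.rkU Sg (j + p) β (n + 1) + 1 := by
  have := h.ty.rkU_pos h.le (h.regL j)
  simp only [Uni.rkU] at this ⊢
  omega
theorem hh (h : RT p β (n + 1) I) (j : ℕ) :
    hT Sg p β n j + 1 = hT Sg p β (n + 1) j + finrank ℂ (SA Sg j) := by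
  have h1 := h.hf_add 0 j
  have h2 := h.ty.rkU_pos h.le (h.regL j)
  have h3 := h.rkU_succ 0
  have h4 := h.rkU_succ j
  rw [Nat.zero_add] at h3
  have h5 : finrank ℂ (SA Sg j) ≠ 0 := fun e => by
    rw [e, Nat.mul_zero] at h1
    omega
  rw [hT, hT, h3, h4, Nat.add_mul, Nat.one_mul]
  omega
theorem eqL (h : RT p β n I) {J : XL Sg Sg.F} (h' : RT p β n J)
    (e : (r1 Sg k).pc I p = (r1 Sg k).pc J p) : EqL I J :=
  eqv_of_le (Amb.le_of_pc (h.leO k) h.reg le_rfl e.le) (Amb.le_of_pc (h'.leO k) h'.reg le_rfl e.ge)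
end RT

end Crest.Agent.N265.N
end
end

-- ▼ part N265/N/FwA
section

/-!
# Row 265, layer N, task N-FW a (helper30): `RT.down`, `RT.up`
-/

set_option autoImplicit false
noncomputable section

namespace Crest.Agent.N265.Fib
open Crest.Agent.R274
open Cx_781 Defs_781 Ses_781 Lat_781 Ser_781 SnapA_99 SnapB_99 SnapC_99 SnapD_99 SnapE_99 Gen7_750
open Xs1_781 Filter SkDefs_474 Module Pnt

universe u
variable {k : Type u} [Field k] {F : Type u} [Field F] [Algebra k F]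
  {V : Type u} [AddCommGroup V] [Module k V] [Module F V] [IsScalarTower k F V]

section soc
variable {n : ℕ} {X : Defs_781.Var k F n} {x y : Pnt X} {N : XLat X V} {e : ℤ} {w : V}

/-- if `V_x w ≤ Γ(N(e+1))` then `w` is a section of `N(e)` away from `x` -/
theorem NG.soc_off (h : NG X) (hw : ∀ l ∈ van x 1, l • w ∈ Gm N.toLat (e + 1)) (hy : y ≠ x) :
    X.t y.i ^ (-e) • w ∈ y.loc N := by
  obtain ⟨l, h2, h3⟩ := SetLike.not_le_iff_exists.1 fun H => hy (h.eq_of_van H)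
  have h4 : y.val (X.t y.i ^ (-1 : ℤ) * l) ≠ 0 := fun h0 => h3 (mem_van.2 ⟨van_le _ _ h2, h0⟩)
  have h9 := Gm_mem_loc (x := y) (hw l h2)
  rw [zp_succ, div_eq_inv_mul, ← zpow_neg_one] at h9
  exact of_smul_mem h4 h9

/-- if `V_x w ≤ Γ(N(e+1))` then `𝔪_x w ≤ N(e)_x` -/
theorem NG.soc_m (h : NG X) (hw : ∀ l ∈ van x 1, l • w ∈ Gm N.toLat (e + 1)) {a : F}
    (ha : a ∈ x.O) (h0 : x.val a = 0) : a • X.t x.i ^ (-e) • w ∈ x.loc N := by
  obtain ⟨b, hb, hb0, h3⟩ := mem_loc_OX.2 ha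
  have h4 := h.mem_van_smul x (OX X) h3 (mem_m_smul_OX.2 ⟨mul_mem (x.in_i hb) ha, by
    rw [smul_eq_mul, val_mul (x.in_i hb) ha, h0, mul_zero]⟩)
  have h5 : ∀ c ∈ van x 1 • (OX X).M {x.i},
      ((X.t x.i)⁻¹ * c) • X.t x.i ^ (-e) • w ∈ x.loc N := fun c hc => by
    refine Submodule.smul_induction_on
      (p := fun c => ((X.t x.i)⁻¹ * c) • X.t x.i ^ (-e) • w ∈ x.loc N) hc (fun l hl c hc => ?_)
      fun _ _ h h' => by rw [mul_add, add_smul]; exact add_mem h h'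
    have h9 := Gm_mem_loc (x := x) (hw l hl)
    rw [zp_succ, div_eq_inv_mul] at h9
    rw [smul_eq_mul, ← mul_assoc, mul_comm, mul_smul]
    exact smul_loc (x.in_i hc) h9
  have h6 := h5 _ h4
  rw [smul_eq_mul, inv_mul_cancel_left₀ (X.t_ne _), smul_eq_mul, mul_smul] at h6
  exact of_smul_mem hb0 h6

/-- a socle element gives an overlattice of colength one -/
theorem NG.exists_up_soc [IsAlgClosed k] (h : NG X) (hn : 0 < n)
    (hw : ∀ l ∈ van x 1, l • w ∈ Gm N.toLat (e + 1)) (h0 : w ∉ Gm N.toLat e) :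
    ∃ M, One x N M ∧ w ∈ Gm M.toLat e := by
  obtain ⟨M, h1, h2⟩ := exists_up hn (x := x) (N := N) (v := X.t x.i ^ (-e) • w)
    (fun hv => h0 (mem_Gm_of_loc fun y => by
      by_cases hy : y = x
      · exact hy ▸ hv
      · exact h.soc_off hw hy)) fun a ha h0 => h.soc_m hw ha h0
  refine ⟨M, h1, mem_Gm_of_loc fun y => ?_⟩
  by_cases hy : y = x
  · exact hy ▸ h2
  · exact loc_mono h1.le (h.soc_off hw hy)
end soc

/-- hyperplanes of `Γ(M(e))` that contain `Γ(𝔪_x M (e))` -/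
theorem exists_one_of_hyper' [IsAlgClosed k] {X : Defs_781.Var k F 2} (x : Pnt X) {M : XLat X V}
    {m e : ℤ} (hM : RegL M.toLat m) (he : m ≤ e) {H : Submodule k V}
    (h1 : Gm (mX x M).toLat e ≤ H) (h2 : H ≤ Gm M.toLat e)
    (h3 : finrank k H + 1 = finrank k (Gm M.toLat e)) : ∃ N, One x N M ∧ Gm N.toLat e = H := by
  obtain ⟨g, hg, hgH⟩ := SetLike.exists_of_lt (lt_of_le_of_ne h2 fun h4 => by
    rw [h4] at h3; omega)
  obtain ⟨f, hf, h4⟩ := Submodule.exists_dual_map_eq_bot_of_notMem hgH inferInstance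
  have h5 : ∀ w ∈ H, f w = 0 := fun w hw =>
    (Submodule.mem_bot k).1 (h4 ▸ Submodule.mem_map_of_mem hw)
  obtain ⟨μ, h6, h7⟩ := exists_fib_fun (x := x) hM he
    (f ∘ₗ (Gm M.toLat e).subtype) fun w hw => h5 _ (h1 hw)
  obtain ⟨N, h8, h9⟩ := exists_one_of_fun μ
    (fun h0 => hf ((h7 ⟨g, hg⟩).symm.trans (DFunLike.congr_fun h0 _))) h6
  have h10 := h8.finrank_Gm hM he
  exact ⟨N, h8, (Submodule.eq_of_le_of_finrank_le (fun w hw => h8.mem_Gm.2 ⟨h2 hw,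
    (h9 ⟨_, Gm_mem_loc (h2 hw)⟩).1 ((h7 ⟨w, h2 hw⟩).trans (h5 w hw))⟩) (by omega)).symm⟩

end Crest.Agent.N265.Fib

open MvPolynomial Module TensorProduct

namespace Crest.Agent.N265.N
open Crest.Agent.R274
open Defs_781 Lat_781 SnapA_99 SnapB_99 SnapE_99 Gen7_750 Xs1_781 SkDefs_474
open Alg GV Br Fib M _root_.Crest.Agent.N265.Pow
variable {Sg : Surf} {p : ℕ} {k : ℤ} {β : Sg.V.G} {n : ℕ} {I : XL Sg Sg.F}

theorem map_mP_one {b : ℕ} {z : Pt} (hz : z ∈ (Sg.S b).pts) :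
    (mP Sg b 1 z).map (SA Sg 1).subtype = van (pnt Sg b z hz) 1 := Fib.map_mP hz 1

namespace RT
/-- `Γ(𝔪_x I(p)) ≤ ev_z KK_1` -/
theorem mem_ev (h : RT p β n I) {z : Pt} (hz : z ∈ (Sg.S 0).pts) {u : (ad Sg p k).W.V}
    (hu : u ∈ (r1 Sg k).pc I p)
    (h0 : (r1 Sg k).inc p u ∈ Gm (mX (pnt Sg 0 z hz) I).toLat p) :
    u ∈ ((ad Sg p k).KK ((r1 Sg k).pc I p) 1).map ((ad Sg p k).ev 1 z) := by
  obtain ⟨l, hl⟩ := evP_surj Sg 0 1 hz 1
  have h1 : l.1 • (r1 Sg k).inc p u ∈ van (pnt Sg 0 z hz) 1 • Gm I.toLat p := by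
    rw [← (ng Sg).Gm_mX _ h.reg le_rfl, add_comm]
    exact AA_smul_mem (e := 1) ((AA_nat Sg.V 1).ge l.2) h0
  have h2 : van (pnt Sg 0 z hz) 1 • Gm I.toLat p ≤
      (tens ((r1 Sg k).pc I p) (mP Sg 0 1 z)).map ((ad Sg p k).mu 1) := by
    rw [← Amb.map_pc (𝔞 := r1 Sg k) (h.leO k) p, ← map_mP_one hz, Submodule.smul_le]
    rintro _ ⟨a, ha, rfl⟩ _ ⟨v, hv, rfl⟩
    exact ⟨v ⊗ₜ a, tmul_mem hv ha, rfl⟩
  obtain ⟨θ, hθ, e⟩ := h2 h1
  have h3 : (ad Sg p k).ev 1 z θ = 0 :=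
    (tens_le (N := LinearMap.ker ((ad Sg p k).ev 1 z))).2 (fun v _ a ha => by
      rw [LinearMap.mem_ker, AD.ev, evT_tmul, LinearMap.mem_ker.1 ha, zero_smul]) hθ
  refine ⟨u ⊗ₜ l - θ, ⟨sub_mem (tmul_mem hu trivial) (tens_mono le_rfl le_top hθ), ?_⟩, ?_⟩
  · rw [SetLike.mem_coe, LinearMap.mem_ker, map_sub, e, AD.mu_tmul, sub_self]
  · rw [map_sub, h3, sub_zero, AD.ev, evT_tmul, hl, one_smul]

/-- the functional that cuts out `U'` kills `Γ(𝔪_x I(p))` -/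
theorem down (h : RT p β n I) {z : Pt} (hz : z ∈ (Sg.S 0).pts) {U' : Submodule ℂ (ad Sg p k).W.V}
    (hm : (ad Sg p k).Mod ((r1 Sg k).pc I p) U' z) :
    ∃ J : XL Sg Sg.F, LeL J (OX Sg.V.X) ∧ Ty J β (n + 1) ∧ U' = (r1 Sg k).pc J p := by
  have a1 : Gm (mX (pnt Sg 0 z hz) I).toLat p ≤ U'.map ((r1 Sg k).inc p) := fun g hg => by
    obtain ⟨u, hu, rfl⟩ := (Amb.map_pc (𝔞 := r1 Sg k) (h.leO k) p).ge (Gm_mono (elem_mX _ I).le _ hg)
    exact ⟨u, hm.2.2 1 (h.mem_ev hz hu hg), rfl⟩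
  have a2 : U'.map ((r1 Sg k).inc p) ≤ Gm I.toLat p :=
    (Submodule.map_mono hm.1).trans (Amb.map_pc (𝔞 := r1 Sg k) (h.leO k) p).le
  have a3 : finrank ℂ (U'.map ((r1 Sg k).inc p)) + 1 = finrank ℂ (Gm I.toLat p) := by
    rw [← (Submodule.equivMapOfInjective _ ((r1 Sg k).inc_inj p) U').finrank_eq, ← hm.2.1]
    exact Amb.finrank_pc' (h.leO k) p
  obtain ⟨J, h1, h2⟩ := exists_one_of_hyper' (pnt Sg 0 z hz) h.reg le_rfl a1 a2 a3
  obtain ⟨f, hf, h3, h4⟩ := h.ty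
  refine ⟨J, h1.le.trans h.le, ⟨f, hf, h1.fc.trans h3, ?_⟩, ?_⟩
  · rw [h1.fc.len_trans h3, h1.len, h4, add_comm]
  · exact ((congrArg (Submodule.comap ((r1 Sg k).inc p)) h2).trans
      (Submodule.comap_map_eq_of_injective ((r1 Sg k).inc_inj p) U')).symm

/-- the socle condition in terms of the point `x` of `z` -/
theorem van_smul_soc (h : RT p β n I) {z : Pt} (hz : z ∈ (Sg.S 0).pts) {w : (ad Sg p k).W.V}
    (hw : w ∈ (ad Sg p k).soc ((r1 Sg k).pc I p) z) :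
    ∀ l ∈ van (pnt Sg 0 z hz) 1, l • (r1 Sg k).inc p w ∈ Gm I.toLat (p + 1) := by
  intro l hl
  obtain ⟨l, hl', rfl⟩ := (map_mP_one hz).ge hl
  have := (ad Sg p k).mem_soc.1 hw l hl'
  rwa [h.gen_eq, Nat.cast_add, Nat.cast_one, add_comm] at this

/-- `exists_up`, `FC.le_OL`, `FC.regL`, `One.finrank_Gm` -/
theorem up (h : RT p β (n + 1) I) {z : Pt} (hz : z ∈ (Sg.S 0).pts) {w : (ad Sg p k).W.V}
    (hw : w ∈ (ad Sg p k).soc ((r1 Sg k).pc I p) z) (h0 : w ∉ (r1 Sg k).pc I p) :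
    ∃ J, RT p β n J ∧ (r1 Sg k).pc I p ⊔ Submodule.span ℂ {w} = (r1 Sg k).pc J p := by
  obtain ⟨J, h2, h3⟩ := (ng Sg).exists_up_soc two_pos (h.van_smul_soc hz hw) h0
  obtain ⟨f, hf, h4, h5⟩ := h.ty
  have h6 := h4.right h2.le (h2.fc.le_OL h4.le)
  have h7 : RT p β n J := ⟨h2.fc.maps_of_s2 (g := LinearMap.id) s2_OX h.le, ⟨f, hf, h6, by
    rw [h2.fc.len_trans h6, h2.len] at h5
    omega⟩, h2.fc.regL h.reg⟩
  refine ⟨J, h7, Submodule.eq_of_le_of_finrank_eq (sup_le (Amb.pc_mono h2.le p)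
    ((Submodule.span_singleton_le_iff_mem _ _).2 h3)) ?_⟩
  rw [Submodule.finrank_sup_span_singleton h0, Amb.finrank_pc' (h.leO k),
    Amb.finrank_pc' (h7.leO k), h2.finrank_Gm h7.reg le_rfl]
end RT

end Crest.Agent.N265.N
end
end

-- ▼ part N265/Fib/Soc
section

/-!
# Row 265, fibrewise theory: `Soc (O/I)_x = Tor₁(I, ℂ_x)`, local part
-/

set_option autoImplicit false
set_option linter.unusedSectionVars false
noncomputable section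

namespace Crest.Agent.N265.Fib

open Crest.Agent.R274
open Cx_781 Defs_781 Ses_781 Lat_781 Ser_781 SnapA_99 SnapB_99 SnapC_99 SnapD_99 SnapE_99 Gen7_750
open Xs1_781 Filter SkDefs_474 Module Pnt Br N MvPolynomial

universe u

section Loc
variable {k : Type u} [Field k] {F : Type u} [Field F] [Algebra k F] {n : ℕ}
  {X : Defs_781.Var k F n}
  {V : Type u} [AddCommGroup V] [Module k V] [Module F V] [IsScalarTower k F V]
  {ι : Type} [Fintype ι] {x : Pnt X} {a b e : F} {u : ι → V} {M : XLat X V}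

/-- two generators of the maximal ideal are parameters -/
theorem par_of_gen (hn : 0 < n) (hs : S2At x (OX X)) (ha : a ∈ x.O) (hb : b ∈ x.O)
    (va : x.val a = 0) (vb : x.val b = 0)
    (gen : ∀ f ∈ x.O, x.val f = 0 → ∃ c ∈ x.O, ∃ d ∈ x.O, f = c * a + d * b) : Par x a b := by
  have s2 : ∀ w, a * w ∈ x.O → b * w ∈ x.O → w ∈ x.O := fun w h1 h2 =>
    mem_loc_OX.1 (hs w fun f hf h0 => mem_loc_OX.2 (by
      obtain ⟨c, hc, d, hd, rfl⟩ := gen f hf h0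
      rw [smul_eq_mul, add_mul, mul_assoc, mul_assoc]
      exact add_mem (mul_mem hc h1) (mul_mem hd h2)))
  have h0 : ¬ (a = 0 ∧ b = 0) := fun h => by
    obtain ⟨f, hf, h1, h2⟩ := x.exists_m_ne hn
    obtain ⟨c, -, d, -, e⟩ := gen f hf h1
    exact h2 (by rw [e, h.1, h.2, mul_zero, mul_zero, add_zero])
  refine ⟨ha, hb, va, vb, fun h => ?_, fun h => ?_, gen, s2⟩
  · have b0 : b ≠ 0 := fun h' => h0 ⟨h, h'⟩
    exact val_ne_of_inv hb b0 (s2 _ (by rw [h, zero_mul]; exact zero_mem _)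
      (by rw [mul_inv_cancel₀ b0]; exact one_mem _)) vb
  · have a0 : a ≠ 0 := fun h' => h0 ⟨h', h⟩
    exact val_ne_of_inv ha a0 (s2 _ (by rw [mul_inv_cancel₀ a0]; exact one_mem _)
      (by rw [h, zero_mul]; exact zero_mem _)) va

/-- if the Koszul syzygy of `w` is in `𝔪 B` then `w` is in `M` -/
theorem Par.soc_inj (h : Par x a b) (hu : ∀ l, u l ∈ x.loc M) (he : x.val e ≠ 0) {ξ η : ι → F}
    (hξ : ∀ l, ξ l ∈ x.O) (hη : ∀ l, η l ∈ x.O) {w : V} (e₁ : lc F u ξ = a • w)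
    {κ : LinearMap.ker (lc F u)} (hκ : κ ∈ x.m • x.loc (syz X u))
    (e₂ : κ.1 = e • (b • ξ - a • η)) : w ∈ x.loc M := by
  obtain ⟨p, hp, q, hq, rfl⟩ := h.mem_m_iff.1 hκ
  have he' := mem_of_val he
  obtain ⟨ω, hω, -, h3⟩ := h.rel (M := OP X ι) (S2At.piX fun _ => h.s2_OX)
    (p := e • η + p.1) (q := e • ξ - q.1)
    (mem_loc_OP.2 fun l => add_mem (mul_mem he' (hη l)) (mem_loc_syz.1 hp l))
    (mem_loc_OP.2 fun l => sub_mem (mul_mem he' (hξ l)) (mem_loc_syz.1 hq l)) (by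
      have : a • p.1 + b • q.1 = e • (b • ξ - a • η) := e₂
      rw [smul_add, smul_sub, eq_sub_iff_add_eq, add_assoc, this]
      module)
  have h4 := congrArg (lc F u) h3
  rw [map_sub, LinearMap.mem_ker.1 q.2, sub_zero, map_smul, map_smul, e₁, smul_comm] at h4
  refine of_smul_mem he ?_
  rw [smul_right_injective V h.a0 h4]
  exact lc_mem_loc hu (mem_loc_OP.1 hω)

/-- a syzygy that vanishes at `x` is a Koszul syzygy -/
theorem Par.exists_kos (h : Par x a b) (he : x.val e ≠ 0) {c : ι → F}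
    (hc : ∀ l, c l ∈ x.O ∧ x.val (c l) = 0) (h0 : lc F u c = 0) : ∃ (ξ η : ι → F) (w : V),
      (∀ l, ξ l ∈ x.O) ∧ (∀ l, η l ∈ x.O) ∧ lc F u ξ = a • w ∧ lc F u η = b • w ∧
      c = e • (b • ξ - a • η) := by
  choose p hp q hq hpq using fun l => h.gen (c l) (hc l).1 (hc l).2
  have e0 := ne_of_val he
  have h1 : c = e • (b • e⁻¹ • q - a • (-e⁻¹) • p) := _root_.funext fun l => by
    simp only [Pi.smul_apply, Pi.sub_apply, smul_eq_mul, hpq l]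
    field_simp
    ring
  refine ⟨e⁻¹ • q, (-e⁻¹) • p, a⁻¹ • lc F u (e⁻¹ • q), fun l => mul_mem (inv_mem he) (hq l),
    fun l => mul_mem (neg_mem (inv_mem he)) (hp l), (smul_inv_smul₀ h.a0 _).symm, ?_, h1⟩
  rw [h1, map_smul, smul_eq_zero_iff_right e0, map_sub, sub_eq_zero, map_smul _ b,
    map_smul _ a] at h0
  rw [smul_comm, h0, inv_smul_smul₀ h.a0]

/-- the Koszul syzygy modulo `𝔪 B` depends only on `w` modulo `M` -/
theorem Par.kos_sub (h : Par x a b) (hg : Gens u M) (he : e ∈ x.O) {ξ η ξ' η' : ι → F}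
    (hξ : ∀ l, ξ l ∈ x.O) (hη : ∀ l, η l ∈ x.O) (hξ' : ∀ l, ξ' l ∈ x.O) (hη' : ∀ l, η' l ∈ x.O)
    {w w' : V} (e₁ : lc F u ξ = a • w) (e₂ : lc F u η = b • w) (e₁' : lc F u ξ' = a • w')
    (e₂' : lc F u η' = b • w') (hw : w - w' ∈ x.loc M) {κ : LinearMap.ker (lc F u)}
    (hκ : κ.1 = e • (b • ξ - a • η) - e • (b • ξ' - a • η')) : κ ∈ x.m • x.loc (syz X u) := by
  obtain ⟨ω, hω, e₃⟩ := (hg x _).1 hw
  refine h.mem_m_iff.2 ⟨⟨-e • (η - η' - b • ω), ?_⟩, mem_loc_syz.2 fun l => ?_,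
    ⟨e • (ξ - ξ' - a • ω), ?_⟩, mem_loc_syz.2 fun l => ?_, Subtype.ext ?_⟩
  · rw [LinearMap.mem_ker, map_smul, map_sub, map_sub, map_smul, e₂, e₂', e₃]; module
  · exact mul_mem (neg_mem he) (sub_mem (sub_mem (hη l) (hη' l)) (mul_mem h.hb (hω l)))
  · rw [LinearMap.mem_ker, map_smul, map_sub, map_sub, map_smul, e₁, e₁', e₃]; module
  · exact mul_mem he (sub_mem (sub_mem (hξ l) (hξ' l)) (mul_mem h.ha (hω l)))
  · rw [hκ]
    show _ = a • -e • (η - η' - b • ω) + b • e • (ξ - ξ' - a • ω)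
    module

/-- a vector that is killed by `V_x` lies in `M` away from `x` -/
theorem NG.mem_Gm_of_van [IsAlgClosed k] (h : NG X) {p : ℤ} {w : V}
    (h1 : ∀ l ∈ van x 1, l • w ∈ Gm M.toLat (1 + p)) (h2 : X.t x.i ^ (-p) • w ∈ x.loc M) :
    w ∈ Gm M.toLat p := by
  refine mem_Gm_of_loc fun y => ?_
  by_cases hy : y = x
  · exact hy ▸ h2
  obtain ⟨l, hl, hl'⟩ := SetLike.not_le_iff_exists.1 fun H => hy (h.eq_of_van H)
  refine of_smul_mem (a := X.t y.i ^ (-1 : ℤ) * l)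
    (fun H => hl' (mem_van.2 ⟨van_le _ _ hl, H⟩)) ?_
  have := Gm_mem_loc (x := y) (h1 l hl)
  rwa [smul_smul, neg_add, zpow_add₀ (X.t_ne _), mul_right_comm, mul_smul] at this
end Loc

section Two
variable {k : Type u} [Field k] {F : Type u} [Field F] [Algebra k F] {S : SmV k F 2}
  [IsAlgClosed k]

/-- socle vectors come from sections -/
theorem exists_soc_sec {I : XLat S.X F} (hI : I.toFam.LE (OX S.X).toFam) {p : ℤ}
    (hr : RegL I.toLat p) {x : Pnt S.X} {v : F}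
    (hm : ∀ a ∈ x.O, x.val a = 0 → a • v ∈ x.loc I) : ∃ g ∈ AA S.X p,
      (∀ l ∈ van x 1, l • g ∈ Gm I.toLat (p + 1)) ∧ v - S.X.t x.i ^ (-p) • g ∈ x.loc I := by
  by_cases hv : v ∈ x.loc I
  · exact ⟨0, zero_mem _, fun l _ => by rw [smul_zero]; exact zero_mem _, by simpa using hv⟩
  obtain ⟨M, h1, h2⟩ := exists_up two_pos hv hm
  obtain ⟨g, hg, h3⟩ := fib_surj (fun d hd => (h1.fc.regL hr).gen hd) x h2
  exact ⟨g, map_Gm_le (h1.fc.maps_of_s2 s2_OX (g := LinearMap.id) fun J hJ y hy => hI J hJ hy) hg,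
    fun l hl => h1.van_smul_le p (Submodule.smul_mem_smul hl hg), h1.m h3⟩
end Two

variable {Sg : Surf} {b : ℕ}

/-- **local parameters on the cone are local parameters** -/
theorem par_pnt {z : (Sg.S b).pts} {l₁ l₂ : SA Sg 1} (h1 : l₁ ∈ mP Sg b 1 z.1)
    (h2 : l₂ ∈ mP Sg b 1 z.1) (h : LocGen (Sg.S b) b z (evS Sg b 1 l₁) (evS Sg b 1 l₂)) :
    Par (pnt Sg b z.1 z.2) (Sg.V.X.t (pnt Sg b z.1 z.2).i ^ (-1 : ℤ) * l₁.1)
      (Sg.V.X.t (pnt Sg b z.1 z.2).i ^ (-1 : ℤ) * l₂.1) := by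
  obtain ⟨c, hc, hx⟩ := evP_pnt z.2
  have h3 := (mem_van.1 ((mem_mP_iff (hz := z.2)).1 h1)).2
  have h4 := (mem_van.1 ((mem_mP_iff (hz := z.2)).1 h2)).2
  have h5 := fun (m : ℕ) (f : SA Sg m) => mem_mP_iff (hz := z.2) (f := f)
  generalize pnt Sg b z.1 z.2 = x at hx h3 h4 h5 ⊢
  have hA : ∀ (m : ℕ) (f : SA Sg m), Sg.V.X.t x.i ^ (-(m : ℤ)) * f.1 ∈ x.O := fun m f =>
    AA_mem_O ((AA_nat Sg.V m).ge f.2)
  refine par_of_gen two_pos (s2_OX x) (hA 1 l₁) (hA 1 l₂) h3 h4 fun f hf h0 => ?_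
  set s : Sg.F := c • Sg.V.X.t x.i ^ (-1 : ℤ) with hs
  have hT : ∀ v, (s • Sg.T b) v ∈ x.O := fun v => by
    rw [Pi.smul_apply, hs, smul_assoc, smul_eq_mul]
    exact x.O.smul_mem (hA 1 ⟨_, T_mem Sg b v⟩) c
  have h6 : aeval (s • Sg.T b) = x.O.val.comp (aeval fun v => (⟨_, hT v⟩ : x.O)) :=
    algHom_ext fun v => by simp
  have h7 : ∀ r : R, aeval (s • Sg.T b) r ∈ x.O := fun r => by rw [h6]; exact Subtype.prop _
  have h8 : ∀ r : R, x.val (aeval (s • Sg.T b) r) = eval z.1 r := fun r => by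
    have : aeval z.1 = x.ev.comp (aeval fun v => (⟨_, hT v⟩ : x.O)) := algHom_ext fun v => by
      rw [aeval_X, AlgHom.comp_apply, aeval_X, ev_apply, ← evP_T z.2, hx, pow_one]
      show _ = x.val (s * Sg.T b v)
      rw [hs, smul_mul_assoc]
      exact (val_smul c (hA 1 ⟨_, T_mem Sg b v⟩)).symm
    rw [← coe_aeval_eq_eval]
    show _ = aeval z.1 r
    rw [this, h6]
    rfl
  have h9 : ∀ (m : ℕ) (g : SA Sg m), ∃ r : R, (∀ y, evS Sg b m g y = eval y.1 r) ∧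
      aeval (s • Sg.T b) r = c ^ m • (Sg.V.X.t x.i ^ (-(m : ℤ)) * g.1) := fun m g => by
    obtain ⟨r, hr, hr', e⟩ := Sg.exists_hmg b g.2
    refine ⟨r, evS_spec Sg b g hr e, (aeval_smul_hom _ s hr').trans ?_⟩
    rw [e, hs, smul_pow, smul_mul_assoc, ← zpow_natCast (_ ^ _), ← zpow_mul, neg_one_mul]
  obtain ⟨β, hβ, hβ0, hβf⟩ := x.in_i.exists_den (Finset.singleton_nonempty _) (mem_loc_OX.2 hf)
  obtain ⟨m, g, hg, e⟩ := exists_AA (i := x.i) (a := β • f) hβf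
  have hg' : g ∈ SA Sg m := (AA_nat Sg.V m).le hg
  obtain ⟨ρ, ⟨ρ', hρ⟩, α, ⟨α', hα⟩, γ, ⟨γ', hγ⟩, h10, h11⟩ := h m _ (evS_mem Sg b ⟨g, hg'⟩)
    ((mem_mP Sg b).1 ((h5 m ⟨g, hg'⟩).2 (mem_van.2 ⟨hg, by
      rw [← e, smul_eq_mul, val_mul (mem_of_val hβ0) hf, h0, mul_zero]⟩)))
  obtain ⟨r, hr, er⟩ := h9 m ⟨g, hg'⟩
  obtain ⟨r₁, hr₁, er₁⟩ := h9 1 l₁
  obtain ⟨r₂, hr₂, er₂⟩ := h9 1 l₂
  have h12 : ρ' * r - (α' * r₁ + γ' * r₂) ∈ cI (Sg.T b) := Sg.S_I b ▸ fun y hy => by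
    have := congrFun h11 ⟨y, hy⟩
    simp only [Pi.mul_apply, Pi.add_apply, hρ, hα, hγ, hr, hr₁, hr₂] at this
    simp only [map_sub, map_add, map_mul, this, sub_self]
  have h13 := aeval_of_mem h12 s
  rw [map_sub, map_add, map_mul, map_mul, map_mul, er, er₁, er₂, sub_eq_zero, ← e] at h13
  have h14 : x.val (aeval (s • Sg.T b) ρ' * (c ^ m • β)) ≠ 0 := val_mul_ne
    (by rw [h8, ← hρ]; exact h10)
    (by rw [val_smul _ (mem_of_val hβ0)]; exact mul_ne_zero (pow_ne_zero _ hc) hβ0)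
  refine ⟨_, mul_mem (inv_mem h14) (x.O.smul_mem (h7 α') c), _,
    mul_mem (inv_mem h14) (x.O.smul_mem (h7 γ') c), ?_⟩
  rw [mul_assoc, mul_assoc _⁻¹, ← mul_add, eq_inv_mul_iff_mul_eq₀ (ne_of_val h14)]
  simp only [pow_one, Nat.cast_one, smul_eq_mul, mul_smul_comm, smul_mul_assoc] at h13 ⊢
  rw [← h13, mul_assoc]

end Crest.Agent.N265.Fib
end
end

-- ▼ part N265/N/FwB
section

/-!
# Row 265, layer N, task N-FW b: `Soc (O/I)_z = Tor₁(I, ℂ_z)`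
-/

set_option autoImplicit false
noncomputable section
open MvPolynomial Module TensorProduct

namespace Crest.Agent.N265.N
open Crest.Agent.R274
open Defs_781 Lat_781 SnapA_99 SnapB_99 SnapE_99 Gen7_750 Xs1_781 SkDefs_474
open Alg GV Br Fib M _root_.Crest.Agent.N265.Pow
variable {Sg : Surf} {p : ℕ} {k : ℤ} {β : Sg.V.G} {n : ℕ} {I : XL Sg Sg.F}

namespace FwB
variable {α : AD Sg} {U : Submodule ℂ α.W.V} {j : ℕ} {x y : SA Sg 1} {u : SA Sg j}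
  {ξ η : (WA Sg α.W 1).V}
lemma lT_mem {m l : ℕ} (f : SA Sg m →ₗ[ℂ] SA Sg l) {t : α.W.V ⊗[ℂ] SA Sg m} (ht : t ∈ tens U ⊤) :
    LinearMap.lTensor _ f t ∈ tens U ⊤ :=
  Hm.tens_ind ht (by simp) (fun _ hv _ _ => tmul_mem hv Submodule.mem_top) fun _ _ h h' => by
    rw [map_add]; exact add_mem h h'
lemma mF_kos {N : Type} [AddCommGroup N] [Module ℂ N] [Module Sg.F N] [IsScalarTower ℂ Sg.F N]
    (f : α.W.V →ₗ[ℂ] N) : mF f (j + 1 + 1) (α.kos j x y u ξ η) =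
      (y.1 * u.1) • mF f 1 ξ - (x.1 * u.1) • mF f 1 η :=
  (map_sub _ _ _).trans (congrArg₂ _ (Hm.mF_lT f _ ξ) (Hm.mF_lT f _ η))
lemma kos_mem (hξ : ξ ∈ tens U ⊤) (hη : η ∈ tens U ⊤) {w : α.M} (e₁ : α.mu 1 ξ = x.1 • w)
    (e₂ : α.mu 1 η = y.1 • w) : α.kos j x y u ξ η ∈ α.KK U (j + 1 + 1) :=
  ⟨sub_mem (lT_mem _ hξ) (lT_mem _ hη), (mF_kos α.emb).trans (by
    rw [show mF α.emb 1 ξ = _ from e₁, show mF α.emb 1 η = _ from e₂]; module)⟩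
lemma co_kos {t : Sg.F} (ht : t ≠ 0) : t ^ (-((j + 1 + 1 : ℕ) : ℤ)) •
    Hm.co U (j + 1 + 1) (α.kos j x y u ξ η) = (t ^ (-(j : ℤ)) * u.1) •
      ((t ^ (-1 : ℤ) * y.1) • t ^ (-1 : ℤ) • Hm.co U 1 ξ -
        (t ^ (-1 : ℤ) * x.1) • t ^ (-1 : ℤ) • Hm.co U 1 η) := by
  rw [show Hm.co U (j + 1 + 1) (α.kos j x y u ξ η) = (y.1 * u.1) • Hm.co U 1 ξ -
    (x.1 * u.1) • Hm.co U 1 η from mF_kos _, Nat.cast_succ, Nat.cast_succ, neg_add, neg_add,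
    zpow_add₀ ht, zpow_add₀ ht]
  module
lemma co_O (P : Pnt Sg.V.X) (ξ : (WA Sg α.W j).V) (l : Hm.Ix U) :
    (Sg.V.X.t P.i ^ (-(j : ℤ)) • Hm.co U j ξ) l ∈ P.O := Pnt.AA_mem_O (Hm.co_AA ξ l)
lemma val_ne {z : α.S.pts} (hu : u ∉ mP Sg α.b j z.1) : (pnt Sg α.b z.1 z.2).val
    (Sg.V.X.t (pnt Sg α.b z.1 z.2).i ^ (-(j : ℤ)) * u.1) ≠ 0 := fun h =>
  hu (mem_mP_iff.2 (mem_van.2 ⟨SA_mem_AA u, h⟩))
lemma lc_co {𝔞 : M.Amb Sg} {L : XL Sg 𝔞.M} {ξ : (WA Sg (𝔞.G p) 1).V} (hξ : ξ ∈ tens (𝔞.pc L p) ⊤)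
    {w : 𝔞.M} {c : Sg.F} (e : mF (𝔞.inc p) 1 ξ = c • w) (s : Sg.F) :
    lc Sg.F (𝔞.fr L p) (s • Hm.co (𝔞.pc L p) 1 ξ) = (s * c) • w := by
  rw [map_smul, M.Amb.lc_fr hξ, e, mul_smul]
lemma leO (h : RT p β n I) (k : ℤ) : LeL I (r1 Sg k).O := fun J hJ _ hv =>
  (r1_O k).symm.le J hJ (h.le J hJ hv)
end FwB
open FwB

namespace RT
/-- `kos = a β₁ + b β₂` in `𝔪_x B_x` gives `a (u η + β₁) = b (u ξ - β₂)`, so (`Par.rel` in the free
`A_x`) `u ξ - β₂ = a ω`, hence `a u w = a μ(ω)`, `w ∈ I_x`; at `y ≠ x` some `l ∈ V_z` is a unit -/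
theorem soc_inj (h : RT p β n I) (_hp : 2 ≤ p) {j : ℕ} (hj : 2 ≤ j) {z : (Sg.S 0).pts}
    {x y : SA Sg 1} (hxy : (ad Sg p k).Par z x y) {u : SA Sg j} (hu : u ∉ mP Sg 0 j z.1)
    {w : (ad Sg p k).W.V} (hw : w ∈ (ad Sg p k).soc ((r1 Sg k).pc I p) z.1)
    {ξ η : (WA Sg (ad Sg p k).W 1).V} (hξ : ξ ∈ tens ((r1 Sg k).pc I p) ⊤)
    (hη : η ∈ tens ((r1 Sg k).pc I p) ⊤)
    (e₁ : (ad Sg p k).mu 1 ξ = x.1 • (ad Sg p k).emb w)
    (e₂ : (ad Sg p k).mu 1 η = y.1 • (ad Sg p k).emb w)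
    (e : (ad Sg p k).kos j x y u ξ η ∈ (ad Sg p k).ZK ((r1 Sg k).pc I p) (j + 1) z.1) :
    w ∈ (r1 Sg k).pc I p := by
  refine (ng Sg).mem_Gm_of_van (x := pnt Sg 0 z.1 z.2) (fun l hl => ?_) (Pnt.mem_loc_twX.1
    ((par_pnt hxy.1 hxy.2.1 hxy.2.2).soc_inj (fun l => Pnt.mem_loc_twX.2
      (Pnt.Gm_mem_loc (M.Amb.fr_mem (𝔞 := r1 Sg k) (L := I) l))) (val_ne (α := ad Sg p k) hu)
      (co_O (α := ad Sg p k) _ ξ) (co_O (α := ad Sg p k) _ η) (lc_co hξ e₁ _)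
      ((M.Amb.mem_ZK_iff (𝔞 := r1 Sg k) (L := I) (leO h k) h.reg (hj.trans j.le_succ) z.2
        (kos_mem hξ hη e₁ e₂)).1 e)
      (co_kos (α := ad Sg p k) (Sg.V.X.t_ne _))))
  obtain ⟨l, hl', rfl⟩ := (Fib.map_mP z.2 1).ge hl
  obtain ⟨t, ht, e⟩ := (ad Sg p k).mem_soc.1 hw l hl'
  have := mF_mem (f := (r1 Sg k).inc p) (L := I) (j := p) (fun _ hv => hv) ht
  rw [Nat.cast_add, Nat.cast_one] at this
  exact e ▸ this
/-- `κ ∈ 𝔪_x A_x`, `κ = u (b ξ₀ - a η₀)`, `b μ(ξ₀) = a μ(η₀)`, so `μ(ξ₀) = a w₀`, `μ(η₀) = b w₀` with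
`𝔪_x w₀ ≤ I_x`; a section `w` has `w ≡ w₀` modulo `I_x` (`exists_soc_sec`); compare the two Koszul
elements (`Par.kos_sub`). -/
theorem soc_surj (h : RT p β n I) (_hp : 2 ≤ p) {j : ℕ} (hj : 2 ≤ j) {z : (Sg.S 0).pts}
    {x y : SA Sg 1} (hxy : (ad Sg p k).Par z x y) {u : SA Sg j} (hu : u ∉ mP Sg 0 j z.1)
    {κ : (WA Sg (ad Sg p k).W (j + 1 + 1)).V} (hκ : κ ∈ (r1 Sg k).KK I p (j + 1 + 1))
    (h0 : (ad Sg p k).ev _ z.1 κ = 0) :
    ∃ w ∈ (ad Sg p k).soc ((r1 Sg k).pc I p) z.1, ∃ ξ ∈ tens ((r1 Sg k).pc I p) ⊤,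
      ∃ η ∈ tens ((r1 Sg k).pc I p) ⊤, (ad Sg p k).mu 1 ξ = x.1 • (ad Sg p k).emb w ∧
        (ad Sg p k).mu 1 η = y.1 • (ad Sg p k).emb w ∧
        (ad Sg p k).kos j x y u ξ η - κ ∈ (ad Sg p k).ZK ((r1 Sg k).pc I p) (j + 1) z.1 := by
  have hP := par_pnt hxy.1 hxy.2.1 hxy.2.2
  have hg := M.Amb.gens_fr (𝔞 := r1 Sg k) (L := I) (leO h k) h.reg
  have he := val_ne (α := ad Sg p k) hu
  obtain ⟨ξ₀, η₀, w₀, h1, h2, e₁, e₂, e₃⟩ := hP.exists_kos (u := (r1 Sg k).fr I p) he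
    (fun l => ⟨co_O (α := ad Sg p k) _ κ l,
      (mem_van.1 ((Hm.evz_eq_zero_iff z.2 hκ.1).1 h0 l)).2⟩)
    (by rw [map_smul, LinearMap.mem_ker.1 (M.Amb.co_ker hκ), smul_zero])
  obtain ⟨g, hg1, hg2, hg3⟩ := exists_soc_sec h.le h.reg (x := pnt Sg 0 z.1 z.2)
    (v := Sg.V.X.t (pnt Sg 0 z.1 z.2).i ^ (-(p : ℤ)) • w₀) fun a ha a0 => by
      rw [smul_comm]
      exact Pnt.mem_loc_twX.1 (hP.smul_mem ((hg _ _).2 ⟨_, h1, e₁⟩) ((hg _ _).2 ⟨_, h2, e₂⟩) ha a0)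
  let w : (ad Sg p k).W.V := fun _ => ⟨g, (SA_eq p).ge hg1⟩
  have hw : w ∈ (ad Sg p k).soc ((r1 Sg k).pc I p) z.1 := (ad Sg p k).mem_soc.2 fun l hl =>
    (M.Amb.map_mF_pc (𝔞 := r1 Sg k) (L := I) (leO h k) h.reg le_rfl 1).ge (by
      rw [Nat.cast_add, Nat.cast_one, add_comm]
      exact hg2 _ (mem_mP_iff.1 hl))
  obtain ⟨ξ, hξ, f₁⟩ := (ad Sg p k).mem_soc.1 hw x hxy.1
  obtain ⟨η, hη, f₂⟩ := (ad Sg p k).mem_soc.1 hw y hxy.2.1
  refine ⟨w, hw, ξ, hξ, η, hη, f₁, f₂, (M.Amb.mem_ZK_iff (𝔞 := r1 Sg k) (L := I) (leO h k) h.reg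
    (hj.trans j.le_succ) z.2 (sub_mem (kos_mem hξ hη f₁ f₂) hκ)).2 (hP.kos_sub hg
      (Pnt.mem_of_val he)
      (co_O (α := ad Sg p k) _ ξ) (co_O (α := ad Sg p k) _ η) h1 h2 (lc_co hξ f₁ _) (lc_co hη f₂ _)
      e₁ e₂ (Pnt.mem_loc_twX.2 ?_) ?_)⟩
  · rw [← neg_sub, smul_neg, smul_sub]
    exact neg_mem hg3
  · rw [← e₃]
    exact ((congrArg _ (map_sub (Hm.co ((r1 Sg k).pc I p) (j + 1 + 1)) _ κ)).trans
      (smul_sub _ _ _)).trans (congrArg (· - _) (co_kos (α := ad Sg p k) (Sg.V.X.t_ne _)))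
end RT

end Crest.Agent.N265.N
end
end

-- ▼ part N265/Fib/KS
section

/-!
# Row 265, fibrewise theory: `Hom(I, O/I) → Hom(Tor₁(I, ℂ_x), I|_x)` is onto, local part
-/

set_option autoImplicit false
set_option linter.unusedSectionVars false
noncomputable section

namespace Crest.Agent.N265.Fib

open Crest.Agent.R274
open Cx_781 Defs_781 Ses_781 Lat_781 Ser_781 SnapA_99 SnapB_99 SnapC_99 SnapD_99 SnapE_99 Gen7_750
open Xs1_781 Filter SkDefs_474 Module Pnt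

universe u

section Loc
variable {k : Type u} [Field k] {F : Type u} [Field F] [Algebra k F] {n : ℕ}
  {X : Defs_781.Var k F n}
  {V : Type u} [AddCommGroup V] [Module k V] [Module F V] [IsScalarTower k F V]
  {ι : Type} [Fintype ι] {x : Pnt X} {u : ι → V} {M : XLat X V}

/-- a functional on the fibre of a free module lifts -/
theorem FreeAt.exists_lift {b : Basis ι F V} (h : FreeAt x M b) (μ : x.loc M →ₗ[k] k)
    (hμ : ∀ v : x.loc M, v.1 ∈ x.m • x.loc M → μ v = 0) : ∃ ψ : V →ₗ[F] F,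
      ∀ v (hv : v ∈ x.loc M), ψ v ∈ x.O ∧ x.val (ψ v) = μ ⟨v, hv⟩ := by
  refine ⟨b.constr F fun a => algebraMap k F (μ ⟨_, h.basis_mem a⟩), fun v hv => ?_⟩
  have h1 := (h v).1 hv
  have h2 : ∀ a, b.equivFun v a • algebraMap k F (μ ⟨_, h.basis_mem a⟩) ∈ x.O := fun a =>
    mul_mem (h1 a) (x.O.algebraMap_mem _)
  have h3 := hμ (⟨v, hv⟩ - ∑ a, x.val (b.repr v a) • ⟨_, h.basis_mem a⟩) (by
    rw [Submodule.coe_sub, Submodule.coe_sum]
    conv => enter [2, 1]; rw [Subtype.coe_mk, ← b.sum_repr v]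
    rw [← Finset.sum_sub_distrib]
    exact Submodule.sum_mem _ fun a _ => Pnt.smul_sub_mem (h1 a) (h.basis_mem a))
  rw [map_sub, sub_eq_zero, map_sum] at h3
  rw [Basis.constr_apply_fintype, h3, val_sum _ h2]
  refine ⟨Subalgebra.sum_mem _ fun a _ => h2 a, Finset.sum_congr rfl fun a _ => ?_⟩
  rw [smul_eq_mul, Basis.equivFun_apply, val_mul (h1 a) (x.O.algebraMap_mem _), val_const,
    map_smul, smul_eq_mul]

/-- `Tor₁`: a vector with image in `𝔪 M` has the value of a syzygy -/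
theorem Gens.exists_val (hg : Gens u M) {a : ι → F} (ha : ∀ l, a l ∈ x.O)
    (h : lc F u a ∈ x.m • x.loc M) : ∃ s ∈ x.loc (syz X u), ∀ l, x.val (s.1 l) = x.val (a l) := by
  have key : ∀ v ∈ x.m • x.loc M, ∃ c : ι → F, (∀ l, c l ∈ x.O ∧ x.val (c l) = 0) ∧
      lc F u c = v := fun v hv => by
    refine Submodule.smul_induction_on (p := fun v => ∃ c : ι → F,
      (∀ l, c l ∈ x.O ∧ x.val (c l) = 0) ∧ lc F u c = v) hv (fun r hr w hw => ?_) ?_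
    · obtain ⟨c, hc, rfl⟩ := (hg x w).1 hw
      exact ⟨r.1 • c, fun l => ⟨mul_mem r.2 (hc l), (val_mul r.2 (hc l)).trans
        (by rw [mem_m.1 hr, zero_mul])⟩, map_smul _ _ _⟩
    · rintro _ _ ⟨c, hc, rfl⟩ ⟨d, hd, rfl⟩
      exact ⟨c + d, fun l => ⟨add_mem (hc l).1 (hd l).1, (val_add (hc l).1 (hd l).1).trans
        (by rw [(hc l).2, (hd l).2, add_zero])⟩, map_add _ _ _⟩
  obtain ⟨c, hc, e⟩ := key _ h
  exact ⟨⟨a - c, by rw [LinearMap.mem_ker, map_sub, e, sub_self]⟩,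
    mem_loc_syz.2 fun l => sub_mem (ha l) (hc l).1,
    fun l => (val_sub (ha l) (hc l).1).trans (by rw [(hc l).2, sub_zero])⟩
end Loc

section Two
variable {k : Type u} [Field k] {F : Type u} [Field F] [Algebra k F] {S : SmV k F 2}
  [IsAlgClosed k] {V : Type u} [AddCommGroup V] [Module k V] [Module F V] [IsScalarTower k F V]
  {ι : Type} [Fintype ι]

/-- sections of `M(p)` fill `M/N = ⊕_y M_y/N_y` -/
theorem FC.exists_glob {N M : XLat S.X V} (h : FC N M) {p : ℤ} (hr : RegL N.toLat p)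
    (v : Pnt S.X → V) (hv : ∀ y : Pnt S.X, v y ∈ y.loc M) : ∃ g ∈ Gm M.toLat p,
      ∀ y : Pnt S.X, v y - S.X.t y.i ^ (-p) • g ∈ y.loc N := by
  generalize hl : len N M = l
  induction l generalizing N with
  | zero => exact ⟨0, zero_mem _, fun y => by
      rw [smul_zero, sub_zero, loc_congr (h.eqv_of_len hl)]; exact hv y⟩
  | succ l ih =>
    obtain ⟨x, N', h1, h2, h3⟩ := h.exists_bot hl
    have hr' := h1.fc.regL hr
    obtain ⟨g, hg, H⟩ := ih h2 hr' h3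
    obtain ⟨g', hg', H'⟩ := fib_surj (fun d hd => hr'.gen hd) x (H x)
    refine ⟨g + g', add_mem hg (Gm_mono h2.le p hg'), fun y => ?_⟩
    rw [smul_add, ← sub_sub]
    by_cases e : y = x
    · exact e ▸ h1.m H'
    · exact h1.off y e (sub_mem (H y) (Gm_mem_loc hg'))

/-- the extension `a ↦ ψ (u₀ a - μ(a) e)` of `u₀ ψ`, made global -/
theorem Gens.exists_ks {I : XLat S.X F} {D : S.G} {p : ℤ} (h : FC I (OL S.T D))
    (hr : RegL I.toLat p) {u : ι → F} (hg : Gens u (twX I p)) (x : Pnt S.X) {e : ι → F}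
    (he : ∀ l, e l ∈ x.O) {ψ : LinearMap.ker (lc F u) →ₗ[F] F}
    (hψ : ∀ s ∈ x.loc (syz S.X u), ψ s ∈ x.O) : ∃ φ : ι → F,
      (∀ l, φ l ∈ Gm (OL S.T D).toLat p) ∧
      (∀ (m : ℤ), ∀ s ∈ Gm (syz S.X u).toLat m, lc F φ s.1 ∈ Gm I.toLat (m + p)) ∧
      ∀ s : LinearMap.ker (lc F u), (∀ l, s.1 l ∈ x.O ∧ x.val (s.1 l) = 0) →
        lc F φ s.1 - ψ s • lc F u e ∈ x.m • x.loc (twX I p) := by
  classical
  obtain ⟨g, -, hgen⟩ := exists_gen_OL x D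
  have hc : ∀ a : ι → F, (∀ l, a l ∈ x.O) → g⁻¹ * (S.X.t x.i ^ (-p) * lc F u a) ∈ x.O :=
    fun a ha => (hgen _).1 (loc_mono h.le (mem_loc_twX.1 ((hg x _).2 ⟨a, ha, rfl⟩)))
  let K : (ι → F) →ₗ[F] LinearMap.ker (lc F u) :=
    (lc F u e • LinearMap.id - (lc F u).smulRight e).codRestrict _ fun a => by
      simp [mul_comm]
  have hK : ∀ a l, (K a).1 l = lc F u e * a l - lc F u a * e l := fun _ _ => rfl
  have h1 : ∀ l, S.X.t x.i ^ (-p) • ψ (K (Pi.single l 1)) ∈ x.loc (OL S.T D) := fun l => by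
    have ha : ∀ l', (Pi.single l 1 : ι → F) l' ∈ x.O := fun l' => by
      rw [Pi.single_apply]; split_ifs; exacts [one_mem _, zero_mem _]
    refine (hgen _).2 ?_
    rw [← smul_eq_mul, ← map_smul, ← map_smul]
    refine hψ _ (mem_loc_syz.2 fun l' => ?_)
    convert sub_mem (mul_mem (hc e he) (ha l')) (mul_mem (hc _ ha) (he l')) using 1
    change g⁻¹ * (S.X.t x.i ^ (-p) * (K _).1 l') = _
    rw [hK]; ring
  choose φ hφ H using fun l => h.exists_glob hr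
    (fun y => if y = x then S.X.t x.i ^ (-p) • ψ (K (Pi.single l 1)) else 0) fun y => by
      split_ifs with e
      exacts [e ▸ h1 l, zero_mem _]
  have h2 : ∀ l, φ l - ψ (K (Pi.single l 1)) ∈ x.loc (twX I p) := fun l => mem_loc_twX.2 (by
    have := neg_mem (H l x)
    rwa [if_pos rfl, neg_sub, ← smul_sub] at this)
  have h3 : ∀ s : LinearMap.ker (lc F u), lc F φ s.1 - ψ s • lc F u e =
      lc F (fun l => φ l - ψ (K (Pi.single l 1))) s.1 := fun s => by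
    have e1 : K s.1 = lc F u e • s := Subtype.ext (funext fun l => by
      rw [hK, LinearMap.mem_ker.1 s.2, zero_mul, sub_zero]; rfl)
    have e2 := (ψ ∘ₗ K).pi_apply_eq_sum_univ s.1
    rw [LinearMap.comp_apply, e1, map_smul, smul_eq_mul, mul_comm, ← smul_eq_mul] at e2
    rw [e2, lc_apply, lc_apply, ← Finset.sum_sub_distrib]
    refine Finset.sum_congr rfl fun l _ => ?_
    rw [smul_sub, LinearMap.comp_apply]
    congr 4
    exact funext fun l' => by rw [Pi.single_apply]; exact if_congr eq_comm rfl rfl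
  refine ⟨φ, hφ, fun m s hs => mem_Gm_of_loc fun y => ?_, fun s hs => ?_⟩
  · have h4 := Gm_mem_loc (x := y) hs
    rw [neg_add, add_comm, zpow_add₀ (S.X.t_ne _), mul_smul, ← map_smul]
    refine mem_loc_twX.1 ?_
    by_cases e : y = x
    · subst e
      have := add_mem ((h3 _).symm ▸ lc_mem_loc h2 (mem_loc_syz.1 h4))
        (smul_loc (hψ _ h4) ((hg y _).2 ⟨_, he, rfl⟩))
      rwa [sub_add_cancel] at this
    · refine lc_mem_loc (fun l => mem_loc_twX.2 ?_) (mem_loc_syz.1 h4)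
      have := neg_mem (H l y)
      rwa [if_neg e, zero_sub, neg_neg] at this
  · rw [h3, lc_apply]
    exact Submodule.sum_mem _ fun l _ => mem_m_smul (hs l).1 (hs l).2 (h2 l)
end Two

end Crest.Agent.N265.Fib
end
end

-- ▼ part N265/N/FwC
section

/-!
# Row 265, layer N, task N-FW c: `Hom(I, O/I) → Hom(Tor₁(I, ℂ_z), I|_z)` is onto
-/

set_option autoImplicit false
noncomputable section
open MvPolynomial Module TensorProduct

namespace Crest.Agent.N265.N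
open Crest.Agent.R274
open Defs_781 Lat_781 SnapA_99 SnapB_99 SnapE_99 Gen7_750 Xs1_781 SkDefs_474
open Alg GV Br Fib M _root_.Crest.Agent.N265.Pow
variable {Sg : Surf} {p : ℕ} {k : ℤ} {β : Sg.V.G} {n : ℕ} {I : XL Sg Sg.F}

namespace FwC
/-- a functional on `KK (j + 1)` that kills `V_z KK j` comes from a local map `B_x → O_x` -/
lemma exists_psi {𝔞 : M.Amb Sg} {L : XL Sg 𝔞.M} (le : LeL L 𝔞.O) (hr : RegL L.toLat p) {j : ℕ}
    (hj : 2 ≤ j) {z : Pt} (hz : z ∈ (Sg.S 0).pts) {ψ : Dual ℂ (WA Sg (𝔞.G p) (j + 1)).V}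
    (hψ : ∀ t ∈ mulS Sg (mP Sg 0 1 z) (𝔞.KK L p j), ψ t = 0) :
    ∃ ψ' : LinearMap.ker (lc Sg.F (𝔞.fr L p)) →ₗ[Sg.F] Sg.F,
      (∀ s ∈ (pnt Sg 0 z hz).loc (𝔞.SZ L p), ψ' s ∈ (pnt Sg 0 z hz).O) ∧
      ∀ t (ht : t ∈ 𝔞.KK L p (j + 1)), (pnt Sg 0 z hz).val
        (ψ' (Sg.V.X.t (pnt Sg 0 z hz).i ^ (-((j + 1 : ℕ) : ℤ)) • M.Amb.cz ht)) = ψ t := by
  let ρ : 𝔞.KK L p (j + 1) →ₗ[ℂ] Gm (𝔞.SZ L p).toLat (j + 1 : ℕ) :=
    { toFun := fun t => ⟨_, M.Amb.cz_mem t.2⟩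
      map_add' := fun _ _ => Subtype.ext (Subtype.ext (map_add (Hm.co _ _) _ _))
      map_smul' := fun _ _ => Subtype.ext (Subtype.ext (map_smul (Hm.co _ _) _ _)) }
  let σ := (LinearEquiv.ofBijective ρ ⟨fun t t' e => Subtype.ext (sub_eq_zero.1
    (Hm.co_inj (sub_mem t.2.1 t'.2.1) (by
      rw [map_sub, sub_eq_zero]; exact congrArg (fun g => g.1.1) e))), fun g =>
    let ⟨t, ht, e⟩ := M.Amb.exists_KK g.2
    ⟨⟨t, ht⟩, Subtype.ext e⟩⟩).symm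
  have h1 : ∀ g, M.Amb.cz (σ g).2 = g.1 := fun g => congrArg Subtype.val (σ.symm_apply_apply g)
  obtain ⟨μ, h2, h3⟩ := exists_fib_fun (x := pnt Sg 0 z hz) (M.Amb.reg_SZ le hr)
    (e := (j + 1 : ℕ)) (by omega) (ψ ∘ₗ (𝔞.KK L p (j + 1)).subtype ∘ₗ σ.toLinearMap) fun g hg =>
      hψ _ ((M.Amb.mem_ZK_iff le hr hj hz (σ g).2).2 (h1 g ▸ (mem_Gm_mX.1 hg).2))
  obtain ⟨b, hb⟩ := M.Amb.locF_SZ (L := L) (p := p) (pnt Sg 0 z hz)
  obtain ⟨ψ', h4⟩ := hb.exists_lift μ h2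
  refine ⟨ψ', fun s hs => (h4 s hs).1, fun t ht => ?_⟩
  rw [(h4 _ (Pnt.Gm_mem_loc (M.Amb.cz_mem ht))).2, h3 ⟨_, M.Amb.cz_mem ht⟩]
  exact congrArg (fun t => ψ t.1) (σ.apply_symm_apply ⟨t, ht⟩)
end FwC

namespace RT
theorem ks' (h : RT p β n I) {j : ℕ} (hj : 2 ≤ j) {z : Pt} (hz : z ∈ (Sg.S 0).pts)
    {ψ : Dual ℂ (WA Sg (ad Sg p k).W (j + 1)).V}
    (hψ : ψ ∈ ((ad Sg p k).ZK ((r1 Sg k).pc I p) j z).dualAnnihilator) {u : (ad Sg p k).W.V}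
    (hu : u ∈ (r1 Sg k).pc I p) : ∃ φ : (ad Sg p k).W.V →ₗ[ℂ] (ad Sg p k).W.V,
      (ad Sg p k).HomP ((r1 Sg k).pc I p) φ ∧ ∀ κ ∈ (r1 Sg k).KK I p (j + 1),
      (ad Sg p k).ev (j + 1) z κ = 0 → ∃ θ ∈ tens ((r1 Sg k).pc I p) ⊤,
        (ad Sg p k).mu _ θ = (ad Sg p k).mu _ (LinearMap.rTensor _ φ κ) ∧
        (ad Sg p k).ev (j + 1) z θ - ψ κ • u ∈
          ((r1 Sg k).KK I p (j + 1)).map ((ad Sg p k).ev (j + 1) z) := by
  obtain ⟨c, hc, hev⟩ := evP_pnt hz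
  obtain ⟨ψ', h1, h2⟩ := FwC.exists_psi (𝔞 := r1 Sg k) (h.leO k) h.reg hj hz
    (ψ := (c ^ (j + 1))⁻¹ • ψ) fun t ht => by
      rw [LinearMap.smul_apply, (Submodule.mem_dualAnnihilator _).1 hψ t ht, smul_zero]
  obtain ⟨f, hf, hfc, -⟩ := h.ty
  have hg := M.Amb.gens_fr (𝔞 := r1 Sg k) (L := I) (h.leO k) h.reg
  set x := pnt Sg 0 z hz with hx
  set U := (r1 Sg k).pc I p with hU
  obtain ⟨φ, h3, h4, h5⟩ := hg.exists_ks hfc h.reg x
    (e := fun l => algebraMap ℂ Sg.F (Hm.fc U u l)) (fun l => x.O.algebraMap_mem _) h1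
  have h6 : ∀ l, φ l ∈ SA Sg p := fun l => (SA_eq p).ge (map_Gm_le (hfc.maps_of_s2 s2_OX
    (g := LinearMap.id) fun J hJ y hy => h.le J hJ hy) (h3 l))
  have h7 : ∀ (m : ℕ) κ (hκ : κ ∈ (r1 Sg k).KK I p m), (ad Sg p k).mu m
      (LinearMap.rTensor _ (Hm.fext U fun l _ => ⟨φ l, h6 l⟩) κ) = lc Sg.F φ (M.Amb.cz hκ).1 :=
    fun m κ hκ => by
      rw [ad_mu, Hm.mF_rT, ← Hm.lc_co _ hκ.1]
      exact congrArg (lc Sg.F · _) (funext fun l => congrArg ((r1 Sg k).inc p) (Hm.fext_fu U _ l))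
  have h8 : ∀ (m : ℕ) κ (hκ : κ ∈ (r1 Sg k).KK I p m),
      lc Sg.F φ (M.Amb.cz hκ).1 ∈ (ad Sg p k).gen U m := fun m κ hκ => by
    rw [hU, h.gen_eq, Nat.cast_add]; exact h4 _ _ (M.Amb.cz_mem hκ)
  refine ⟨Hm.fext U fun l _ => ⟨φ l, h6 l⟩, fun κ hκ => (h7 _ κ hκ).symm ▸ h8 _ κ hκ,
    fun κ hκ h0 => ?_⟩
  obtain ⟨θ, hθ, e⟩ := h8 _ κ hκ
  refine ⟨θ, hθ, e.trans (h7 _ κ hκ).symm, ?_⟩
  have hO := fun ξ => FwB.co_O (α := ad Sg p k) (U := U) (j := j + 1) x ξ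
  have h9 := h1 _ (Pnt.Gm_mem_loc (M.Amb.cz_mem hκ))
  obtain ⟨s, hs, h10⟩ := hg.exists_val (x := x)
    (a := Sg.V.X.t x.i ^ (-((j + 1 : ℕ) : ℤ)) • Hm.co U (j + 1) θ -
      ψ' (Sg.V.X.t x.i ^ (-((j + 1 : ℕ) : ℤ)) • M.Amb.cz hκ) •
        fun l => algebraMap ℂ Sg.F (Hm.fc U u l))
    (fun l => sub_mem (hO θ l) (mul_mem h9 (x.O.algebraMap_mem _))) (by
      have := h5 (Sg.V.X.t x.i ^ (-((j + 1 : ℕ) : ℤ)) • M.Amb.cz hκ) fun l =>
        ⟨hO κ l, (mem_van.1 ((Hm.evz_eq_zero_iff hz hκ.1).1 h0 l)).2⟩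
      rw [Submodule.coe_smul, map_smul, ← e] at this
      rw [map_sub, map_smul, map_smul _ (ψ' _), M.Amb.lc_fr hθ]
      exact this)
  obtain ⟨g, hg1, hg2⟩ := fib_surj (e := (j + 1 : ℕ)) (fun d hd =>
    (M.Amb.reg_SZ (𝔞 := r1 Sg k) (h.leO k) h.reg).gen (by omega)) x hs
  obtain ⟨κ', hκ', rfl⟩ := M.Amb.exists_KK (𝔞 := r1 Sg k) hg1
  refine ⟨κ', hκ', ?_⟩
  have h11 : ∀ l, x.val ((Sg.V.X.t x.i ^ (-((j + 1 : ℕ) : ℤ)) • Hm.co U (j + 1) κ') l) =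
      x.val (s.1 l) := fun l => by
    refine (sub_eq_zero.1 ((Pnt.val_sub (mem_loc_syz.1 hs l) (hO κ' l)).symm.trans ?_)).symm
    refine Submodule.smul_induction_on (p := fun v : LinearMap.ker (lc Sg.F ((r1 Sg k).fr I p)) =>
      v.1 l ∈ x.O ∧ x.val (v.1 l) = 0) hg2 (fun r hr w hw => ?_) (fun v w hv hw => ?_) |>.2
    · exact ⟨mul_mem r.2 (mem_loc_syz.1 hw l), (Pnt.val_mul r.2 (mem_loc_syz.1 hw l)).trans
        (by rw [Pnt.mem_m.1 hr, zero_mul])⟩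
    · exact ⟨add_mem hv.1 hw.1, (Pnt.val_add hv.1 hw.1).trans (by rw [hv.2, hw.2, add_zero])⟩
  refine (Hm.evz_eq hκ'.1).trans (eq_sub_of_add_eq (Eq.trans ?_ (Hm.evz_eq hθ).symm))
  rw [← Hm.sum_fc hu, Finset.smul_sum, ← Finset.sum_add_distrib]
  refine Finset.sum_congr rfl fun l _ => ?_
  rw [smul_smul, ← add_smul, hev, hev]
  congr 1
  have h12 := (h11 l).trans ((h10 l).trans
    (Pnt.val_sub (hO θ l) (mul_mem h9 (x.O.algebraMap_mem _))))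
  rw [Pi.smul_apply (ψ' _), smul_eq_mul, Pnt.val_mul h9 (x.O.algebraMap_mem _), Pnt.val_const, h2,
    LinearMap.smul_apply, smul_eq_mul] at h12
  refine (congrArg (c ^ (j + 1) * · + _) h12).trans ?_
  beta_reduce
  rw [mul_sub, ← mul_assoc, mul_inv_cancel_left₀ (pow_ne_zero _ hc), sub_add_cancel]
  rfl
end RT

end Crest.Agent.N265.N
end
end

-- ▼ part N265/N/Fw
section

/-!
# Row 265, layer N, task N-FW: the fibrewise facts `TyOK`, `StepOK` for ideals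

Notation: `x = pnt z`, `t = X.t x.i`, `U = pc I p`, `A = U ⊗ O(-p)`, `B = ker (A → I)` (locally free,
`locF_comapX`), `KK j = Γ(B(p + j))`, `ZK j z = Γ(𝔪_x B(p + j + 1))` for `j ≥ 2` (`NG.Gm_mX`),
`I|_x = U / ev_z KK`.
-/

set_option autoImplicit false
noncomputable section
open MvPolynomial Module TensorProduct

namespace Crest.Agent.N265.N
open Crest.Agent.R274
open Defs_781 Lat_781 SnapA_99 SnapB_99 SnapE_99 Gen7_750 Xs1_781 SkDefs_474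
open Alg GV Br Fib M _root_.Crest.Agent.N265.Pow
variable {Sg : Surf} {p : ℕ} {k : ℤ} {β : Sg.V.G} {n : ℕ} {I : XL Sg Sg.F}

namespace RT
/-- **`Hom(I, O/I) → Hom(Tor₁(I, ℂ_z), I|_z)` is onto.** `ψ` comes from an `O_x`-linear
`ψ~ : B_x → O_x`; `γ = ψ~ · u : B_x → I_x` extends to `φ_x : A_x → L_x` (`L` = the hull of `I`;
`Ext¹(I, O)_x` is killed by `I_x`: with `L_x = g O_x`, `B_x → A_x` the Hilbert-Burch matrix,
`u · ψ~` extends for every `u ∈ g⁻¹ I_x`; directly: `B_x ⊕ O e_u ≤ A_x` with quotient killed by `u`,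
so `a ↦ ψ~(u a - μ(a) e_u)` is the extension). The class of `φ_x` modulo `I` at `x`, and zero at the
other points, is a map `U → Γ((L/I)(p))`, which lifts to `Γ(L(p)) ≤ W` (`H¹(I(p)) = 0`). -/
theorem ks (h : RT p β n I) (_hp : 2 ≤ p) {j : ℕ} (hj : 2 ≤ j) {z : Pt} (hz : z ∈ (Sg.S 0).pts)
    {ψ : Dual ℂ (WA Sg (ad Sg p k).W (j + 1)).V}
    (hψ : ψ ∈ ((ad Sg p k).ZK ((r1 Sg k).pc I p) j z).dualAnnihilator) {u : (ad Sg p k).W.V}
    (hu : u ∈ (r1 Sg k).pc I p) : ∃ φ : (ad Sg p k).W.V →ₗ[ℂ] (ad Sg p k).W.V,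
      (ad Sg p k).HomP ((r1 Sg k).pc I p) φ ∧ ∀ κ ∈ (r1 Sg k).KK I p (j + 1),
      (ad Sg p k).ev (j + 1) z κ = 0 → ∃ θ ∈ tens ((r1 Sg k).pc I p) ⊤,
        (ad Sg p k).mu _ θ = (ad Sg p k).mu _ (LinearMap.rTensor _ φ κ) ∧
        (ad Sg p k).ev (j + 1) z θ - ψ κ • u ∈
          ((r1 Sg k).KK I p (j + 1)).map ((ad Sg p k).ev (j + 1) z) := h.ks' hj hz hψ hu
end RT

theorem tyOK (hp : 2 ≤ p) {r : ℕ} (hr : r + 1 = Uni.rkU Sg p β n) :
    (ad Sg p k).TyOK (TT Sg p k β n) r (hT Sg p β n) where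
  rk := by rintro _ ⟨I, h, rfl⟩; exact (h.ty.finrank_pc h.le h.reg).trans hr.symm
  hf := by rintro _ ⟨I, h, rfl⟩ j; exact h.hf j
  gen := by rintro _ ⟨I, h, rfl⟩ j hj; exact h.gen hp hj
  fib := by rintro _ ⟨I, h, rfl⟩ j hj z hz; have := h.fib (k := k) hp hj hz; omega
  ks := by rintro _ ⟨I, h, rfl⟩ j hj z hz ψ hψ u hu; exact h.ks hp hj hz hψ hu
  soc_inj := by
    rintro _ ⟨I, h, rfl⟩ j hj z x y hxy u hu w hw ξ hξ η hη e₁ e₂ e
    exact h.soc_inj hp hj hxy hu hw hξ hη e₁ e₂ e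
  soc_surj := by
    rintro _ ⟨I, h, rfl⟩ j hj z x y hxy u hu κ hκ h0
    exact h.soc_surj hp hj hxy hu hκ h0

theorem stepOK (hp : 2 ≤ p) {r : ℕ} (hr : r + 1 = Uni.rkU Sg p β (n + 1)) (h : RT p β (n + 1) I)
    (hreg : ∀ J : XL Sg Sg.F, LeL J (OX Sg.V.X) → Ty J β (n + 1) → RegL J.toLat p) :
    (ad Sg p k).StepOK (TT Sg p k β n) (TT Sg p k β (n + 1)) r (hT Sg p β n) (hT Sg p β (n + 1)) where
  ty := tyOK hp (by have := h.rkU_succ 0; rw [Nat.zero_add] at this; omega)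
  ty' := tyOK hp hr
  hh := h.hh
  down := by
    rintro _ U' ⟨I, h, rfl⟩ z hz hm
    obtain ⟨J, h1, h2, e⟩ := h.down hz hm
    exact ⟨J, ⟨h1, h2, hreg J h1 h2⟩, e⟩
  up := by rintro _ ⟨I, h, rfl⟩ z hz w hw h0; exact h.up hz hw h0

end Crest.Agent.N265.N
end
end

-- ▼ part N265/N/Rec
section

/-!
# Row 265, layer N, task N-REC: a line in `ker (B'|_z → A'|_z)` determines the bigger ideal
-/

set_option autoImplicit false
noncomputable section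
open MvPolynomial Module TensorProduct

namespace Crest.Agent.N265.N
open Alg GV Br _root_.Crest.Agent.N265.Pow

lemma finrank_subprod {V W : Type} [AddCommGroup V] [Module ℂ V] [FiniteDimensional ℂ V]
    [AddCommGroup W] [Module ℂ W] [FiniteDimensional ℂ W] (P : Submodule ℂ V) (Q : Submodule ℂ W) :
    finrank ℂ (P.prod Q) = finrank ℂ P + finrank ℂ Q := by
  have h : P.prod Q = LinearMap.range (P.subtype.prodMap Q.subtype) := by
    rw [LinearMap.range_prodMap, Submodule.range_subtype, Submodule.range_subtype]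
  rw [h, LinearMap.finrank_range_of_inj (P.injective_subtype.prodMap Q.injective_subtype),
    finrank_prod]

namespace AD
variable {Sg : Surf} (α : AD Sg)
/-- `kos` as a linear map -/
def kosL (k : ℕ) (x y : SA Sg 1) (u : SA Sg k) :
    (WA Sg α.W 1).V × (WA Sg α.W 1).V →ₗ[ℂ] (WA Sg α.W (k + 1 + 1)).V :=
  LinearMap.lTensor _ ((mulA Sg 1 (k + 1)).flip (mulA Sg 1 k y u)) ∘ₗ LinearMap.fst ℂ _ _ -
    LinearMap.lTensor _ ((mulA Sg 1 (k + 1)).flip (mulA Sg 1 k x u)) ∘ₗ LinearMap.snd ℂ _ _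
lemma kosL_apply (k : ℕ) (x y : SA Sg 1) (u : SA Sg k) (t : (WA Sg α.W 1).V × (WA Sg α.W 1).V) :
    α.kosL k x y u t = α.kos k x y u t.1 t.2 := rfl
/-- `w ↦ w ⊗ x` -/
def tm (x : SA Sg 1) : α.W.V →ₗ[ℂ] (WA Sg α.W 1).V := (TensorProduct.mk ℂ α.W.V (SA Sg 1)).flip x
lemma tm_mem (x : SA Sg 1) {U : Submodule ℂ α.W.V} {w : α.W.V} (h : w ∈ U) :
    α.tm x w ∈ tens U ⊤ := tmul_mem h Submodule.mem_top
lemma le_soc_self (U : Submodule ℂ α.W.V) (z : Pt) : U ≤ α.soc U z := fun _ hw =>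
  α.mem_soc.2 fun l _ => ⟨_, α.tm_mem l hw, rfl⟩
/-- triples `(w, ξ, η)`: `w` in the socle, `ξ, η` lifts of `x w, y w`, Koszul syzygy in `ℓ` -/
def Gam (k : ℕ) (z : Pt) (x y : SA Sg 1) (u : SA Sg k) (U' : Submodule ℂ α.W.V)
    (ℓ : Submodule ℂ (WA Sg α.W (k + 1 + 1)).V) :
    Submodule ℂ (α.W.prod ((WA Sg α.W 1).prod (WA Sg α.W 1))).V where
  carrier := {t | t.1 ∈ α.soc U' z ∧ t.2.1 ∈ tens U' ⊤ ∧ t.2.2 ∈ tens U' ⊤ ∧
    α.mu 1 t.2.1 = x.1 • α.emb t.1 ∧ α.mu 1 t.2.2 = y.1 • α.emb t.1 ∧ α.kos k x y u t.2.1 t.2.2 ∈ ℓ}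
  add_mem' := fun {s t} hs ht => ⟨add_mem hs.1 ht.1, add_mem hs.2.1 ht.2.1,
    add_mem hs.2.2.1 ht.2.2.1,
    by rw [Prod.snd_add, Prod.fst_add, Prod.fst_add, map_add, map_add, smul_add, hs.2.2.2.1,
      ht.2.2.2.1],
    by rw [Prod.snd_add, Prod.snd_add, Prod.fst_add, map_add, map_add, smul_add, hs.2.2.2.2.1,
      ht.2.2.2.2.1],
    by
      rw [← kosL_apply, Prod.snd_add, map_add]
      exact add_mem hs.2.2.2.2.2 ht.2.2.2.2.2⟩
  zero_mem' := ⟨zero_mem _, zero_mem _, zero_mem _,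
    by rw [Prod.snd_zero, Prod.fst_zero, Prod.fst_zero, map_zero, map_zero, smul_zero],
    by rw [Prod.snd_zero, Prod.snd_zero, Prod.fst_zero, map_zero, map_zero, smul_zero],
    by rw [← kosL_apply, Prod.snd_zero, map_zero]; exact zero_mem _⟩
  smul_mem' := fun c t ht => ⟨Submodule.smul_mem _ c ht.1, Submodule.smul_mem _ c ht.2.1,
    Submodule.smul_mem _ c ht.2.2.1,
    by rw [Prod.smul_snd, Prod.smul_fst, Prod.smul_fst, map_smul, map_smul, ht.2.2.2.1, smul_comm],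
    by rw [Prod.smul_snd, Prod.smul_snd, Prod.smul_fst, map_smul, map_smul, ht.2.2.2.2.1,
      smul_comm],
    by
      rw [← kosL_apply, Prod.smul_snd, map_smul]
      exact Submodule.smul_mem _ c ht.2.2.2.2.2⟩
lemma mem_Gam {k : ℕ} {z : Pt} {x y : SA Sg 1} {u : SA Sg k} {U' : Submodule ℂ α.W.V}
    {ℓ : Submodule ℂ (WA Sg α.W (k + 1 + 1)).V}
    {t : (α.W.prod ((WA Sg α.W 1).prod (WA Sg α.W 1))).V} :
    t ∈ α.Gam k z x y u U' ℓ ↔ t.1 ∈ α.soc U' z ∧ t.2.1 ∈ tens U' ⊤ ∧ t.2.2 ∈ tens U' ⊤ ∧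
      α.mu 1 t.2.1 = x.1 • α.emb t.1 ∧ α.mu 1 t.2.2 = y.1 • α.emb t.1 ∧
      α.kos k x y u t.2.1 t.2.2 ∈ ℓ := Iff.rfl
/-- the subspace recovered from `U'` and `ℓ` -/
def rcv (k : ℕ) (z : Pt) (x y : SA Sg 1) (u : SA Sg k) (U' : Submodule ℂ α.W.V)
    (ℓ : Submodule ℂ (WA Sg α.W (k + 1 + 1)).V) : Submodule ℂ α.W.V :=
  (α.Gam k z x y u U' ℓ).map (LinearMap.fst ℂ _ _)
lemma mem_rcv {k : ℕ} {z : Pt} {x y : SA Sg 1} {u : SA Sg k} {U' : Submodule ℂ α.W.V}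
    {ℓ : Submodule ℂ (WA Sg α.W (k + 1 + 1)).V} {w : α.W.V} :
    w ∈ α.rcv k z x y u U' ℓ ↔ w ∈ α.soc U' z ∧ ∃ ξ ∈ tens U' ⊤, ∃ η ∈ tens U' ⊤,
      α.mu 1 ξ = x.1 • α.emb w ∧ α.mu 1 η = y.1 • α.emb w ∧ α.kos k x y u ξ η ∈ ℓ :=
  ⟨fun ⟨t, ht, e⟩ => e ▸ ⟨ht.1, t.2.1, ht.2.1, t.2.2, ht.2.2.1, ht.2.2.2⟩,
    fun ⟨h1, ξ, hξ, η, hη, h2⟩ => ⟨(w, ξ, η), ⟨h1, hξ, hη, h2⟩, rfl⟩⟩
/-- `ℓ / ZK` is a line in the kernel of `B'|_z → A'|_z` -/
structure Lin (k : ℕ) (z : Pt) (U' : Submodule ℂ α.W.V)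
    (ℓ : Submodule ℂ (WA Sg α.W (k + 1)).V) : Prop where
  le₁ : α.ZK U' k z ≤ ℓ
  le₂ : ℓ ≤ α.KK U' (k + 1)
  one : finrank ℂ ℓ = finrank ℂ (α.ZK U' k z) + 1
  ker : ℓ ≤ LinearMap.ker (α.ev (k + 1) z)

variable {α} {U U' : Submodule ℂ α.W.V} {T T' : Submodule ℂ α.W.V → Prop} {r : ℕ} {h h' : ℕ → ℕ}
  {k : ℕ} {z : α.S.pts} {x y : SA Sg 1} {u : SA Sg k}
theorem StepOK.lin_sl (H : α.StepOK T T' r h h') (hU : T U) (hm : α.Mod U U' z.1) (hk : α.e ≤ k)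
    (hd : DltOK Sg α.b k z) : α.Lin k z.1 U' (α.sl U U' k z.1) :=
  ⟨le_inf (ZK_mono hm.1 _ _) (ZK_le _ _ _), inf_le_right, H.finrank_sl hU hm hk hd,
    inf_le_left.trans (ZK_le_ker _ _ z.2)⟩
/-- `soc_surj` gives `w` with `kos - κ ∈ ZK` for some `κ ∈ ℓ \ ZK`; `w ∉ U'` by `kos_mem_ZK`;
`rcv = U' ⊔ span {w}` by `soc_inj`; then `up`, `mod_up`, `kos_mem_sl`, `finrank_sl` -/
theorem StepOK.rcv_spec (H : α.StepOK T T' r h h') (hk : α.e ≤ k) (hd : DltOK Sg α.b (k + 1) z)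
    (hp : α.Par z x y) (hu : u ∉ mP Sg α.b k z.1) (hU : T' U')
    {ℓ : Submodule ℂ (WA Sg α.W (k + 1 + 1)).V} (hℓ : α.Lin (k + 1) z.1 U' ℓ) :
    T (α.rcv k z.1 x y u U' ℓ) ∧ α.Mod (α.rcv k z.1 x y u U' ℓ) U' z.1 ∧
      α.sl (α.rcv k z.1 x y u U' ℓ) U' (k + 1) z.1 = ℓ := by
  obtain ⟨κ, hκ, hκ0⟩ : ∃ κ ∈ ℓ, κ ∉ α.ZK U' (k + 1) z.1 := by
    by_contra! hc
    have := Submodule.finrank_mono (show ℓ ≤ _ from hc)
    have := hℓ.one
    omega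
  obtain ⟨w, hw, ξ, hξ, η, hη, e₁, e₂, e₃⟩ :=
    H.ty'.soc_surj U' hU k hk z x y hp u hu κ (hℓ.le₂ hκ) (hℓ.ker hκ)
  have hk0 : α.kos k x y u ξ η ∉ α.ZK U' (k + 1) z.1 := fun hc =>
    hκ0 (by simpa using sub_mem hc e₃)
  have hkℓ : α.kos k x y u ξ η ∈ ℓ := by simpa using add_mem (hℓ.le₁ e₃) hκ
  have hw0 : w ∉ U' := fun hc => hk0 (kos_mem_ZK k hp u hc hξ hη e₁ e₂)
  have hℓe : α.ZK U' (k + 1) z.1 ⊔ Submodule.span ℂ {α.kos k x y u ξ η} = ℓ := by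
    refine Submodule.eq_of_le_of_finrank_le
      (sup_le hℓ.le₁ ((Submodule.span_singleton_le_iff_mem _ _).2 hkℓ)) ?_
    rw [hℓ.one]
    refine Submodule.finrank_lt_finrank_of_lt (lt_of_le_of_ne le_sup_left fun hc => hk0 ?_)
    rw [hc]
    exact Submodule.mem_sup_right (Submodule.mem_span_singleton_self _)
  have hr : α.rcv k z.1 x y u U' ℓ = U' ⊔ Submodule.span ℂ {w} := by
    apply le_antisymm
    · intro w₁ h₁
      obtain ⟨h₁, ξ₁, hξ₁, η₁, hη₁, f₁, f₂, f₃⟩ := α.mem_rcv.1 h₁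
      rw [← hℓe] at f₃
      obtain ⟨a, ha, b, hb, hab⟩ := Submodule.mem_sup.1 f₃
      obtain ⟨c, rfl⟩ := Submodule.mem_span_singleton.1 hb
      have h2 : w₁ - c • w ∈ U' := by
        refine H.ty'.soc_inj U' hU k hk z x y hp u hu _ (sub_mem h₁ (Submodule.smul_mem _ c hw))
          (ξ₁ - c • ξ) (sub_mem hξ₁ (Submodule.smul_mem _ c hξ))
          (η₁ - c • η) (sub_mem hη₁ (Submodule.smul_mem _ c hη)) ?_ ?_ ?_
        · rw [map_sub, map_smul, map_sub, map_smul, smul_sub, f₁, e₁, smul_comm]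
        · rw [map_sub, map_smul, map_sub, map_smul, smul_sub, f₂, e₂, smul_comm]
        · have h3 : α.kos k x y u (ξ₁ - c • ξ) (η₁ - c • η) =
              α.kos k x y u ξ₁ η₁ - c • α.kos k x y u ξ η := by
            have := map_sub (α.kosL k x y u) (ξ₁, η₁) (c • (ξ, η))
            rwa [map_smul] at this
          rw [h3, ← hab, add_sub_cancel_right]
          exact ha
      rw [← sub_add_cancel w₁ (c • w)]
      exact Submodule.add_mem_sup h2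
        (Submodule.smul_mem _ c (Submodule.mem_span_singleton_self w))
    · refine sup_le (fun w' hw' => α.mem_rcv.2 ⟨α.le_soc_self _ _ hw', _, α.tm_mem x hw', _,
        α.tm_mem y hw', rfl, rfl, hℓ.le₁ ?_⟩) ((Submodule.span_singleton_le_iff_mem _ _).2
          (α.mem_rcv.2 ⟨hw, ξ, hξ, η, hη, e₁, e₂, hkℓ⟩))
      exact kos_mem_ZK k hp u hw' (α.tm_mem x hw') (α.tm_mem y hw') rfl rfl
  have hT := H.up U' hU _ z.2 w hw hw0
  have hM := H.mod_up hU z.2 hw hw0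
  rw [hr]
  refine ⟨hT, hM, ?_⟩
  have hl := H.lin_sl hT hM (hk.trans (Nat.le_succ k)) hd
  refine (Submodule.eq_of_le_of_finrank_le ?_ (by rw [hl.one, hℓ.one])).symm
  rw [← hℓe]
  exact sup_le hl.le₁ ((Submodule.span_singleton_le_iff_mem _ _).2 (kos_mem_sl k hp u le_sup_left
    (Submodule.mem_sup_right (Submodule.mem_span_singleton_self w)) hξ hη e₁ e₂))
/-- `U ≤ rcv` by `le_soc`, `kos_mem_sl`; both have dimension `dim U' + 1` -/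
theorem StepOK.rcv_sl (H : α.StepOK T T' r h h') (hk : α.e ≤ k) (hd : DltOK Sg α.b (k + 1) z)
    (hp : α.Par z x y) (hu : u ∉ mP Sg α.b k z.1) (hU : T U) (hm : α.Mod U U' z.1) :
    α.rcv k z.1 x y u U' (α.sl U U' (k + 1) z.1) = U := by
  have h1 := (H.rcv_spec hk hd hp hu (H.down _ _ hU _ z.2 hm)
    (H.lin_sl hU hm (hk.trans (Nat.le_succ k)) hd)).2.1
  refine (Submodule.eq_of_le_of_finrank_le (fun w hw => ?_) (by rw [h1.2.1, hm.2.1])).symm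
  have hs := H.le_soc hU z.2 hm hw
  obtain ⟨ξ, hξ, e₁⟩ := α.mem_soc.1 hs x hp.1
  obtain ⟨η, hη, e₂⟩ := α.mem_soc.1 hs y hp.2.1
  exact α.mem_rcv.2 ⟨hs, ξ, hξ, η, hη, e₁, e₂, kos_mem_sl k hp u hm.1 hw hξ hη e₁ e₂⟩
lemma soc_eq (U : Submodule ℂ α.W.V) (z : Pt) : α.soc U z = ⨅ l : mP Sg α.b 1 z,
    (tens U ⊤ ⊔ LinearMap.ker (α.mu 1)).comap (α.tm l.1) := by
  ext w
  have key : ∀ l : SA Sg 1, l.1 • α.emb w ∈ α.gen U 1 ↔
      w ∈ (tens U ⊤ ⊔ LinearMap.ker (α.mu 1)).comap (α.tm l) := fun l => by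
    rw [Submodule.mem_comap, ← Submodule.comap_map_eq, Submodule.mem_comap]
    exact Iff.rfl
  rw [mem_soc, Submodule.mem_iInf]
  exact ⟨fun h l => (key l.1).1 (h l.1 l.2), fun h l hl => (key l).2 (h ⟨l, hl⟩)⟩
lemma Gam_eq (k : ℕ) (z : Pt) (x y : SA Sg 1) (u : SA Sg k) (U' : Submodule ℂ α.W.V)
    (ℓ : Submodule ℂ (WA Sg α.W (k + 1 + 1)).V) : α.Gam k z x y u U' ℓ =
    (α.soc U' z).comap (LinearMap.fst ℂ _ _) ⊓
      ((tens U' ⊤).comap (LinearMap.fst ℂ _ _ ∘ₗ LinearMap.snd ℂ _ _) ⊓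
      ((tens U' ⊤).comap (LinearMap.snd ℂ _ _ ∘ₗ LinearMap.snd ℂ _ _) ⊓
      ((LinearMap.ker (α.mu 1 ∘ₗ LinearMap.fst ℂ _ _ ∘ₗ LinearMap.snd ℂ _ _ -
          α.mu 1 ∘ₗ α.tm x ∘ₗ LinearMap.fst ℂ _ _) ⊓
        LinearMap.ker (α.mu 1 ∘ₗ LinearMap.snd ℂ _ _ ∘ₗ LinearMap.snd ℂ _ _ -
          α.mu 1 ∘ₗ α.tm y ∘ₗ LinearMap.fst ℂ _ _)) ⊓
      ℓ.comap (α.kosL k x y u ∘ₗ LinearMap.snd ℂ _ _)))) := by
  ext t
  rw [mem_Gam]
  simp only [Submodule.mem_inf, Submodule.mem_comap, LinearMap.mem_ker, LinearMap.sub_apply,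
    sub_eq_zero, and_assoc]
  rfl
lemma finrank_Gam (hp : α.Par z x y) (u : SA Sg k) {ℓ : Submodule ℂ (WA Sg α.W (k + 1 + 1)).V}
    (hℓ : α.ZK U' (k + 1) z.1 ≤ ℓ) : finrank ℂ (α.Gam k z.1 x y u U' ℓ) =
      finrank ℂ (α.rcv k z.1 x y u U' ℓ) + (finrank ℂ (α.KK U' 1) + finrank ℂ (α.KK U' 1)) := by
  have h1 : α.Gam k z.1 x y u U' ℓ ⊓ LinearMap.ker (LinearMap.fst ℂ _ _) =
      ((α.KK U' 1).prod (α.KK U' 1)).map (LinearMap.inr ℂ _ _) := by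
    apply le_antisymm
    · rintro ⟨w, ξ, η⟩ ⟨ht, h0⟩
      obtain rfl : w = 0 := h0
      obtain ⟨-, hξ, hη, e₁, e₂, -⟩ := α.mem_Gam.1 ht
      rw [map_zero, smul_zero] at e₁ e₂
      exact ⟨(ξ, η), ⟨⟨hξ, e₁⟩, hη, e₂⟩, rfl⟩
    · rintro _ ⟨⟨ξ, η⟩, ⟨hξ, hη⟩, rfl⟩
      have e₁ : α.mu 1 ξ = x.1 • α.emb 0 := by rw [map_zero, smul_zero]; exact hξ.2
      have e₂ : α.mu 1 η = y.1 • α.emb 0 := by rw [map_zero, smul_zero]; exact hη.2
      exact ⟨α.mem_Gam.2 ⟨zero_mem _, hξ.1, hη.1, e₁, e₂,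
        hℓ (kos_mem_ZK k hp u (zero_mem _) hξ.1 hη.1 e₁ e₂)⟩, rfl⟩
  have h2 := Alg.finrank_map_add_inf_ker (V := (α.W.prod ((WA Sg α.W 1).prod (WA Sg α.W 1))).V)
    (α.Gam k z.1 x y u U' ℓ) (LinearMap.fst ℂ α.W.V ((WA Sg α.W 1).prod (WA Sg α.W 1)).V)
  rw [h1, ← (Submodule.equivMapOfInjective _ LinearMap.inr_injective _).finrank_eq,
    finrank_subprod] at h2
  exact h2.symm
lemma cog_comap {X : Spc} {M N : Type} [AddCommGroup M] [Module ℂ M] [FiniteDimensional ℂ M]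
    [AddCommGroup N] [Module ℂ N] [FiniteDimensional ℂ N] {P : Pt → Submodule ℂ N} (h : CogA X P)
    (f : M →ₗ[ℂ] N) : CogA X fun a => (P a).comap f := h.comap (φ := fun _ => f) (regM_const' f)
lemma gen_map {X : Spc} {M N : Type} [AddCommGroup M] [Module ℂ M] [FiniteDimensional ℂ M]
    [AddCommGroup N] [Module ℂ N] [FiniteDimensional ℂ N] {P : Pt → Submodule ℂ M} (h : GenA X P)
    (f : M →ₗ[ℂ] N) : GenA X fun a => (P a).map f := h.map (φ := fun _ => f) (regM_const' f)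
lemma cog_const {X : Spc} {M : Type} [AddCommGroup M] [Module ℂ M] [FiniteDimensional ℂ M]
    (P : Submodule ℂ M) : CogA X fun _ => P := cogA_of_alg (L := fun _ => P) (Alg.const P)
lemma Fam.cog_soc {X : Spc} {L' : Pt → Submodule ℂ α.W.V} (F : α.Fam X T' L')
    (H : α.TyOK T' r h') (z : Pt) : CogA X fun a => α.soc (L' a) z := by
  have hT : IsAB X (WA Sg α.W 1) fun a => tens (L' a) ⊤ := F.ab.tens (IsAB.top (in_triv _))
  have hK : GenA X fun _ => LinearMap.ker (α.mu 1) :=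
    genA_of_alg (L := fun _ => LinearMap.ker (α.mu 1)) (Alg.const _)
  have hr : ∀ a ∈ X.pts, finrank ℂ (tens (L' a) (⊤ : Submodule ℂ (SA Sg 1)) ⊔
      LinearMap.ker (α.mu 1) : Submodule ℂ (WA Sg α.W 1).V) =
      (r + 1) * finrank ℂ (SA Sg 1) + finrank ℂ (LinearMap.ker (α.mu 1)) - h' 1 := fun a ha => by
    have e1 : finrank ℂ (tens (L' a) (⊤ : Submodule ℂ (SA Sg 1)) ⊔
        LinearMap.ker (α.mu 1) : Submodule ℂ (WA Sg α.W 1).V) + finrank ℂ (α.KK (L' a) 1) =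
        finrank ℂ (tens (L' a) (⊤ : Submodule ℂ (SA Sg 1))) + finrank ℂ (LinearMap.ker (α.mu 1)) :=
      Submodule.finrank_sup_add_finrank_inf_eq _ _
    rw [finrank_tens, finrank_top, H.rk _ (F.ty a ha), H.hf _ (F.ty a ha)] at e1
    exact Nat.eq_sub_of_add_eq e1
  have hS : CogA X fun a => tens (L' a) (⊤ : Submodule ℂ (SA Sg 1)) ⊔ LinearMap.ker (α.mu 1) :=
    cogA_of_alg ((hT.gen.sup hK).alg_of_rk hr)
  exact (CogA.iInf fun l : mP Sg α.b 1 z => cog_comap hS (α.tm l.1)).congr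
    fun a _ => (soc_eq _ _).symm
lemma Fam.cog_Gam {X : Spc} {L' : Pt → Submodule ℂ α.W.V} (F : α.Fam X T' L')
    (H : α.StepOK T T' r h h') (k : ℕ) (z : Pt) (x y : SA Sg 1) (u : SA Sg k)
    {ℓ : Pt → Submodule ℂ (WA Sg α.W (k + 1 + 1)).V} (hℓ : CogA X ℓ) :
    CogA X fun a => α.Gam k z x y u (L' a) (ℓ a) := by
  have hT : IsAB X (WA Sg α.W 1) fun a => tens (L' a) ⊤ := F.ab.tens (IsAB.top (in_triv _))
  exact ((cog_comap (F.cog_soc H.ty' z) _).inf ((cog_comap hT.cog _).inf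
    ((cog_comap hT.cog _).inf ((cog_const _).inf (cog_comap hℓ _))))).congr
      fun a _ => (Gam_eq k z x y u (L' a) (ℓ a)).symm
/-- `Gam` is cogenerated (`w ∈ soc` iff `w ⊗ l ∈ tens U' ⊤ ⊔ ker mu` for a basis of `V_z`, and this
family is a bundle by `hf`), of constant rank `(r + 2) + 2 * h' 1` (kernel of `fst` is
`KK U' 1 × KK U' 1`); so it is a bundle and its image has constant rank -/
theorem Fam.isAB_rcv {X : Spc} {L' : Pt → Submodule ℂ α.W.V} (F : α.Fam X T' L')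
    (H : α.StepOK T T' r h h') (hk : α.e ≤ k) (hd : DltOK Sg α.b (k + 1) z)
    (hp : α.Par z x y) (hu : u ∉ mP Sg α.b k z.1)
    {ℓ : Pt → Submodule ℂ (WA Sg α.W (k + 1 + 1)).V} (hℓ : IsAB X _ ℓ)
    (h1 : ∀ a ∈ X.pts, α.Lin (k + 1) z.1 (L' a) (ℓ a)) :
    IsAB X α.W fun a => α.rcv k z.1 x y u (L' a) (ℓ a) := by
  have hG := F.cog_Gam H k z.1 x y u hℓ.cog
  have hr : ∀ a ∈ X.pts, finrank ℂ (α.rcv k z.1 x y u (L' a) (ℓ a)) = r + 1 + 1 := fun a ha =>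
    H.ty.rk _ (H.rcv_spec hk hd hp hu (F.ty a ha) (h1 a ha)).1
  have hA := hG.alg_of_rk (n := r + 1 + 1 + (h' 1 + h' 1)) fun a ha => by
    rw [finrank_Gam hp u (h1 a ha).le₁, hr a ha, H.ty'.hf _ (F.ty a ha)]
  have hg : GenA X fun a => α.Gam k z.1 x y u (L' a) (ℓ a) :=
    genA_of_alg (L := fun a => α.Gam k z.1 x y u (L' a) (ℓ a)) hA
  have hv : GenA X fun a => α.rcv k z.1 x y u (L' a) (ℓ a) := gen_map hg (LinearMap.fst ℂ _ _)
  have he : Eqv X α.W fun a => α.rcv k z.1 x y u (L' a) (ℓ a) := eqv_iff.2 fun a ha => by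
    rw [eqv_iff.1 F.ab.eqv' a ha, eqv_WA_iff.1 hℓ.eqv' a ha]
  exact ⟨α.in_W _, hv.alg_of_rk hr, he⟩
end AD

end Crest.Agent.N265.N
end
end

-- ▼ part N265/N/PBa
section

/-!
# Row 265, layer N, task N-PBA: tangent classes, variation of annihilators
-/

set_option autoImplicit false
noncomputable section
open MvPolynomial Module

namespace Crest.Agent.N265.N
open Alg GV Bun
variable {X Y : Spc} {V W : GV}

namespace PBa
lemma extV_val (S : Finset Var) (u : S → ℂ) (v : S) : extV S u v.1 = u v := dif_pos v.2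
lemma extV_res {S : Finset Var} (hS : X.Vars S) {x ξ : Pt} (hξ : ξ ∈ X.Tan x) :
    extV S (fun v : S => ξ v.1) = ξ := by
  obtain ⟨u, rfl⟩ := hS.tan_le x hξ
  exact congrArg _ (funext fun v => extV_val S u v)
lemma mev_val {κ : Type} (x : Pt) (f : κ → Var) (S : Finset Var) (u : S → ℂ) :
    mev x (B0.dl f (Subtype.val : S → Var)) u = fun j => extV S u (f j) := by
  funext j
  by_cases h : f j ∈ S
  · exact (B0.mev_dl_of_eq x Subtype.val_injective u (i := ⟨f j, h⟩) rfl).trans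
      (extV_val S u ⟨f j, h⟩).symm
  · exact (B0.mev_dl_of_ne x u fun i (e : f j = i.1) => h (e ▸ i.2)).trans (by simp [extV, h])
lemma mev_ext {κ ι : Type} [Fintype ι] (x : Pt) (f : κ → Var) {y : ι → Var}
    (hy : Function.Injective y) (a : ι → ℂ) :
    mev x (B0.dl f y) a = fun j => Function.extend y a 0 (f j) := by
  funext j
  by_cases h : ∃ i, y i = f j
  · obtain ⟨i, hi⟩ := h
    rw [B0.mev_dl_of_eq x hy a hi.symm, ← hi, hy.extend_apply]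
  · rw [B0.mev_dl_of_ne x a fun i e => h ⟨i, e.symm⟩, Function.extend_apply' _ _ _ h]
    rfl
lemma dAt_dir_zero (x : Pt) (r : R) : dAt x 0 r = 0 := by
  simpa using dAt_dir_smul x 0 0 r
/-- the class of the tangent bundle does not depend on the choices -/
lemma kl_tan_eq {n m : ℕ} (h : X.Sm n) (h' : X.Sm m) {S S' : Finset Var} (hS : X.Vars S)
    (hS' : X.Vars S') : (Bun.tan X S hS n h).kl = (Bun.tan X S' hS' m h').kl := by
  refine kl_iso (B0.dl (Subtype.val : S' → Var) (Subtype.val : S → Var))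
    (B0.mhmg_dl fun _ _ e => congrArg vdeg e) fun x _ => ⟨?_, ?_⟩
  · refine eq_bot_iff.2 fun (u : S → ℂ) hu => ?_
    have h1 : extV S u ∈ X.Tan x := hu.1
    have h2 : (fun v : S' => extV S u v.1) = 0 :=
      (mev_val x (Subtype.val : S' → Var) S u).symm.trans hu.2
    have h3 := extV_res hS' h1
    rw [h2, map_zero] at h3
    exact funext fun v => (extV_val S u v).symm.trans (congrFun h3.symm v.1)
  · refine le_antisymm ?_ fun (u : S' → ℂ) hu => ?_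
    · rintro _ ⟨u, hu, rfl⟩
      have h1 : extV S u ∈ X.Tan x := hu
      change extV S' (mev x (B0.dl (Subtype.val : S' → Var) (Subtype.val : S → Var)) u) ∈ X.Tan x
      rw [mev_val, extV_res hS' h1]
      exact h1
    · have h1 : extV S' u ∈ X.Tan x := hu
      refine ⟨fun v : S => extV S' u v.1, ?_, (mev_val x _ S _).trans ?_⟩
      · change extV S (fun v : S => extV S' u v.1) ∈ X.Tan x
        rw [extV_res hS h1]
        exact h1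
      · rw [extV_res hS h1]
        exact funext fun v => extV_val S' u v
end PBa
open PBa

/-- the cone tangent bundle of a projective bundle:
`0 → O(1) ⊗ A → TP → TX → 0` (`IsPSub.mem_tan`, `finrank_tan`) -/
theorem psub_kl_tan {P : Spc} {A : Bun X} {δ b y} (h : IsPSub P A δ b y) {n m : ℕ} (hX : X.Sm n)
    (hP : P.Sm m) {Vx Vp : Finset Var} (hVx : X.Vars Vx) (hVp : P.Vars Vp) :
    (Bun.tan P Vp hVp m hP).kl =
      K.pull h.proj (Bun.tan X Vx hVx n hX).kl + lbK P (eB b - δ) * K.pull h.proj A.kl := by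
  have hd : eB b - δ ∈ DS P.B := sub_mem h.b_mem (DS_mono h.proj.sub h.hδ)
  rw [K.pull_kl, K.pull_kl, ← kl_twist _ _ hd, add_comm]
  refine kl_ses ⟨B0.dl (Subtype.val : Vp → Var) y,
    B0.dl (Subtype.val : Vx → Var) (Subtype.val : Vp → Var),
    B0.mhmg_dl fun _ i e => (congrArg vdeg e).trans (h.vdeg_y i),
    B0.mhmg_dl fun _ _ e => congrArg vdeg e, fun z hz => ?_⟩
  have hx := h.proj.map z hz
  have e0 : ∀ (a : A.ι → ℂ) (v : Var), v.1 ∈ X.B → Function.extend y a (0 : Pt) v = 0 :=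
    fun a v hv => Function.extend_apply' _ _ _ (by rintro ⟨i, rfl⟩; exact h.notMem i hv)
  have e1 : ∀ a : A.ι → ℂ, restr X.B (Function.extend y a (0 : Pt)) = 0 := fun a =>
    funext fun v => by
      unfold restr
      split_ifs with hv
      · exact e0 a v hv
      · rfl
  have e2 : ∀ a ∈ A.L (restr X.B z), Function.extend y a (0 : Pt) ∈ P.Tan z := fun a ha => by
    refine (h.mem_tan hz).2 ⟨by rw [e1]; exact zero_mem _, fun v hv => Or.inr ?_, fun c hc => ?_⟩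
    · by_contra hn
      exact hv (Function.extend_apply' _ _ _ hn)
    · simp only [e1, dAt_dir_zero, zero_mul, zero_add, h.inj.extend_apply]
      exact hc _ hx a ha
  have k1 : A.L (restr X.B z) ⊓ LinearMap.ker (mev z (B0.dl (Subtype.val : Vp → Var) y)) = ⊥ := by
    refine eq_bot_iff.2 fun a ha => ?_
    have h2 := (mev_ext z (Subtype.val : Vp → Var) h.inj a).symm.trans ha.2
    have h3 := extV_res hVp (e2 a ha.1)
    rw [h2, map_zero] at h3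
    exact funext fun i => (h.inj.extend_apply a (0 : Pt) i).symm.trans (congrFun h3.symm (y i))
  have k2 : (A.L (restr X.B z)).map (mev z (B0.dl (Subtype.val : Vp → Var) y)) =
      (P.Tan z).comap (extV Vp) ⊓
        LinearMap.ker (mev z (B0.dl (Subtype.val : Vx → Var) (Subtype.val : Vp → Var))) := by
    refine le_antisymm ?_ fun u hu => ?_
    · rintro _ ⟨a, ha, rfl⟩
      have h3 := extV_res hVp (e2 a ha)
      rw [Submodule.mem_inf, Submodule.mem_comap, LinearMap.mem_ker, mev_val,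
        mev_ext z _ h.inj, h3]
      exact ⟨e2 a ha, funext fun v => e0 a v.1 (hVx.1 _ v.2)⟩
    · obtain ⟨h1, h2, h3⟩ := (h.mem_tan hz).1 (show extV Vp u ∈ P.Tan z from hu.1)
      have h4 := (mev_val z (Subtype.val : Vx → Var) Vp u).symm.trans hu.2
      have h5 : restr X.B (extV Vp u) = 0 := by
        rw [← extV_res hVx h1, ← map_zero (extV Vx), ← h4]
        exact congrArg _ (funext fun v => if_pos (hVx.1 _ v.2))
      refine ⟨fun i => extV Vp u (y i), ?_, (mev_ext z _ h.inj _).trans (funext fun v => ?_)⟩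
      · rw [SetLike.mem_coe, ← perp_perp (A.L _)]
        intro a0 ha0
        obtain ⟨c, rfl, hc⟩ := A.alg.cogen _ hx a0 ha0
        have h6 := h3 c hc
        simp only [h5, dAt_dir_zero, zero_mul, zero_add] at h6
        simpa only [mul_comm] using h6
      · by_cases hv : ∃ i, y i = v.1
        · obtain ⟨i, hi⟩ := hv
          rw [← extV_val Vp u v, ← hi, h.inj.extend_apply]
        · rw [Function.extend_apply' _ _ _ hv, ← extV_val Vp u v]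
          by_contra hn
          have h7 := (h2 v.1 (Ne.symm hn)).resolve_right hv
          exact hn ((congrFun h5 v.1).symm.trans (if_pos h7))
  refine ⟨k1, k2, ?_⟩
  change ((P.Tan z).comap (extV Vp)).map
    (mev z (B0.dl (Subtype.val : Vx → Var) (Subtype.val : Vp → Var))) =
      (X.Tan (restr X.B z)).comap (extV Vx)
  refine Submodule.eq_of_le_of_finrank_eq ?_ ?_
  · rintro _ ⟨u, hu, rfl⟩
    have h1 := ((h.mem_tan hz).1 (show extV Vp u ∈ P.Tan z from hu)).1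
    rw [Submodule.mem_comap, mev_val,
      show (fun v : Vx => extV Vp u v.1) = fun v : Vx => restr X.B (extV Vp u) v.1 from
        funext fun v => (if_pos (hVx.1 _ v.2)).symm, extV_res hVx h1]
    exact h1
  · have h1 := B0.finrank_split ((P.Tan z).comap (extV Vp))
      (mev z (B0.dl (Subtype.val : Vx → Var) (Subtype.val : Vp → Var)))
    rw [← k2, B0.finrank_map_of_inj k1, hVp.finrank_comap, h.finrank_tan hz] at h1
    rw [hVx.finrank_comap]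
    omega
lemma exists_vars (X : Spc) : ∃ V, X.Vars V := X.fin
/-- the class of the cone tangent bundle (`0` if the space is not smooth of constant dimension) -/
def tanK (X : Spc) : K X := by
  classical exact if h : ∃ n, X.Sm n then
    (Bun.tan X (exists_vars X).choose (exists_vars X).choose_spec _ h.choose_spec).kl else 0
theorem tanK_eq {n : ℕ} (h : X.Sm n) {Vx : Finset Var} (hV : X.Vars Vx) :
    tanK X = (Bun.tan X Vx hV n h).kl := by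
  unfold tanK
  rw [dif_pos ⟨n, h⟩]
  exact kl_tan_eq _ _ _ _
theorem psub_tanK {P : Spc} {A : Bun X} {δ b y} (h : IsPSub P A δ b y) {n r : ℕ} (hX : X.Sm n)
    (hA : A.Rk r) : tanK P = K.pull h.proj (tanK X) + lbK P (eB b - δ) * K.pull h.proj A.kl := by
  obtain ⟨Vx, hVx⟩ := exists_vars X
  obtain ⟨Vp, hVp⟩ := exists_vars P
  rw [tanK_eq (h.sm hX hA) hVp, tanK_eq hX hVx]
  exact psub_kl_tan h hX _ hVx hVp
/-- on the graph of a line bundle, the line bundle becomes `O(δ - e_b)` -/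
lemma graph_pull_kl {P : Spc} {A : Bun X} {δ b y} (h : IsPSub P A δ b y) (hA : A.Rk 1) :
    K.pull h.proj A.kl = lbK P (δ - eB b) := by
  have := h.kl_quot (Bun.zero P) 0 (B0.mhmg_zero _ _) fun z hz => ⟨?_,
    Subsingleton.elim (α := Submodule ℂ (Empty → ℂ)) _ _⟩
  · rw [K.pull_kl, this, kl_zero, add_zero]
  · obtain ⟨h1, h2, h3, -⟩ := (h.mem z).1 hz
    rw [B0.mev_zero, LinearMap.ker_zero, inf_top_eq]
    refine (Submodule.eq_of_le_of_finrank_eq ((Submodule.span_singleton_le_iff_mem _ _).2 h2)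
      ?_).symm
    rw [finrank_span_singleton h3, hA _ h1]
theorem graph_tanK {P : Spc} {A : Bun X} {δ b y} (h : IsPSub P A δ b y) {n : ℕ} (hX : X.Sm n)
    (hA : A.Rk 1) : tanK P = K.pull h.proj (tanK X) + 1 := by
  rw [psub_tanK h hX hA, graph_pull_kl h hA, ← lbK_add, sub_add_sub_cancel, sub_self, lbK_zero]

/-- the variation of the annihilator -/
lemma isVar_perp {T M : Type} [AddCommGroup M] [Module ℂ M] [FiniteDimensional ℂ M]
    {𝒜 : Subalgebra ℂ (T → ℂ)} {x₀ : T} {δ : (T → ℂ) →ₗ[ℂ] ℂ} (hδ : PDer 𝒜 x₀ δ)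
    {L : T → Submodule ℂ M} (hL : Alg 𝒜 L) {a : M →ₗ[ℂ] M} (h : IsVar 𝒜 x₀ δ L a) :
    IsVar 𝒜 x₀ δ (fun x => (L x).dualAnnihilator) (-a.dualMap) := by
  intro σ hσ hm
  refine (Submodule.mem_dualAnnihilator _).2 fun v hv => ?_
  obtain ⟨τ, hτ, hs, rfl⟩ := hL.exists_section hv
  have e := hδ.dV_bilin (LinearMap.id : Dual ℂ M →ₗ[ℂ] M →ₗ[ℂ] ℂ) hσ hτ
  rw [show (fun x => (LinearMap.id : Dual ℂ M →ₗ[ℂ] M →ₗ[ℂ] ℂ) (σ x) (τ x)) = fun _ => 0 from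
    funext fun x => (Submodule.mem_dualAnnihilator _).1 (hm x) _ (hs x), dV_zero] at e
  have e' := (Submodule.mem_dualAnnihilator _).1 (hm x₀) _ (h τ hτ hs)
  simp only [LinearMap.id_apply, map_sub] at e e'
  simp only [LinearMap.sub_apply, LinearMap.neg_apply, LinearMap.dualMap_apply]
  linear_combination -e - e'

end Crest.Agent.N265.N
end
end

-- ▼ part N265/N/PBb
section

/-!
# Row 265, layer N, task N-PBB: projective bundles of subquotients, basis-free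
-/

set_option autoImplicit false
noncomputable section
open MvPolynomial Module

namespace Crest.Agent.N265.N
open Alg GV Bun
variable {X Y : Spc} {V W : GV}

/-- `P` = the space of all `ℓ` with `L' x < ℓ ≤ L x` of colength one, in the block `b` -/
structure PB (X : Spc) (V : GV) (L L' : Pt → Submodule ℂ V.V) (b : ℕ) where
  hL : IsAB X V L
  hL' : IsAB X V L'
  le : ∀ x ∈ X.pts, L' x ≤ L x
  A : Bun X
  δ : D
  y : A.ι → Var
  P : Spc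
  ps : IsPSub P A δ b y
  φ : Pt → V.V →ₗ[ℂ] (co A.deg).V
  rm : IsRM X V (co A.deg) φ
  ker : ∀ x ∈ X.pts, LinearMap.ker (φ x) = L' x
  map : ∀ x ∈ X.pts, (L x).map (φ x) = A.L x
variable {L L' : Pt → Submodule ℂ V.V} {b : ℕ}
/-- `IsAB.exists_sq`, `exists_pres`, `exists_unif`, `exists_pvar`, `exists_psub` -/
theorem exists_PB (hL : IsAB X V L) (hL' : IsAB X V L') (le : ∀ x ∈ X.pts, L' x ≤ L x)
    (hb : b ∉ X.B) : Nonempty (PB X V L L' b) := by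
  obtain ⟨W, φ, hφ, hM, hk, -⟩ := hL.exists_sq hL' le
  obtain ⟨A₀, c, hc, hc'⟩ := hM.exists_pres
  obtain ⟨A, δ, f, hδ, hu, hf, hi⟩ := A₀.exists_unif
  obtain ⟨y, hy⟩ := exists_pvar hδ hu hb
  obtain ⟨P, hP⟩ := hy.exists_psub
  refine ⟨⟨hL, hL', le, A, δ, y, P, hP, fun x => mev x f ∘ₗ c.equivFun.toLinearMap ∘ₗ φ x,
    (isRM_mev hf).comp ((IsRM.const (deg0_equivFun c hc)).comp hφ), fun x hx => ?_,
    fun x hx => ?_⟩⟩
  · rw [LinearMap.ker_comp_of_ker_eq_bot _ (LinearMap.ker_eq_bot.2 (hi x hx).1),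
      LinearMap.ker_comp_of_ker_eq_bot _ c.equivFun.ker, hk x hx]
  · rw [Submodule.map_comp, Submodule.map_comp, ← hc' x hx, (hi x hx).2]

namespace PBb
section LA
variable {E F : Type} [AddCommGroup E] [Module ℂ E] [FiniteDimensional ℂ E] [AddCommGroup F]
  [Module ℂ F] [FiniteDimensional ℂ F] {f : E →ₗ[ℂ] F} {M ℓ : Submodule ℂ E}
lemma finrank_map_add (h : LinearMap.ker f ≤ M) :
    finrank ℂ (LinearMap.ker f) + finrank ℂ (M.map f) = finrank ℂ M := by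
  have := finrank_inf_comap_add M ⊥ f
  rwa [Submodule.comap_bot, inf_eq_right.2 h, sup_bot_eq, finrank_bot, add_zero] at this
omit [FiniteDimensional ℂ E] [FiniteDimensional ℂ F] in
lemma map_inf_comap {S : Submodule ℂ F} (h : S ≤ M.map f) : (M ⊓ S.comap f).map f = S := by
  rw [← Submodule.map_inf_eq_map_inf_comap, inf_eq_right.2 h]
omit [FiniteDimensional ℂ E] [FiniteDimensional ℂ F] in
lemma inf_comap_map (h : LinearMap.ker f ≤ ℓ) (h' : ℓ ≤ M) : M ⊓ (ℓ.map f).comap f = ℓ := by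
  rw [Submodule.comap_map_eq, sup_eq_left.2 h, inf_eq_right.2 h']
lemma eq_span {A : Submodule ℂ E} (h : finrank ℂ A = 1) {v : E} (hv : v ∈ A) (h0 : v ≠ 0) :
    Submodule.span ℂ {v} = A :=
  Submodule.eq_of_le_of_finrank_eq ((Submodule.span_singleton_le_iff_mem _ _).2 hv)
    (by rw [finrank_span_singleton h0, h])
end LA
lemma isAB_unshift {d : D} {L : Pt → Submodule ℂ V.V} (h : IsAB X (V.shift d) L) (hV : V.In X.B) :
    IsAB X V L := ⟨hV, h.alg, Eqv.of_mem_iff fun x hx v => by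
  rw [← h.eqv'.mem_iff hx, shift_g, Submodule.smul_mem_iff _ (chi_ne d)]⟩
lemma basisFun_g {ι : Type} [Fintype ι] [DecidableEq ι] (deg : ι → D) (i : ι) :
    (co deg).g (Pi.basisFun ℂ ι i) = chi (deg i) • Pi.basisFun ℂ ι i := funext fun j => by
  by_cases h : j = i <;> simp [h]
end PBb
open PBb

namespace PB
variable (π : PB X V L L' b)
lemma proj : Proj π.P X := π.ps.proj
/-- the tautological subspace -/
def ln (z : Pt) : Submodule ℂ V.V := L (restr X.B z) ⊓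
  (Submodule.span ℂ {fun i => z (π.y i)}).comap (π.φ (restr X.B z))
lemma b_mem : b ∈ π.P.B := π.ps.B ▸ Finset.mem_insert_self _ _
lemma y_restr {B : Finset ℕ} (h : π.P.B ⊆ B) (z : Pt) :
    (fun i => restr B z (π.y i)) = fun i => z (π.y i) :=
  funext fun i => if_pos (h ((π.ps.blk i).symm ▸ π.b_mem))
lemma ln_restr {B : Finset ℕ} (h : π.P.B ⊆ B) (z : Pt) : π.ln (restr B z) = π.ln z := by
  rw [ln, ln, restr_restr (π.proj.sub.trans h), π.y_restr h]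
lemma y_mem {z : Pt} (hz : z ∈ π.P.pts) : (fun i => z (π.y i)) ∈ π.A.L (restr X.B z) :=
  ((π.ps.mem z).1 hz).2.1
lemma y_ne {z : Pt} (hz : z ∈ π.P.pts) : (fun i => z (π.y i)) ≠ 0 := ((π.ps.mem z).1 hz).2.2.1
lemma span_le {z : Pt} (hz : z ∈ π.P.pts) : Submodule.span ℂ {fun i => z (π.y i)} ≤
    (L (restr X.B z)).map (π.φ (restr X.B z)) := by
  rw [π.map _ (π.proj.map z hz), Submodule.span_singleton_le_iff_mem]
  exact π.y_mem hz
lemma map_ln {z : Pt} (hz : z ∈ π.P.pts) :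
    (π.ln z).map (π.φ (restr X.B z)) = Submodule.span ℂ {fun i => z (π.y i)} :=
  map_inf_comap (π.span_le hz)
lemma ln_le (z : Pt) : π.ln z ≤ L (restr X.B z) := inf_le_left
lemma le_ln {z : Pt} (hz : z ∈ π.P.pts) : L' (restr X.B z) ≤ π.ln z :=
  le_inf (π.le _ (π.proj.map z hz))
    ((π.ker _ (π.proj.map z hz)).ge.trans (LinearMap.ker_le_comap _))
lemma finrank_ln {z : Pt} (hz : z ∈ π.P.pts) :
    finrank ℂ (π.ln z) = finrank ℂ (L' (restr X.B z)) + 1 := by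
  have hk := π.ker _ (π.proj.map z hz)
  rw [← finrank_map_add (hk.le.trans (π.le_ln hz)), hk, π.map_ln hz,
    finrank_span_singleton (π.y_ne hz)]
theorem kl : π.A.kl = kc X V L - kc X V L' := by
  rw [kc_map π.hL π.rm (π.A.isAB.congr fun x hx => (π.map x hx).symm), kc_congr π.map,
    kc_congr fun x hx => (congrArg (L x ⊓ ·) (π.ker x hx)).trans (inf_eq_right.2 (π.le x hx)),
    π.A.kl_eq_kc, add_sub_cancel_left]
theorem rk {a : ℕ} (h : ∀ x ∈ X.pts, finrank ℂ (L x) = finrank ℂ (L' x) + a) : π.A.Rk a :=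
  fun x hx => by
    have := finrank_map_add ((π.ker x hx).le.trans (π.le x hx))
    rw [π.ker x hx, π.map x hx, h x hx] at this
    exact Nat.add_left_cancel this
lemma d_mem : eB b - π.δ ∈ DS π.P.B := sub_mem π.ps.b_mem (DS_mono π.proj.sub π.ps.hδ)
lemma in_A : (co π.A.deg).In π.P.B := in_co fun i => DS_mono π.proj.sub (π.A.hdeg i)
lemma isRV_y : IsRV π.P ((co π.A.deg).shift (eB b - π.δ)) fun z i => z (π.y i) :=
  ⟨regV_iff_poly.2 ⟨fun i => MvPolynomial.X (π.y i), fun _ _ => (eval_X _).symm⟩,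
    fun z _ => π.ps.toPVar.gpt_y z⟩
lemma isAB_span : IsAB π.P (co π.A.deg) fun z => Submodule.span ℂ {fun i => z (π.y i)} :=
  isAB_unshift (V := co π.A.deg) (d := eB b - π.δ)
    (IsAB.span (π.in_A.shift π.d_mem) π.isRV_y fun _ hz => π.y_ne hz) π.in_A
lemma kc_span : kc π.P (co π.A.deg) (fun z => Submodule.span ℂ {fun i => z (π.y i)}) =
    lbK π.P (π.δ - eB b) := by
  have h := N265.kc_span (π.in_A.shift π.d_mem) π.isRV_y fun _ => π.y_ne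
  rw [kc_shift π.isAB_span π.d_mem] at h
  rw [← neg_sub, ← mul_one (lbK _ _), ← h, ← mul_assoc, mul_comm (lbK _ (-_)), lbK_mul_neg, one_mul]
theorem isAB_ln : IsAB π.P V π.ln :=
  (π.hL.pull π.proj).comap_of_surj (π.A.isAB.pull π.proj) π.isAB_span (π.rm.pull π.proj)
    fun z hz => (sup_eq_left.2 (π.span_le hz)).trans (π.map _ (π.proj.map z hz))
theorem kc_ln : kc π.P V π.ln - K.pull π.proj (kc X V L') = lbK π.P (π.δ - eB b) := by
  rw [kc_map π.isAB_ln (π.rm.pull π.proj) (π.isAB_span.congr fun z hz => (π.map_ln hz).symm),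
    kc_congr fun z hz => π.map_ln hz, kc_pull π.hL', π.kc_span, kc_congr fun z hz =>
      (congrArg (π.ln z ⊓ ·) (π.ker _ (π.proj.map z hz))).trans (inf_eq_right.2 (π.le_ln hz)),
    add_sub_cancel_left]
lemma finrank_map {x : Pt} (hx : x ∈ X.pts) {ℓ : Submodule ℂ V.V} (h1 : L' x ≤ ℓ)
    (h3 : finrank ℂ ℓ = finrank ℂ (L' x) + 1) : finrank ℂ (ℓ.map (π.φ x)) = 1 := by
  have := finrank_map_add ((π.ker x hx).le.trans h1)
  rw [π.ker x hx, h3] at this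
  omega
lemma ln_eq {z : Pt} (hx : restr X.B z ∈ X.pts) {ℓ : Submodule ℂ V.V} (h1 : L' (restr X.B z) ≤ ℓ)
    (h2 : ℓ ≤ L (restr X.B z)) (h3 : finrank ℂ ℓ = finrank ℂ (L' (restr X.B z)) + 1)
    (hv : (fun i => z (π.y i)) ∈ ℓ.map (π.φ (restr X.B z))) (h0 : (fun i => z (π.y i)) ≠ 0) :
    π.ln z = ℓ := by
  rw [ln, eq_span (π.finrank_map hx h1 h3) hv h0, inf_comap_map ((π.ker _ hx).le.trans h1) h2]
theorem exists_pt {x : Pt} (hx : x ∈ X.pts) {ℓ : Submodule ℂ V.V} (h1 : L' x ≤ ℓ) (h2 : ℓ ≤ L x)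
    (h3 : finrank ℂ ℓ = finrank ℂ (L' x) + 1) : ∃ z ∈ π.P.pts, restr X.B z = x ∧ π.ln z = ℓ := by
  obtain ⟨v, hv, h0⟩ := (ℓ.map (π.φ x)).ne_bot_iff.1 fun e => by
    have := π.finrank_map hx h1 h3
    rw [e, finrank_bot] at this
    omega
  obtain ⟨z, hz, rfl, rfl⟩ := π.ps.exists_pt hx ((π.map x hx).le (Submodule.map_mono h2 hv)) h0
  exact ⟨z, hz, rfl, π.ln_eq hx h1 h2 h3 hv h0⟩
theorem uniq {z z' : Pt} (hz : z ∈ π.P.pts) (hz' : z' ∈ π.P.pts) (e : restr X.B z = restr X.B z')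
    (h : π.ln z = π.ln z') : ∃ c : ℂ, c ≠ 0 ∧ ∀ v : Var, v.1 = b → z' v = c * z v := by
  have h1 := π.map_ln hz
  rw [h, e, π.map_ln hz'] at h1
  obtain ⟨c, hc⟩ := Submodule.mem_span_singleton.1 (h1.le (Submodule.mem_span_singleton_self _))
  refine ⟨c, fun h0 => π.y_ne hz' (by rw [← hc, h0, zero_smul]), fun v hv => ?_⟩
  by_cases hy : v ∈ Set.range π.y
  · obtain ⟨i, rfl⟩ := hy
    exact (congrFun hc i).symm
  · have : ∀ {u : Pt}, u ∈ π.P.pts → u v = 0 := fun hu => by_contra fun h0 =>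
      (((π.ps.mem _).1 hu).2.2.2 v h0).elim (fun h => π.ps.new (hv ▸ h)) hy
    rw [this hz, this hz', mul_zero]
/-- a family of lines over `Y → X` gives a graph -/
theorem exists_graph (q : Proj Y X) (hb : b ∉ Y.B) {ℓ : Pt → Submodule ℂ V.V} (hℓ : IsAB Y V ℓ)
    (h : ∀ y ∈ Y.pts, L' (restr X.B y) ≤ ℓ y ∧ ℓ y ≤ L (restr X.B y) ∧
      finrank ℂ (ℓ y) = finrank ℂ (L' (restr X.B y)) + 1) :
    ∃ (G : Spc) (A₁ : Bun Y) (y₁ : A₁.ι → Var), IsPSub G A₁ π.δ b y₁ ∧ A₁.Rk 1 ∧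
      ∀ z, z ∈ G.pts ↔ z ∈ (Y.fib π.P).pts ∧ π.ln z = ℓ (restr Y.B z) := by
  have hd := fun i => DS_mono q.sub (π.A.hdeg i)
  have hr := fun y hy => π.finrank_map (q.map y hy) (h y hy).1 (h y hy).2.2
  have hM := hℓ.map_of_rk (in_co hd) (π.rm.pull q) hr
  have hp : PVar (hM.toBun (Pi.basisFun ℂ π.A.ι) π.A.deg hd (basisFun_g _)) π.δ b π.y :=
    ⟨hb, DS_mono q.sub π.ps.hδ, π.ps.inj, π.ps.blk, π.ps.deg⟩
  obtain ⟨G, hG⟩ := hp.exists_psub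
  have e : ∀ y, (hM.toBun (Pi.basisFun ℂ π.A.ι) π.A.deg hd (basisFun_g _)).L y =
      (ℓ y).map (π.φ (restr X.B y)) := fun y => by
    change Submodule.map _ _ = _
    rw [Pi.basisFun_equivFun]
    exact Submodule.map_id _
  refine ⟨G, _, _, hG, fun y hy => by rw [e]; exact hr y hy, fun z => ?_⟩
  rw [hG.mem, (π.ps.fib q hb).mem, e]
  have e' := restr_restr q.sub z
  refine ⟨fun ⟨h1, h2, h3, h4⟩ => ?_, fun ⟨⟨h1, h2, h3, h4⟩, h5⟩ => ⟨h1, ?_, h3, h4⟩⟩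
  · have hx := q.map _ h1
    obtain ⟨k1, k2, k3⟩ := h _ h1
    refine ⟨⟨h1, (π.map _ hx).le (Submodule.map_mono k2 h2), h3, h4⟩, ?_⟩
    rw [e'] at hx k1 k2 k3 h2
    exact π.ln_eq hx k1 k2 k3 h2 h3
  · have hx := q.map _ h1
    have h6 := (π.map _ hx).ge h2
    rw [← h5]
    rw [e'] at h6 ⊢
    exact (map_inf_comap ((Submodule.span_singleton_le_iff_mem _ _).2 h6)).ge
      (Submodule.mem_span_singleton_self _)

end PB

end Crest.Agent.N265.N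
end
end

-- ▼ part N265/N/PBz
section

/-!
# Row 265, layer N, task N-PBZ: zero loci in projective bundles of subquotients
-/

set_option autoImplicit false
noncomputable section
open MvPolynomial Module

namespace Crest.Agent.N265.N
open Alg GV Bun
variable {X Y : Spc} {V W : GV}
variable {L L' : Pt → Submodule ℂ V.V} {b : ℕ}

lemma dV_coord {x ξ : Pt} (hξ : ξ ∈ X.Tan x) {M : Type} [AddCommGroup M] [Module ℂ M]
    [FiniteDimensional ℂ M] {σ : X.pts → M} (ℓ : Dual ℂ M) {r : R}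
    (h : ∀ y : X.pts, ℓ (σ y) = eval y.1 r) : ℓ (dV (X.pd x ξ) σ) = dAt x ξ r := by
  rw [dV_spec]; exact Spc.pd_of_eq hξ h
/-- the zero locus lemma, basis-free -/
theorem zlA {P Z : Spc} {N r : ℕ} (hP : P.Sm N) {U : GV} {E : Pt → Submodule ℂ U.V}
    (hE : IsAB P U E) (hr : ∀ z ∈ P.pts, finrank ℂ (E z) = r) {s : Pt → U.V} (hs : IsRV P U s)
    (hm : ∀ z ∈ P.pts, s z ∈ E z) (hZ : Z.Sub P) (hz : ∀ z ∈ P.pts, z ∈ Z.pts ↔ s z = 0)
    (ht : ∀ z ∈ Z.pts, ∀ e ∈ E z, ∃ ξ ∈ P.Tan z, dV (P.pd z ξ) (fun y => s y.1) = e) :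
    Z.Sm (N - r) ∧ (Z.pts.Nonempty → r ≤ N) ∧ ∃ A : Bun P, A.kl = kc P U E ∧
      push Z P (one Z) = eu A • one P ∧
      tanK Z = K.pull hZ.proj (tanK P) - K.pull hZ.proj (kc P U E) := by
  obtain ⟨A, β, hA⟩ := hE.exists_pres
  have pA : Pres A U E := ⟨β, hA⟩
  obtain ⟨t, hh, ht'⟩ := hs.exists_poly β hA.1
  have rA : A.Rk r := fun z h => (pA.finrank h).trans (hr z h)
  have sec : A.IsSec t := fun z h => by
    rw [hA.2 z h]; exact ⟨_, hm z h, funext fun i => (ht' z h i).symm⟩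
  have zer : ∀ z ∈ P.pts, z ∈ Z.pts ↔ ∀ i, eval z (t i) = 0 := fun z h => by
    rw [hz z h, ← β.repr.map_eq_zero_iff, Finsupp.ext_iff]
    exact forall_congr' fun i => by rw [ht' z h i]; rfl
  have tr : ∀ z ∈ Z.pts, finrank ℂ (P.Tan z ⊓ LinearMap.ker (V.dS z t) : Submodule ℂ Pt) + r ≤ N := by
    intro z h
    have hz' := hZ.2 h
    have h1 := V.finrank_inf_ker_add (P.Tan z) (V.dS z t)
    have h2 : A.L z ≤ (P.Tan z).map (V.dS z t) := by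
      rw [hA.2 z hz']
      rintro _ ⟨e, he, rfl⟩
      obtain ⟨ξ, hξ, rfl⟩ := ht z h e he
      exact ⟨ξ, hξ, funext fun i => (dV_coord hξ (β.coord i) fun y => (ht' y.1 y.2 i).symm).symm⟩
    have h3 := Submodule.finrank_mono h2
    rw [rA z hz'] at h3
    rw [(hP z hz').1] at h1
    omega
  obtain ⟨h1, h2, h3⟩ := V.zl hP rA sec hh hZ zer tr
  refine ⟨h1, fun ⟨z, h⟩ => (h2 z h).1, A, pA.kl, h3, ?_⟩
  obtain ⟨S, hS⟩ := exists_vars P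
  rw [tanK_eq hP hS, tanK_eq h1 (V.vars_sub hS hZ), ← pA.kl, K.pull_kl, K.pull_kl,
    V.zl_tan hP rA sec hh hZ zer tr hS h1, add_sub_cancel_right]

lemma isVar_homMap {T M N : Type} [AddCommGroup M] [Module ℂ M] [FiniteDimensional ℂ M]
    [AddCommGroup N] [Module ℂ N] [FiniteDimensional ℂ N] {𝒜 : Subalgebra ℂ (T → ℂ)} {x₀ : T}
    {δ : (T → ℂ) →ₗ[ℂ] ℂ} (hδ : PDer 𝒜 x₀ δ) {A : T → Submodule ℂ M} {B : T → Submodule ℂ N}
    (hA : Alg 𝒜 A) {a : M →ₗ[ℂ] M} {c : N →ₗ[ℂ] N} (ha : IsVar 𝒜 x₀ δ A a) (hc : IsVar 𝒜 x₀ δ B c) :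
    IsVar 𝒜 x₀ δ (fun x => homMap (A x) (B x))
      (LinearMap.llcomp ℂ M N N c - LinearMap.lcomp ℂ N a) := fun σ hσ hm v hv => by
  have := ha.map hδ hA (RegM.of_regV hσ) (fun x => Submodule.map_le_iff_le_comap.2 (hm x)) hc v hv
  convert this using 1
  simp only [LinearMap.sub_apply, LinearMap.llcomp_apply, LinearMap.lcomp_apply]
  abel
lemma cov_deriv {A : Bun X} {a : A.ι → R} (ha : A.IsCov a) {x ξ : Pt} (hx : x ∈ X.pts)
    (hξ : ξ ∈ X.Tan x) {σ : X.pts → A.ι → ℂ} (hσ : RegV X.fn σ) (hm : ∀ y, σ y ∈ A.L y.1) :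
    ∑ i, (dAt x ξ (a i) * σ ⟨x, hx⟩ i + eval x (a i) * dV (X.pd x ξ) σ i) = 0 := by
  obtain ⟨s, hs⟩ := regV_iff_poly.1 hσ
  have h0 : ∑ i, a i * s i ∈ X.I := fun y hy => by
    rw [map_sum]
    simpa only [map_mul, hs] using ha y hy _ (hm ⟨y, hy⟩)
  have h1 := hξ _ h0
  rw [← h1, Jac.dAt_sum]
  refine Finset.sum_congr rfl fun i _ => ?_
  rw [dAt_mul, show dV (X.pd x ξ) σ i = dAt x ξ (s i) from
    dV_coord hξ (σ := σ) (LinearMap.proj i) fun y => hs y i, hs]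
  ring

namespace PB
variable (π : PB X V L L' b)
/-- lifting tangent vectors with a prescribed motion of the line -/
theorem exists_lift {z : Pt} (hz : z ∈ π.P.pts) {v : V.V} (hv : v ∈ L (restr X.B z))
    (e : π.φ (restr X.B z) v = fun i => z (π.y i)) {ξ : Pt} (hξ : ξ ∈ X.Tan (restr X.B z))
    {a : V.V →ₗ[ℂ] V.V}
    (ha : IsVar X.fn ⟨_, π.proj.map z hz⟩ (X.pd (restr X.B z) ξ) (fun y => L y.1) a) {v' : V.V}
    (hv' : v' ∈ L (restr X.B z)) : ∃ η ∈ π.P.Tan z, restr X.B η = ξ ∧ ∃ c,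
      IsVar π.P.fn ⟨z, hz⟩ (π.P.pd z η) (fun y => π.ln y.1) c ∧ c v - (a v + v') ∈ π.ln z := by
  have hx := π.proj.map z hz
  have hδ := Spc.pder_pd hx hξ
  let u : π.A.ι → ℂ := dV (X.pd (restr X.B z) ξ) (fun y : X.pts => π.φ y.1) v + π.φ (restr X.B z) (a v + v')
  have e0 : ∀ w : Var, w.1 ∈ X.B → Function.extend π.y u (0 : Pt) w = 0 := fun w hw =>
    Function.extend_apply' _ _ _ (by rintro ⟨i, rfl⟩; exact π.ps.notMem i hw)
  have r0 := TanAux.restr_tan hξ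
  have e1 : restr X.B (ξ + Function.extend π.y u (0 : Pt)) = ξ := funext fun w => by
    by_cases hw : w.1 ∈ X.B
    · simp [restr, hw, e0 w hw]
    · rw [← r0]; simp [restr, hw]
  have e2 : ∀ i, (ξ + Function.extend π.y u (0 : Pt)) (π.y i) = u i := fun i => by
    rw [Pi.add_apply, π.ps.inj.extend_apply, ← r0]
    simp [restr, π.ps.notMem i]
  have mA : ∀ y ∈ X.pts, ∀ w ∈ L y, π.φ y w ∈ π.A.L y := fun y hy w hw =>
    π.map y hy ▸ Submodule.mem_map_of_mem hw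
  have hη : ξ + Function.extend π.y u (0 : Pt) ∈ π.P.Tan z := by
    refine (π.ps.mem_tan hz).2 ⟨e1.symm ▸ hξ, fun w hw => ?_, fun c hc => ?_⟩
    · by_contra hn
      rw [not_or] at hn
      refine hw ?_
      rw [Pi.add_apply, Function.extend_apply' _ _ _ hn.2, ← r0]
      simp [restr, hn.1]
    · obtain ⟨τ, h1, h2, h3⟩ := π.hL.gen ⟨_, hx⟩ v hv
      have h4 := cov_deriv hc hx hξ (π.rm.reg.apply h1) fun y => mA _ y.2 _ (h2 y)
      have h5 := hc _ hx _ (mA _ hx _ (sub_mem hv' (ha τ h1 h2)))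
      rw [hδ.dV_app π.rm.reg h1, h3, e] at h4
      have h6 := congrArg₂ (· + ·) h4 h5
      simp only [← Finset.sum_add_distrib, add_zero] at h6
      rw [e1]
      refine (Finset.sum_congr rfl fun i _ => ?_).trans h6
      rw [e2, h3]
      simp only [u, map_add, map_sub, Pi.add_apply, Pi.sub_apply]
      ring
  have hδ' := Spc.pder_pd hz hη
  have hvl : v ∈ π.ln z := ⟨hv, Submodule.mem_comap.2 (by
    rw [e]; exact Submodule.mem_span_singleton_self _)⟩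
  obtain ⟨c, hc⟩ := hδ'.exists_isVar π.isAB_ln.alg
  obtain ⟨χ, hχ⟩ := hδ'.exists_isVar π.isAB_span.alg
  refine ⟨_, hη, e1, c, hc, ?_, ?_⟩
  · have ha' := IsVar.pull π.proj hz hη π.hL.alg (φ := a) (by rw [e1]; exact ha)
    have := IsVar.le π.isAB_ln.alg (fun y => π.ln_le y.1) ha' hc v hvl
    have e3 : c v - (a v + v') = -(a v - c v + v') := by abel
    exact e3 ▸ neg_mem (add_mem this hv')
  · have h1 := hc.map hδ' π.isAB_ln.alg (π.rm.pull π.proj).reg (fun y => (π.map_ln y.2).le) hχ v hvl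
    have h2 := hχ _ π.isRV_y.reg fun y => Submodule.mem_span_singleton_self _
    have h3 : dV (π.P.pd z (ξ + Function.extend π.y u 0))
        (fun y : π.P.pts => fun i => y.1 (π.y i)) = u := by
      funext i
      have := dV_coord hη (σ := fun y : π.P.pts => fun i => y.1 (π.y i)) (LinearMap.proj i)
        (r := MvPolynomial.X (π.y i)) fun y => by rw [eval_X]; rfl
      rw [dAt_X, e2] at this
      exact this
    have h4 := dV_pd_pull π.proj hη (σ := π.φ) (regM_iff_regV.1 π.rm.reg)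
    rw [e1] at h4
    have h5 : dV (X.pd (restr X.B z) ξ) (fun y : X.pts => π.φ y.1) v + π.φ (restr X.B z) (c v) -
        χ (π.φ (restr X.B z) v) ∈ Submodule.span ℂ {fun i => z (π.y i)} := h4 ▸ h1
    have h6 : u - χ (fun i => z (π.y i)) ∈ Submodule.span ℂ {fun i => z (π.y i)} := h3 ▸ h2
    have h7 := sub_mem h5 h6
    rw [e, sub_sub_sub_cancel_right, add_sub_add_left_eq_sub, ← map_sub] at h7
    exact h7

section zero
variable {M M' : Pt → Submodule ℂ W.V} {ψ : Pt → V.V →ₗ[ℂ] W.V}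
/-- transversality of `ℓ → M / M'` at `v ∈ ℓ` over `x` -/
def _root_.Crest.Agent.N265.N.Transv (X : Spc) {V W : GV} (L : Pt → Submodule ℂ V.V)
    (M M' : Pt → Submodule ℂ W.V) (ψ : Pt → V.V →ₗ[ℂ] W.V) (x : X.pts) (v : V.V) : Prop :=
  ∀ m ∈ M x.1, ∃ ξ ∈ X.Tan x.1, ∃ (a : V.V →ₗ[ℂ] V.V) (c : W.V →ₗ[ℂ] W.V),
    IsVar X.fn x (X.pd x.1 ξ) (fun y => L y.1) a ∧ IsVar X.fn x (X.pd x.1 ξ) (fun y => M' y.1) c ∧
    ∃ v' ∈ L x.1, dV (X.pd x.1 ξ) (fun y : X.pts => ψ y.1) v + ψ x.1 (a v + v') - c (ψ x.1 v) - m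
      ∈ M' x.1
theorem exists_zero (hM' : IsAB X W M') (hψ : IsRM X V W ψ) : ∃ Z : Spc, Z.Sub π.P ∧
    ∀ z ∈ π.P.pts, z ∈ Z.pts ↔ (π.ln z).map (ψ (restr X.B z)) ≤ M' (restr X.B z) := by
  have e := π.isAB_ln.eqv'.map (hψ.pull π.proj)
  have e' := (hM'.pull π.proj).eqv'
  refine ⟨π.P.leLoc _ _ (π.isAB_ln.gen.map (hψ.pull π.proj).reg) (hM'.pull π.proj).cog
    fun z hz h => ?_, Spc.leLoc_sub _ _ _ _ _ _, fun z hz => Spc.mem_leLoc.trans (and_iff_right hz)⟩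
  exact (e z hz).symm.le.trans ((Submodule.map_mono h).trans (e' z hz).le)
/-- **zero locus of `ℓ / L' → M / M'`** -/
theorem zl {n a r : ℕ} (hX : X.Sm n) (hA : π.A.Rk a) (hM : IsAB X W M) (hM' : IsAB X W M')
    (hr : ∀ x ∈ X.pts, M' x ≤ M x ∧ finrank ℂ (M x) = finrank ℂ (M' x) + r) (hψ : IsRM X V W ψ)
    (h1 : ∀ x ∈ X.pts, (L x).map (ψ x) ≤ M x) (h2 : ∀ x ∈ X.pts, (L' x).map (ψ x) ≤ M' x)
    {Z : Spc} (hZ : Z.Sub π.P)
    (hz : ∀ z ∈ π.P.pts, z ∈ Z.pts ↔ (π.ln z).map (ψ (restr X.B z)) ≤ M' (restr X.B z))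
    (ht : ∀ x : X.pts, ∀ v ∈ L x.1, v ∉ L' x.1 → ψ x.1 v ∈ M' x.1 → Transv X L M M' ψ x v) :
    Z.Sm (n + a - r) ∧ (Z.pts.Nonempty → r ≤ n + a) ∧ ∃ E : Bun π.P,
      E.kl = lbK π.P (eB b - π.δ) * K.pull π.proj (kc X W M - kc X W M') ∧
      push Z π.P (one Z) = eu E • one π.P ∧
      tanK Z = K.pull (hZ.proj.trans π.proj) (tanK X) + lbK Z (eB b - π.δ) *
        K.pull (hZ.proj.trans π.proj) ((kc X V L - kc X V L') - (kc X W M - kc X W M')) := by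
  have q := π.proj
  have hl := π.isAB_ln
  have lel : ∀ z ∈ π.P.pts, L' (restr X.B z) ≤ π.ln z := fun z h => π.le_ln h
  have leM : ∀ z ∈ π.P.pts, M' (restr X.B z) ≤ M (restr X.B z) := fun z h => (hr _ (q.map z h)).1
  have H₁ := hl.homMap_inf (π.hL'.pull q) (hM.pull q) (hM'.pull q) lel leM
  have H₀ := hl.homMap (hM'.pull q)
  obtain ⟨U, Φ, hΦ, hE, hk, eE⟩ := H₁.exists_sq H₀ fun z h θ hθ =>
    ⟨fun v hv => leM z h (hθ v hv), fun v hv => hθ v (lel z h hv)⟩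
  rw [kq_hom hl (π.hL'.pull q) (hM.pull q) (hM'.pull q) lel leM, ← kc_pull π.hL' q, π.kc_ln,
    K.dual_lbK, neg_sub] at eE
  have hs := hΦ.app (isRM_iff.1 (hψ.pull q))
  obtain ⟨k1, k2, E, k3, k4, k5⟩ := zlA (π.ps.sm hX hA) hE (r := r) (fun z h => by
      have := rk_kc hE h
      rw [eE, map_mul, map_sub, rk_kc (hM.pull q) h, rk_kc (hM'.pull q) h, lbK, K.rk_kl,
        rk_line _ z h, (hr _ (q.map z h)).2] at this
      omega) hs (fun z h => Submodule.mem_map_of_mem ⟨fun v hv => h1 _ (q.map z h)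
      (Submodule.mem_map_of_mem (π.ln_le z hv)), fun v hv => h2 _ (q.map z h)
      (Submodule.mem_map_of_mem hv)⟩) hZ (fun z h => by
      rw [hz z h, ← LinearMap.mem_ker, hk z h]; exact Submodule.map_le_iff_le_comap) (by
      rintro z hzZ _ ⟨θ, hθ, rfl⟩
      have h := hZ.2 hzZ
      have hx := q.map z h
      have h0 := Submodule.map_le_iff_le_comap.1 ((hz z h).1 hzZ)
      obtain ⟨v, hv, e⟩ : (fun i => z (π.y i)) ∈ (π.ln z).map (π.φ (restr X.B z)) :=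
        π.map_ln h ▸ Submodule.mem_span_singleton_self _
      have hv0 : v ∉ L' (restr X.B z) := fun h' => π.y_ne h (e ▸ (π.ker _ hx).ge h')
      obtain ⟨ξ, hξ, a, c, ha, hc, v', hv', ht'⟩ := ht ⟨_, hx⟩ v hv.1 hv0 (h0 hv) _ (hθ.1 v hv)
      obtain ⟨η, hη, e1, a₁, ha₁, ha₂⟩ := π.exists_lift h hv.1 e hξ ha hv'
      have hδ := Spc.pder_pd h hη
      have hc' := IsVar.pull q h hη hM'.alg (φ := c) (by rw [e1]; exact hc)
      have dψ : dV (π.P.pd z η) (fun y : π.P.pts => ψ (restr X.B y.1)) =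
          dV (X.pd (restr X.B z) ξ) fun y : X.pts => ψ y.1 := by
        rw [dV_pd_pull q hη (regM_iff_regV.1 hψ.reg), e1]
      have kl := (isVar_homMap hδ hl.alg ha₁ hc').kill hδ H₀.alg hΦ.reg
        (fun y w hw => (hk _ y.2).ge hw) _ h0
      refine ⟨η, hη, ?_⟩
      rw [hδ.dV_app hΦ.reg (isRM_iff.1 (hψ.pull q)).reg, eq_neg_of_add_eq_zero_left kl,
        ← map_neg, ← map_add, ← sub_eq_zero, ← map_sub, ← LinearMap.mem_ker, hk z h, dψ]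
      intro w hw
      obtain ⟨t, ht⟩ := Submodule.mem_span_singleton.1 hw.2
      have hw' : w - t • v ∈ L' (restr X.B z) := (π.ker _ hx).le (by
        rw [LinearMap.mem_ker, map_sub, map_smul, e, ht, sub_self])
      obtain ⟨a', ha'⟩ := hδ.exists_isVar (π.hL'.pull q).alg
      have s1 := ha'.map hδ (π.hL'.pull q).alg (hψ.pull q).reg (fun y => h2 _ (q.map _ y.2)) hc' _ hw'
      have s2 := h0 (IsVar.le (π.hL'.pull q).alg (fun y => lel _ y.2) ha₁ ha' _ hw')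
      rw [dψ] at s1
      have s3 := add_mem (sub_mem (add_mem s1 s2) (hθ.2 _ hw'))
        (Submodule.smul_mem _ t (add_mem ht' (h0 ha₂)))
      convert s3 using 1
      simp only [LinearMap.sub_apply, LinearMap.add_apply, LinearMap.neg_apply,
        LinearMap.llcomp_apply, LinearMap.lcomp_apply, map_sub, map_add, map_smul]
      module)
  rw [eE, ← kc_pull hM q, ← kc_pull hM' q, ← map_sub] at k3 k5
  refine ⟨k1, k2, E, k3, k4, ?_⟩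
  rw [k5, psub_tanK π.ps hX hA, π.kl]
  simp only [map_add, map_mul, map_sub, K.pull_pull, K.pull_lbK _ π.d_mem]
  ring
end zero
end PB

end Crest.Agent.N265.N
end
end

-- ▼ part N265/N/Trv
section

/-!
# Row 265, layer N, task N-TRV: transversality of the two zero loci
-/

set_option autoImplicit false
noncomputable section
open MvPolynomial Module TensorProduct

namespace Crest.Agent.N265.N
open Alg GV Br _root_.Crest.Agent.N265.Pow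

namespace AD
variable {Sg : Surf} {α : AD Sg} {T : Submodule ℂ α.W.V → Prop} {r : ℕ} {h : ℕ → ℕ} {X : Spc}
  {L : Pt → Submodule ℂ α.W.V} {k : ℕ} {z : Pt}
lemma ev_rT (k : ℕ) (z : Pt) (φ : α.W.V →ₗ[ℂ] α.W.V) (t : (WA Sg α.W k).V) :
    α.ev k z (LinearMap.rTensor _ φ t) = φ (α.ev k z t) :=
  LinearMap.congr_fun (TensorProduct.ext' (g := α.ev k z ∘ₗ φ.rTensor _) (h := φ ∘ₗ α.ev k z)
    fun _ _ => by simp [ev]) t
/-- Lines in `KK / ZK` killed by evaluation. Given `m ∈ L x` take `ψ ∈ ZK^⊥` with `ψ v = 1`, `φ`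
from `ks` with `u = -m`, `ξ` from `TS`, `a` a variation of `KK` (`PDer.exists_isVar`), `c = 0`.
By `var_KK`, `ev (a v) ≡ φ (ev v) - ev θ ≡ m` modulo `ev KK`. -/
theorem Fam.transv_up (F : α.Fam X T L) (hT : α.TyOK T r h) (ts : α.TS X L) (hk : α.e ≤ k)
    (hz : z ∈ α.S.pts) (x : X.pts) {v : (WA Sg α.W (k + 1)).V} (hv : v ∈ α.KK (L x.1) (k + 1))
    (h0 : v ∉ α.ZK (L x.1) k z) (h1 : α.ev (k + 1) z v = 0) :
    Transv X (V := WA Sg α.W (k + 1)) (W := α.W) (fun a => α.KK (L a) (k + 1)) L (fun _ => ⊥)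
      (fun _ => α.ev (k + 1) z) x v := by
  intro m hm
  obtain ⟨ψ, hψ, h2⟩ : ∃ ψ ∈ (α.ZK (L x.1) k z).dualAnnihilator, ψ v ≠ 0 := by
    by_contra hc
    push Not at hc
    exact h0 ((Subspace.forall_mem_dualAnnihilator_apply_eq_zero_iff _ _).1 hc)
  obtain ⟨φ, hφ, H⟩ := hT.ks _ (F.ty _ x.2) k hk z hz ψ hψ _ ((L x.1).smul_mem (-(ψ v)⁻¹) hm)
  obtain ⟨θ, hθ, e, κ, hκ, e'⟩ := H v hv h1
  obtain ⟨ξ, hξ, hv'⟩ := ts x φ hφ
  have hd := Spc.pder_pd x.2 hξ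
  obtain ⟨a, ha⟩ := hd.exists_isVar (F.isAB_KK hT (k + 1)).alg
  refine ⟨ξ, hξ, a, 0, ha, isVar_const ⊥, _, sub_mem hκ (F.var_KK hT hξ hv' ha hv hθ e), ?_⟩
  rw [smul_smul, mul_neg, mul_inv_cancel₀ h2, neg_one_smul, sub_neg_eq_add] at e'
  rw [hd.dV_const, Submodule.mem_bot, map_add, map_sub, map_sub, map_sub, ev_rT, h1, map_zero, e',
    LinearMap.zero_apply, LinearMap.zero_apply]
  abel
/-- Functionals `λ` on `W` that kill `ev KK`, non-zero on `L x`. Given `m ∈ ZK^⊥` take `u ∈ L x`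
with `λ u = -1`, `φ` from `ks` with `ψ = m`, `a = 0`, `c = -a_K^∨` (`isVar_perp`). The functional
`m - λ ∘ ev ∘ a_K` on `KK` kills `KK ∩ ker ev` (`var_KK`), so it is `λ' ∘ ev` on `KK`. -/
theorem Fam.transv_down (F : α.Fam X T L) (hT : α.TyOK T r h) (ts : α.TS X L) (hk : α.e ≤ k)
    (hz : z ∈ α.S.pts) (x : X.pts) {l : α.W.dual.V} (h0 : l ∉ (L x.1).dualAnnihilator)
    (h1 : (α.ev (k + 1) z).dualMap l ∈ (α.KK (L x.1) (k + 1)).dualAnnihilator) :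
    Transv X (V := α.W.dual) (W := (WA Sg α.W (k + 1)).dual) (fun _ => ⊤)
      (fun a => (α.ZK (L a) k z).dualAnnihilator) (fun a => (α.KK (L a) (k + 1)).dualAnnihilator)
      (fun _ => (α.ev (k + 1) z).dualMap) x l := by
  intro m hm
  obtain ⟨u, hu, h2⟩ : ∃ u ∈ L x.1, l u ≠ 0 := by
    by_contra hc
    push Not at hc
    exact h0 ((Submodule.mem_dualAnnihilator l).2 hc)
  obtain ⟨φ, hφ, H⟩ := hT.ks _ (F.ty _ x.2) k hk z hz m hm _ ((L x.1).smul_mem (-(l u)⁻¹) hu)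
  obtain ⟨ξ, hξ, hv'⟩ := ts x φ hφ
  have hd := Spc.pder_pd x.2 hξ
  have hK := (F.isAB_KK hT (k + 1)).alg
  obtain ⟨a, ha⟩ := hd.exists_isVar hK
  have hl : ∀ κ ∈ α.KK (L x.1) (k + 1), l (α.ev (k + 1) z κ) = 0 :=
    (Submodule.mem_dualAnnihilator _).1 h1
  have : (m - l ∘ₗ α.ev (k + 1) z ∘ₗ a) ∘ₗ (α.KK (L x.1) (k + 1)).subtype ∈
      LinearMap.range (α.ev (k + 1) z ∘ₗ (α.KK (L x.1) (k + 1)).subtype).dualMap := by
    rw [LinearMap.range_dualMap_eq_dualAnnihilator_ker, Submodule.mem_dualAnnihilator]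
    rintro ⟨κ, hκ⟩ h3
    replace h3 : α.ev (k + 1) z κ = 0 := h3
    obtain ⟨θ, hθ, e, κ', hκ', e'⟩ := H κ hκ h3
    have h4 := hl _ (F.var_KK hT hξ hv' ha hκ hθ e)
    have h5 := hl _ hκ'
    rw [e'] at h5
    rw [map_sub, map_sub, map_sub, ev_rT, h3, map_zero] at h4
    simp only [map_sub, map_zero, map_smul, smul_eq_mul, neg_mul, inv_mul_cancel₀ h2] at h4 h5
    change m κ - l (α.ev (k + 1) z (a κ)) = 0
    linear_combination h5 - h4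
  obtain ⟨l', hl'⟩ := this
  refine ⟨ξ, hξ, 0, -a.dualMap, isVar_const ⊤, isVar_perp hd hK ha, l', trivial,
    (Submodule.mem_dualAnnihilator _).2 fun κ hκ => ?_⟩
  have h6 : l' (α.ev (k + 1) z κ) = m κ - l (α.ev (k + 1) z (a κ)) :=
    LinearMap.congr_fun hl' ⟨κ, hκ⟩
  rw [hd.dV_const]
  simp only [LinearMap.zero_apply, zero_add, LinearMap.sub_apply, LinearMap.neg_apply,
    LinearMap.dualMap_apply, h6]
  ring
end AD

end Crest.Agent.N265.N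
end
end

-- ▼ part N265/N/Nest
section

/-!
# Row 265, layer N, task N-NEST: the nested space as a zero locus in two ways
-/

set_option autoImplicit false
noncomputable section
open MvPolynomial Module TensorProduct

namespace Crest.Agent.N265.N
open Alg GV Br Bun _root_.Crest.Agent.N265.Pow

/-- the data of `Top.z1_of`, `Top.z2_of` -/
def ZData (N X : Spc) (a e : K X) (r : ℕ) (lam : K N) : Prop :=
  ∃ (P : Spc) (A : Bun X) (δ : D) (c : ℕ) (y : A.ι → Var) (hP : IsPSub P A δ c y) (Z : Spc)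
    (E : Bun P), Z.Sub P ∧ Proj N Z ∧ A.kl = a ∧ A.Rk r ∧
      E.kl = lbK P (eB c - δ) * K.pull hP.proj e ∧ push Z P (one Z) = eu E • one P ∧
      push N Z (one N) = one Z ∧ lam = lbK N (eB c - δ)
/-- the subset of `Z × F` given by `Q` is a graph over `Z` -/
def IsGraph (Z F : Spc) (b : ℕ) (Q : Pt → Prop) : Prop :=
  ∃ (P : Spc) (A : Bun Z) (y : A.ι → Var), IsPSub P A 0 b y ∧ A.Rk 1 ∧
    ∀ z, z ∈ P.pts ↔ z ∈ (Z.fib F).pts ∧ Q z
/-- two graphs -/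
theorem two_graphs {Z G₁ G₂ : Spc} {A₁ : Bun Z} {A₂ : Bun G₁} {δ₁ δ₂ b₁ b₂ y₁ y₂}
    (h₁ : IsPSub G₁ A₁ δ₁ b₁ y₁) (r₁ : A₁.Rk 1) (h₂ : IsPSub G₂ A₂ δ₂ b₂ y₂) (r₂ : A₂.Rk 1) {n : ℕ}
    (hZ : Z.Sm n) : push G₂ Z (one G₂) = one Z ∧
      tanK G₂ = K.pull (h₂.proj.trans h₁.proj) (tanK Z) + 2 := by
  refine ⟨by rw [← push_push h₂.proj h₁.proj, h₂.push_one r₂, h₁.push_one r₁], ?_⟩
  rw [graph_tanK h₂ (h₁.sm hZ r₁) r₂, graph_tanK h₁ hZ r₁, map_add, map_one, K.pull_pull]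
  ring

/-- two moduli spaces `F`, `F'` whose types differ by one point; `E` = the other ideals agree -/
structure ND {Sg : Surf} (α : AD Sg) where
  F : Spc
  F' : Spc
  b : ℕ
  b' : ℕ
  hB : F.B = {b}
  hB' : F'.B = {b'}
  ne : b ≠ b'
  T : Submodule ℂ α.W.V → Prop
  T' : Submodule ℂ α.W.V → Prop
  r : ℕ
  h : ℕ → ℕ
  h' : ℕ → ℕ
  ok : α.StepOK T T' r h h'
  U : Pt → Submodule ℂ α.W.V
  U' : Pt → Submodule ℂ α.W.V
  fam : α.Fam F T U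
  fam' : α.Fam F' T' U'
  n : ℕ
  n' : ℕ
  sm : F.Sm n
  sm' : F'.Sm n'
  ts : α.TS F U
  ts' : α.TS F' U'
  E : Pt → Pt → Prop
  gr : ∀ (Z : Spc) (L : Pt → Submodule ℂ α.W.V), Proj Z F' → b ∉ Z.B → α.Fam Z T L →
    IsGraph Z F b fun z => U (restr F.B z) = L (restr Z.B z) ∧ E (restr F.B z) (restr F'.B z)
  gr' : ∀ (Z : Spc) (L : Pt → Submodule ℂ α.W.V), Proj Z F → b' ∉ Z.B → α.Fam Z T' L →
    IsGraph Z F' b' fun z => U' (restr F'.B z) = L (restr Z.B z) ∧ E (restr F.B z) (restr F'.B z)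
  z : α.S.pts
  k : ℕ
  hk : α.e ≤ k
  hd : DltOK Sg α.b (k + 1) z

namespace ND
variable {Sg : Surf} {α : AD Sg} (ν : ND α)
/-- the ambient space of the syzygies -/
abbrev V : GV := WA Sg α.W (ν.k + 1 + 1)
/-- syzygies -/
abbrev KK (U : Submodule ℂ α.W.V) : Submodule ℂ ν.V.V := α.KK U (ν.k + 1 + 1)
/-- syzygies vanishing at `z` -/
abbrev ZK (U : Submodule ℂ α.W.V) : Submodule ℂ ν.V.V := α.ZK U (ν.k + 1) ν.z.1
/-- `[U]` -/
def u : K ν.F := kc ν.F α.W ν.U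
/-- `[U']` -/
def u' : K ν.F' := kc ν.F' α.W ν.U'
/-- `[B|_z]` -/
def s : K ν.F := kc ν.F ν.V (fun x => ν.KK (ν.U x)) - kc ν.F ν.V fun x => ν.ZK (ν.U x)
/-- `[B'|_z]` -/
def s' : K ν.F' := kc ν.F' ν.V (fun x => ν.KK (ν.U' x)) - kc ν.F' ν.V fun x => ν.ZK (ν.U' x)
/-- a new block -/
def c : ℕ := ν.b + ν.b' + α.b + 1
/-- hyperplanes of `U` -/
abbrev P₁ : Type 1 := PB ν.F α.W.dual (fun _ => ⊤) (fun x => (ν.U x).dualAnnihilator) ν.c
/-- lines in `B'|_z` -/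
abbrev P₂ : Type 1 := PB ν.F' ν.V (fun x => ν.KK (ν.U' x)) (fun x => ν.ZK (ν.U' x)) (ν.c + 1)
lemma hk' : α.e ≤ ν.k + 1 := ν.hk.trans (Nat.le_succ _)
lemma nb_b : α.b ≠ ν.b := fun e => ν.fam.nb (by rw [ν.hB, e]; exact Finset.mem_singleton_self _)
lemma nb_b' : α.b ≠ ν.b' := fun e => ν.fam'.nb (by rw [ν.hB', e]; exact Finset.mem_singleton_self _)
theorem exists_P₁ : Nonempty ν.P₁ :=
  exists_PB (IsAB.top (α.in_W _).dual) ν.fam.ab.perp (fun _ _ => le_top)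
    (by rw [ν.hB, Finset.mem_singleton, c]; omega)
theorem exists_P₂ : Nonempty ν.P₂ :=
  exists_PB (ν.fam'.isAB_KK ν.ok.ty' _) (ν.fam'.isAB_ZK ν.ok.ty' ν.hk' ν.z.2)
    (fun _ _ => AD.ZK_le _ _ _) (by rw [ν.hB', Finset.mem_singleton, c]; omega)
/-- the points of the nested space -/
structure Pts (π₁ : ν.P₁) (π₂ : ν.P₂) (y : Pt) : Prop where
  supp : ∀ v, y v ≠ 0 → v.1 ∈ ({ν.b, ν.b', ν.c, ν.c + 1} : Finset ℕ)
  m₁ : restr π₁.P.B y ∈ π₁.P.pts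
  m₂ : restr π₂.P.B y ∈ π₂.P.pts
  mod : α.Mod (ν.U (restr ν.F.B y)) (ν.U' (restr ν.F'.B y)) ν.z.1
  e : ν.E (restr ν.F.B y) (restr ν.F'.B y)
  l₁ : π₁.ln y = (ν.U' (restr ν.F'.B y)).dualAnnihilator
  l₂ : π₂.ln y = α.sl (ν.U (restr ν.F.B y)) (ν.U' (restr ν.F'.B y)) (ν.k + 1) ν.z.1
/-- `N` is the nested space -/
structure IsN (π₁ : ν.P₁) (π₂ : ν.P₂) (N : Spc) : Prop where
  B : N.B = {ν.b, ν.b', ν.c, ν.c + 1}
  mem : ∀ y, y ∈ N.pts ↔ ν.Pts π₁ π₂ y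
variable {ν} {π₁ : ν.P₁} {π₂ : ν.P₂} {N : Spc}
lemma IsN.uniq (h : ν.IsN π₁ π₂ N) {N' : Spc} (h' : ν.IsN π₁ π₂ N') : N = N' :=
  Spc.ext (h.B.trans h'.B.symm) (Set.ext fun y => (h.mem y).trans (h'.mem y).symm)
lemma B₁ (π₁ : ν.P₁) : π₁.P.B = {ν.c, ν.b} := by rw [π₁.ps.B, ν.hB]
lemma B₂ (π₂ : ν.P₂) : π₂.P.B = {ν.c + 1, ν.b'} := by rw [π₂.ps.B, ν.hB']
lemma IsN.pr₁ (h : ν.IsN π₁ π₂ N) : Proj N π₁.P :=
  ⟨by rw [h.B, B₁]; intro; simp only [Finset.mem_insert, Finset.mem_singleton]; tauto,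
    fun y hy => ((h.mem y).1 hy).m₁⟩
lemma IsN.pr₂ (h : ν.IsN π₁ π₂ N) : Proj N π₂.P :=
  ⟨by rw [h.B, B₂]; intro; simp only [Finset.mem_insert, Finset.mem_singleton]; tauto,
    fun y hy => ((h.mem y).1 hy).m₂⟩
lemma IsN.pr (h : ν.IsN π₁ π₂ N) : Proj N ν.F := h.pr₁.trans π₁.proj
lemma IsN.pr' (h : ν.IsN π₁ π₂ N) : Proj N ν.F' := h.pr₂.trans π₂.proj
lemma IsN.nb (h : ν.IsN π₁ π₂ N) : α.b ∉ N.B := by
  have h1 := ν.nb_b
  have h2 := ν.nb_b'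
  simp only [h.B, Finset.mem_insert, Finset.mem_singleton, c]
  omega
lemma isAB_coperp {X : Spc} {V : GV} {M : Pt → Submodule ℂ V.dual.V} (hV : V.In X.B)
    (h : IsAB X V.dual M) : IsAB X V fun x => (M x).dualCoannihilator :=
  ⟨hV, h.alg.coperp, Eqv.of_mem_iff fun x hx v => by
    rw [Submodule.mem_dualCoannihilator, Submodule.mem_dualCoannihilator, ← h.eqv x hx]
    constructor
    · intro H l hl
      simpa using H _ ⟨l, hl, rfl⟩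
    · rintro H _ ⟨l, hl, rfl⟩
      simpa using H l hl⟩
lemma kc_perp_sub {X : Spc} {V : GV} {L L' : Pt → Submodule ℂ V.V} (h : IsAB X V L)
    (h' : IsAB X V L') : kc X V.dual (fun x => (L' x).dualAnnihilator) -
      kc X V.dual (fun x => (L x).dualAnnihilator) = K.dual X (kc X V L - kc X V L') := by
  rw [kc_perp h, kc_perp h', ← map_sub, sub_sub_sub_cancel_left]

/-- **from `F`.** `Z ⊂ π₁.P` = zero locus (`exists_zero`, `zl`) for `ψ = ev^∨`, `M = ZK^⊥`,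
`M' = KK^⊥` (`transv_down`; classes by `kc_perp`, `kc_dual_top`). On `Z` the family
`L z = (π₁.ln z).dualCoannihilator` is a `Fam Z T'` (`ok.down`); `G₁` from `gr'`; on `G₁` the
socle line `sl` is a bundle (`Fam.step`, `Step.socle`, `lin_sl`); `N` from `π₂.exists_graph`;
`two_graphs`. -/
theorem exists_down (π₁ : ν.P₁) (π₂ : ν.P₂) : ∃ (N : Spc) (h : ν.IsN π₁ π₂ N),
    ZData N ν.F (K.dual _ ν.u) (K.dual _ ν.s) (ν.r + 2) (lbK N (eB ν.c - π₁.δ)) ∧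
    tanK N = K.pull h.pr (tanK ν.F) +
      lbK N (eB ν.c - π₁.δ) * K.pull h.pr (K.dual _ ν.u - K.dual _ ν.s) + 2 := by
  have n1 := ν.nb_b
  have n2 := ν.nb_b'
  have n3 := ν.ne
  have hZK := ν.fam.isAB_ZK ν.ok.ty ν.hk' ν.z.2
  have hKK := ν.fam.isAB_KK ν.ok.ty (ν.k + 1 + 1)
  have hψ : IsRM ν.F α.W.dual ν.V.dual fun _ => (α.ev (ν.k + 1 + 1) ν.z.1).dualMap :=
    (IsRM.const (AD.deg0_ev _ _)).dualMap
  have key : ∀ {U U' : Submodule ℂ α.W.V}, (ν.KK U).map (α.ev _ ν.z.1) ≤ U' →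
      U'.dualAnnihilator.map (α.ev (ν.k + 1 + 1) ν.z.1).dualMap ≤ (ν.KK U).dualAnnihilator :=
    fun h => Submodule.map_le_iff_le_comap.2 fun l hl => (Submodule.mem_dualAnnihilator _).2
      fun κ hκ => (Submodule.mem_dualAnnihilator _).1 hl _ (h ⟨κ, hκ, rfl⟩)
  obtain ⟨Z, hZ, hz⟩ := π₁.exists_zero hKK.perp hψ
  have hA : π₁.A.Rk (ν.r + 2) := π₁.rk fun x hx => by
    have h1 := Subspace.finrank_add_finrank_dualAnnihilator_eq (ν.U x)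
    rw [ν.ok.ty.rk _ (ν.fam.ty x hx)] at h1
    rw [finrank_top, Subspace.dual_finrank_eq]
    exact h1.symm.trans (add_comm _ _)
  obtain ⟨hS, -, E, hE, hp, hT⟩ := π₁.zl (r := ν.r + 1) ν.sm hA hZK.perp hKK.perp
    (fun x hx => ⟨Submodule.dualAnnihilator_anti (AD.ZK_le _ _ _), by
      have h1 := Subspace.finrank_add_finrank_dualAnnihilator_eq (ν.ZK (ν.U x))
      have h2 := Subspace.finrank_add_finrank_dualAnnihilator_eq (ν.KK (ν.U x))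
      have h3 := ν.ok.ty.fib _ (ν.fam.ty x hx) _ ν.hk' _ ν.z.2
      rw [← ν.ok.ty.hf _ (ν.fam.ty x hx)] at h3
      exact Nat.add_left_cancel (h1.trans (h2.symm.trans (by rw [← h3]; ring)))⟩) hψ
    (fun x _ => Submodule.map_le_iff_le_comap.2 fun l _ => (Submodule.mem_dualAnnihilator _).2
      fun κ hκ => (congrArg l (AD.ZK_le_ker _ _ ν.z.2 hκ)).trans (map_zero l))
    (fun x _ => key (AD.map_ev_le _ _ _)) hZ hz
    fun x v _ h0 h1 => ν.fam.transv_down ν.ok.ty ν.ts ν.hk' ν.z.2 x h0 h1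
  have pZ : Proj Z ν.F := hZ.proj.trans π₁.proj
  have BZ : Z.B = {ν.c, ν.b} := hZ.1.trans (B₁ π₁)
  have mZ : ∀ y ∈ Z.pts, α.Mod (ν.U (restr ν.F.B y)) (π₁.ln y).dualCoannihilator ν.z.1 :=
    fun y hy => by
    have hy' := hZ.2 hy
    refine ⟨(Submodule.dualCoannihilator_anti (π₁.le_ln hy')).trans
      Subspace.dualAnnihilator_dualCoannihilator_eq.le, ?_, fun j => ?_⟩
    · have h1 := Subspace.finrank_add_finrank_dualAnnihilator_eq (ν.U (restr ν.F.B y))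
      have h2 := Subspace.finrank_add_finrank_dualCoannihilator_eq (π₁.ln y)
      rw [π₁.finrank_ln hy'] at h2
      exact Nat.add_right_cancel (h1.trans (h2.symm.trans (by ring)))
    · refine (ν.ok.ty.map_ev_le (ν.fam.ty _ (pZ.map y hy)) j (k := ν.k + 1 + 1)
        (ν.hk'.trans (Nat.le_succ _)) ν.z.2).trans ?_
      rintro _ ⟨κ, hκ, rfl⟩
      exact (Submodule.mem_dualCoannihilator _).2 fun l hl =>
        (Submodule.mem_dualAnnihilator _).1 ((hz y hy').1 hy ⟨l, hl, rfl⟩) κ hκ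
  have fZ : α.Fam Z ν.T' fun y => (π₁.ln y).dualCoannihilator :=
    ⟨by simp only [BZ, Finset.mem_insert, Finset.mem_singleton, c]; omega,
      isAB_coperp (α.in_W _) (π₁.isAB_ln.mono hZ),
      fun y hy => ν.ok.down _ _ (ν.fam.ty _ (pZ.map y hy)) _ ν.z.2 (mZ y hy)⟩
  obtain ⟨G, A₁, y₁, h₁, r₁, m₁⟩ := ν.gr' Z _ pZ
    (by simp only [BZ, Finset.mem_insert, Finset.mem_singleton, c]; omega) fZ
  have BG : G.B = {ν.b', ν.c, ν.b} := by rw [h₁.B, BZ]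
  have q : Proj G ν.F := h₁.proj.trans pZ
  have q' : Proj G ν.F' := ⟨by rw [ν.hB', BG]; simp, fun y hy => ((m₁ y).1 hy).1.2.1⟩
  have nbG : α.b ∉ G.B := by
    simp only [BG, Finset.mem_insert, Finset.mem_singleton, c]; omega
  have mG : ∀ y ∈ G.pts, α.Mod (ν.U (restr ν.F.B y)) (ν.U' (restr ν.F'.B y)) ν.z.1 :=
    fun y hy => by
    rw [((m₁ y).1 hy).2.1, ← restr_restr pZ.sub]
    exact mZ _ (h₁.proj.map y hy)
  obtain ⟨N, A₂, y₂, h₂, r₂, m₂⟩ := π₂.exists_graph q'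
    (by simp only [BG, Finset.mem_insert, Finset.mem_singleton, c]; omega)
    (ℓ := fun y => α.sl (ν.U (restr ν.F.B y)) (ν.U' (restr ν.F'.B y)) (ν.k + 1) ν.z.1)
    (((ν.fam.pull q nbG).step (ν.fam'.pull q' nbG) ν.ok ν.z.2 mG).socle ν.hk' ν.hd).1
    fun y hy =>
      have l := ν.ok.lin_sl (ν.fam.ty _ (q.map y hy)) (mG y hy) ν.hk' ν.hd
      ⟨l.le₁, l.le₂, l.one⟩
  have BN : N.B = {ν.b, ν.b', ν.c, ν.c + 1} := by
    rw [h₂.B, BG]
    ext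
    simp only [Finset.mem_insert, Finset.mem_singleton]
    tauto
  have pN : Proj N Z := h₂.proj.trans h₁.proj
  have lnZ : ∀ y, π₁.ln (restr Z.B (restr G.B y)) = π₁.ln y := fun y => by
    rw [restr_restr h₁.proj.sub, π₁.ln_restr hZ.1.ge]
  have hN : ν.IsN π₁ π₂ N := ⟨BN, fun y => ⟨fun hy => ?_, fun H => ?_⟩⟩
  · obtain ⟨e₁, e₂⟩ := two_graphs h₁ r₁ h₂ r₂ hS
    have k₁ : kc ν.F α.W.dual (fun _ => ⊤) -
        kc ν.F α.W.dual (fun x => (ν.U x).dualAnnihilator) = K.dual _ ν.u := by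
      rw [kc_dual_top (α.in_W _), kc_perp ν.fam.ab, ← map_sub, sub_sub_cancel, u]
    have k₂ := kc_perp_sub hKK hZK
    refine ⟨N, hN, ⟨π₁.P, π₁.A, π₁.δ, ν.c, π₁.y, π₁.ps, Z, E, hZ, pN, π₁.kl.trans k₁, hA,
      by rw [hE, k₂]; rfl, hp, e₁, rfl⟩, ?_⟩
    rw [e₂, hT, k₁, k₂, map_add, map_mul, K.pull_pull, K.pull_pull,
      K.pull_lbK _ (hZ.1 ▸ π₁.d_mem)]
    rfl
  · obtain ⟨⟨a₁, a₂, -⟩, a₃⟩ := (m₂ y).1 hy
    obtain ⟨-, a₄, a₅⟩ := (m₁ _).1 a₁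
    have a₆ := mG _ a₁
    rw [restr_restr q.sub, restr_restr q'.sub] at a₃ a₅ a₆
    rw [restr_restr q'.sub, lnZ] at a₄
    exact ⟨fun v hv => BN ▸ Sp.restr_eq_iff.1 (N.restr_eq hy) v hv, (pN.trans hZ.proj).map y hy, a₂, a₆,
      a₅, by rw [a₄, Subspace.dualCoannihilator_dualAnnihilator_eq], a₃⟩
  · refine (m₂ y).2 ⟨⟨(m₁ _).2 ⟨⟨?_, ?_, fun v hv => ?_⟩, ?_, ?_⟩, H.m₂, fun v hv => ?_⟩, ?_⟩
    · rw [restr_restr h₁.proj.sub, hZ.1]
      refine (hz _ H.m₁).2 ?_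
      rw [π₁.ln_restr subset_rfl, restr_restr π₁.proj.sub, H.l₁]
      exact key (H.mod.2.2 _)
    · rw [restr_restr q'.sub, ← restr_restr π₂.proj.sub]
      exact π₂.proj.map _ H.m₂
    · have := (Sp.restr_ne.1 hv).1
      rw [BZ, ν.hB']
      simp only [BG, Finset.mem_insert, Finset.mem_singleton, Finset.mem_union] at this ⊢
      tauto
    · rw [restr_restr q'.sub, lnZ, H.l₁, Subspace.dualAnnihilator_dualCoannihilator_eq]
    · rw [restr_restr q.sub, restr_restr q'.sub]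
      exact H.e
    · have := H.supp v hv
      rw [BG, B₂]
      simp only [Finset.mem_insert, Finset.mem_singleton, Finset.mem_union] at this ⊢
      tauto
    · rw [restr_restr q.sub, restr_restr q'.sub]
      exact H.l₂
/-- **from `F'`.** `Z ⊂ π₂.P` = zero locus for `ψ = ev`, `M = U'`, `M' = ⊥` (`transv_up`). On `Z`
the family `L z = rcv (U' _) (π₂.ln z)` is a `Fam Z T` (`isAB_rcv`, `rcv_spec`); `G₁` from `gr`;
`N` from `π₁.exists_graph` with the family `U'^⊥`; `rcv_sl` for the converse inclusion. -/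
theorem exists_up (π₁ : ν.P₁) (π₂ : ν.P₂) : ∃ (N : Spc) (h : ν.IsN π₁ π₂ N),
    ZData N ν.F' ν.s' ν.u' ν.r (lbK N (eB (ν.c + 1) - π₂.δ)) ∧
    tanK N = K.pull h.pr' (tanK ν.F') +
      lbK N (eB (ν.c + 1) - π₂.δ) * K.pull h.pr' (ν.s' - ν.u') + 2 := by
  obtain ⟨x, y, hp⟩ := AD.exists_par (α := α) ν.z
  obtain ⟨u, hu⟩ := AD.exists_unit (α := α) ν.k ν.z
  have hk : α.e ≤ ν.k + 1 := ν.hk.trans (Nat.le_succ _)
  have hψ : IsRM ν.F' ν.V α.W fun _ => α.ev (ν.k + 1 + 1) ν.z.1 := IsRM.const (AD.deg0_ev _ _)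
  obtain ⟨Z, hZ, hz⟩ := π₂.exists_zero (IsAB.bot (α.in_W _)) hψ
  have hA : π₂.A.Rk ν.r := π₂.rk fun a ha =>
    (ν.ok.ty'.hf _ (ν.fam'.ty a ha) _).trans (ν.ok.ty'.fib _ (ν.fam'.ty a ha) _ hk _ ν.z.2).symm
  obtain ⟨sZ, -, E, hE, pZ, tZ⟩ := π₂.zl ν.sm' hA ν.fam'.ab (IsAB.bot (α.in_W _)) (r := ν.r + 1)
    (fun a ha => ⟨bot_le, by rw [finrank_bot, zero_add, ν.ok.ty'.rk _ (ν.fam'.ty a ha)]⟩) hψ
    (fun a _ => AD.map_ev_le _ _ _)
    (fun a _ => Submodule.map_le_iff_le_comap.2 (AD.ZK_le_ker _ _ ν.z.2)) hZ hz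
    fun a v h1 h2 h3 => ν.fam'.transv_up ν.ok.ty' ν.ts' hk ν.z.2 a h1 h2 h3
  rw [kc_of_bot (L := fun _ => ⊥) fun _ _ => rfl, sub_zero] at hE tZ
  have q' : Proj Z ν.F' := hZ.proj.trans π₂.proj
  have ne := ν.ne
  have nb : α.b ≠ ν.b' := fun e => ν.fam'.nb (by rw [ν.hB', e]; exact Finset.mem_singleton_self _)
  have hc : ν.c = ν.b + ν.b' + α.b + 1 := rfl
  have BZ : Z.B = insert (ν.c + 1) {ν.b'} := by rw [hZ.1, π₂.ps.B, ν.hB']
  have B₁ : π₁.P.B = insert ν.c {ν.b} := by rw [π₁.ps.B, ν.hB]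
  have nZ : α.b ∉ Z.B := by simp only [BZ, Finset.mem_insert, Finset.mem_singleton]; omega
  have lin : ∀ a ∈ Z.pts, α.Lin (ν.k + 1) ν.z.1 (ν.U' (restr ν.F'.B a)) (π₂.ln a) := fun a ha =>
    ⟨π₂.le_ln (hZ.2 ha), π₂.ln_le a, π₂.finrank_ln (hZ.2 ha),
      Submodule.map_le_iff_le_comap.1 ((hz a (hZ.2 ha)).1 ha)⟩
  have spec := fun a ha => ν.ok.rcv_spec ν.hk ν.hd hp hu (ν.fam'.ty _ (q'.map a ha)) (lin a ha)
  obtain ⟨G, A₁, y₁, h₁, r₁, m₁⟩ := ν.gr Z _ q'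
    (by simp only [BZ, Finset.mem_insert, Finset.mem_singleton]; omega)
    ⟨nZ, (ν.fam'.pull q' nZ).isAB_rcv ν.ok ν.hk ν.hd hp hu (π₂.isAB_ln.mono hZ) lin,
      fun a ha => (spec a ha).1⟩
  have qG : Proj G ν.F := ⟨by rw [ν.hB, h₁.B]; simp, fun a ha => ((m₁ a).1 ha).1.2.1⟩
  have md : ∀ a ∈ G.pts, α.Mod (ν.U (restr ν.F.B a)) (ν.U' (restr ν.F'.B a)) ν.z.1 ∧
      π₂.ln a = α.sl (ν.U (restr ν.F.B a)) (ν.U' (restr ν.F'.B a)) (ν.k + 1) ν.z.1 := fun a ha => by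
    have h := (spec _ (h₁.proj.map a ha)).2
    rw [← ((m₁ a).1 ha).2.1, restr_restr q'.sub, π₂.ln_restr hZ.1.ge] at h
    exact ⟨h.1, h.2.symm⟩
  obtain ⟨N, A₂, y₂, h₂, r₂, m₂⟩ := π₁.exists_graph qG
    (by simp only [h₁.B, BZ, Finset.mem_insert, Finset.mem_singleton]; omega)
    (ν.fam'.ab.pull (h₁.proj.trans q')).perp fun a ha =>
      ⟨Submodule.dualAnnihilator_anti (md a ha).1.1, le_top, by
        have e1 := Subspace.finrank_add_finrank_dualAnnihilator_eq (ν.U (restr ν.F.B a))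
        have e2 := Subspace.finrank_add_finrank_dualAnnihilator_eq (ν.U' (restr ν.F'.B a))
        have e3 := (md a ha).1.2.1
        change finrank ℂ (Submodule.dualAnnihilator _) = finrank ℂ (Submodule.dualAnnihilator _) + 1
        omega⟩
  have BN : N.B = {ν.b, ν.b', ν.c, ν.c + 1} := by
    rw [h₂.B, h₁.B, BZ]
    ext
    simp only [Finset.mem_insert, Finset.mem_singleton]
    tauto
  have s₁ : Z.B ⊆ G.B := h₁.proj.sub
  have s₂ : ν.F'.B ⊆ G.B := q'.sub.trans s₁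
  have s₃ : π₂.P.B ⊆ G.B := hZ.1 ▸ s₁
  have hN : ν.IsN π₁ π₂ N := ⟨BN, fun a => ⟨fun ha => by
    obtain ⟨⟨k1, k2, -⟩, k3⟩ := (m₂ a).1 ha
    obtain ⟨⟨k4, -⟩, -, k5⟩ := (m₁ _).1 k1
    obtain ⟨k6, k7⟩ := md _ k1
    rw [restr_restr qG.sub, restr_restr s₂] at k5 k6 k7
    rw [restr_restr s₂] at k3
    rw [restr_restr s₁, hZ.1] at k4
    exact ⟨BN ▸ Sp.restr_eq_iff.1 (N.restr_eq ha), k2, hZ.2 k4, k6, k5, k3,
      (π₂.ln_restr s₃ a).symm.trans k7⟩, fun p => by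
    have k1 := π₁.proj.map _ p.m₁
    rw [restr_restr π₁.proj.sub] at k1
    have k2 : restr Z.B a ∈ Z.pts := by
      rw [hZ.1]
      refine (hz _ p.m₂).2 (Submodule.map_le_iff_le_comap.2 ?_)
      rw [π₂.ln_restr subset_rfl, p.l₂]
      exact (ν.ok.lin_sl (ν.fam.ty _ k1) p.mod hk ν.hd).ker
    refine (m₂ a).2 ⟨⟨(m₁ _).2 ⟨⟨?_, ?_, fun v hv => ?_⟩, ?_, ?_⟩, p.m₁, fun v hv => ?_⟩, ?_⟩
    · rwa [restr_restr s₁]
    · rwa [restr_restr qG.sub]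
    · have := (Sp.restr_ne.1 hv).1
      rwa [h₁.B, Finset.insert_eq, Finset.union_comm, ← ν.hB] at this
    · rw [restr_restr qG.sub, restr_restr s₁, restr_restr q'.sub, π₂.ln_restr hZ.1.ge, p.l₂]
      exact (ν.ok.rcv_sl ν.hk ν.hd hp hu (ν.fam.ty _ k1) p.mod).symm
    · rw [restr_restr qG.sub, restr_restr s₂]
      exact p.e
    · have := p.supp v hv
      simp only [h₁.B, BZ, B₁, Finset.mem_union, Finset.mem_insert, Finset.mem_singleton] at this ⊢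
      tauto
    · rw [restr_restr s₂]
      exact p.l₁⟩⟩
  obtain ⟨g₁, g₂⟩ := two_graphs h₁ r₁ h₂ r₂ sZ
  refine ⟨N, hN, ⟨π₂.P, π₂.A, π₂.δ, _, π₂.y, π₂.ps, Z, E, hZ, h₂.proj.trans h₁.proj, π₂.kl, hA, hE,
    pZ, g₁, rfl⟩, ?_⟩
  rw [g₂, tZ, map_add, map_mul, K.pull_pull, K.pull_pull, K.pull_lbK _ (hZ.1 ▸ π₂.d_mem)]
  rfl
/-- the step on `N` -/
theorem IsN.step (h : ν.IsN π₁ π₂ N) : Step Sg α.b N α.W (fun y => ν.U (restr ν.F.B y))
    (fun y => ν.U' (restr ν.F'.B y)) (fun k y => α.KK (ν.U (restr ν.F.B y)) k)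
    (fun k y => α.KK (ν.U' (restr ν.F'.B y)) k) α.e ν.r ν.z.1 :=
  (ν.fam.pull h.pr h.nb).step (ν.fam'.pull h.pr' h.nb) ν.ok ν.z.2 fun y hy => ((h.mem y).1 hy).mod
/-- `kc_ln`, `kc_perp` -/
theorem IsN.line₁ (h : ν.IsN π₁ π₂ N) :
    K.pull h.pr ν.u - K.pull h.pr' ν.u' = lbK N (eB ν.c - π₁.δ) := by
  have e := congrArg (K.pull h.pr₁) π₁.kc_ln
  rw [map_sub, K.pull_pull, kc_pull π₁.isAB_ln, kc_pull ν.fam.ab.perp,
    K.pull_lbK _ (neg_sub (eB ν.c) π₁.δ ▸ neg_mem π₁.d_mem), kc_congr fun y hy =>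
      (π₁.ln_restr subset_rfl y).trans ((h.mem y).1 hy).l₁,
    kc_perp_sub (ν.fam.ab.pull h.pr) (ν.fam'.ab.pull h.pr')] at e
  rw [u, u', kc_pull ν.fam.ab, kc_pull ν.fam'.ab, ← K.dual_dual (_ - _), e, K.dual_lbK, neg_sub]
/-- `kc_ln`, `Step.socle` -/
theorem IsN.line₂ (h : ν.IsN π₁ π₂ N) :
    K.dual N (K.pull h.pr ν.u - K.pull h.pr' ν.u') = lbK N (eB (ν.c + 1) - π₂.δ) := by
  have e := congrArg (K.pull h.pr₂) π₂.kc_ln
  rw [map_sub, K.pull_pull, kc_pull π₂.isAB_ln, kc_pull (ν.fam'.isAB_ZK ν.ok.ty' ν.hk' ν.z.2),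
    K.pull_lbK _ (neg_sub (eB (ν.c + 1)) π₂.δ ▸ neg_mem π₂.d_mem), kc_congr fun y hy =>
      (π₂.ln_restr subset_rfl y).trans ((h.mem y).1 hy).l₂] at e
  rw [u, u', kc_pull ν.fam.ab, kc_pull ν.fam'.ab, ← (h.step.socle ν.hk' ν.hd).2.2]
  exact (congrArg (K.dual N) e).trans (by rw [K.dual_lbK, neg_sub])

/-- **the nested space** -/
theorem exists_N (ν : ND α) : ∃ (N : Spc) (π : Proj N ν.F) (π' : Proj N ν.F') (L : K N),
    L = K.pull π ν.u - K.pull π' ν.u' ∧ α.b ∉ N.B ∧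
    (∀ y ∈ N.pts, α.Mod (ν.U (restr ν.F.B y)) (ν.U' (restr ν.F'.B y)) ν.z.1 ∧
      ν.E (restr ν.F.B y) (restr ν.F'.B y)) ∧
    ZData N ν.F (K.dual _ ν.u) (K.dual _ ν.s) (ν.r + 2) L ∧
    ZData N ν.F' ν.s' ν.u' ν.r (K.dual N L) ∧
    K.pull π' (tanK ν.F') = K.pull π (tanK ν.F) + L * K.dual N (K.pull π (ν.u - ν.s)) +
      K.dual N L * K.pull π' (ν.u' - ν.s') := by
  obtain ⟨π₁⟩ := ν.exists_P₁
  obtain ⟨π₂⟩ := ν.exists_P₂
  obtain ⟨N, h, z₂, t₂⟩ := exists_down π₁ π₂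
  obtain ⟨N', h', z₁, t₁⟩ := exists_up π₁ π₂
  obtain rfl := h.uniq h'
  refine ⟨N, h.pr, h.pr', _, rfl, h.nb, fun y hy => ⟨((h.mem y).1 hy).mod, ((h.mem y).1 hy).e⟩,
    h.line₁ ▸ z₂, h.line₂ ▸ z₁, ?_⟩
  rw [h.line₂, h.line₁, ← K.pull_dual, map_sub (K.dual _), map_sub (K.pull h.pr')]
  rw [map_sub (K.pull h'.pr')] at t₁
  linear_combination t₂ - t₁
end ND

end Crest.Agent.N265.N
end
end

-- ▼ part N265/N/Tr
section

/-!
# Row 265, layer N: universal pairs give the data `ND`; the class of a point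
-/

set_option autoImplicit false
noncomputable section
open MvPolynomial Module TensorProduct

namespace Crest.Agent.N265.N
open Crest.Agent.R274
open Defs_781 Lat_781 SnapA_99 SnapB_99 SnapE_99 Gen7_750 Xs1_781 SkDefs_474
open Alg GV Br Fib M _root_.Crest.Agent.N265.Pow
variable {Sg : Surf} {p : ℕ} {k : ℤ} {β : Sg.V.G} {n : ℕ} {X : Spc} {I : Pt → XL Sg Sg.F}

lemma rt_of_ifam (h : IFam X p β n k I) {x : Pt} (hx : x ∈ X.pts) : RT p β n (I x) :=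
  ⟨h.le hx, h.ty x hx, h.fam.reg x hx⟩
lemma fam_of_ifam (h : IFam X p β n k I) (hX : 0 ∉ X.B) :
    (ad Sg p k).Fam X (TT Sg p k β n) fun x => (r1 Sg k).pc (I x) p :=
  ⟨hX, h.fam.ab p le_rfl, fun _ hx => ⟨_, rt_of_ifam h hx, rfl⟩⟩
lemma exists_ifam (hp : 2 ≤ p) {L : Pt → Submodule ℂ (ad Sg p k).W.V}
    (h : (ad Sg p k).Fam X (TT Sg p k β n) L) :
    ∃ J, IFam X p β n k J ∧ ∀ x ∈ X.pts, L x = (r1 Sg k).pc (J x) p := by
  classical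
  choose J h1 h2 using h.ty
  let J' : Pt → XL Sg Sg.F := fun x => if hx : x ∈ X.pts then J x hx else OX Sg.V.X
  have e : ∀ x (hx : x ∈ X.pts), J' x = J x hx := fun x hx => dif_pos hx
  have r : ∀ x ∈ X.pts, RT p β n (J' x) := fun x hx => e x hx ▸ h1 x hx
  have e' : ∀ x ∈ X.pts, L x = (r1 Sg k).pc (J' x) p := fun x hx => e x hx ▸ h2 x hx
  exact ⟨J', ⟨LFam.of_one hp (fun x hx I hI => ((r x hx).le I hI).trans (r1_O k I hI).ge)
    (fun x hx => (r x hx).reg) ⟨_, _, fun x hx => (r x hx).ty.hp (r x hx).le⟩ le_rfl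
    (h.ab.congr e'), fun x hx => (r x hx).ty⟩, e'⟩

variable {β₁ β₂ : Sg.V.G} {n₁ n₂ : ℕ} {k₁ k₂ : ℤ} {b b' : ℕ}
lemma uni_graph (u : Uni Sg p β₁ β₂ n₁ n₂ k₁ k₂ b) {Y : Spc} {J : Pt → XL Sg Sg.F}
    (hJ : IFam Y p β₂ n₂ k₂ J) (Z : Spc) (L : Pt → Submodule ℂ (ad Sg p k₁).W.V) (q : Proj Z Y)
    (hb : b ∉ Z.B) (h : (ad Sg p k₁).Fam Z (TT Sg p k₁ β₁ n₁) L) :
    IsGraph Z u.F b fun z => (r1 Sg k₁).pc (u.I₁ (restr u.F.B z)) p = L (restr Z.B z) ∧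
      EqL (u.I₂ (restr u.F.B z)) (J (restr Y.B z)) := by
  obtain ⟨J₁, h₁, e⟩ := exists_ifam u.f₁.fam.two h
  obtain ⟨P, A, y, hP, hA, hm⟩ := u.graph Z J₁ _ hb h₁ (hJ.pull q)
  refine ⟨P, A, y, hP, hA, fun z => (hm z).trans (and_congr_right fun hz => ?_)⟩
  beta_reduce
  rw [restr_restr q.sub, e _ hz.1]
  exact and_congr_left' ⟨fun e => Amb.pc_congr (𝔞 := r1 Sg k₁) e p,
    (rt_of_ifam u.f₁ hz.2.1).eqL (rt_of_ifam h₁ hz.1)⟩
lemma uni_ts {u : Uni Sg p β₁ β₂ n₁ n₂ k₁ k₂ b} (h : u.Good) :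
    (ad Sg p k₁).TS u.F fun x => (r1 Sg k₁).pc (u.I₁ x) p := fun x _ hφ =>
  (h.versal x.2 ((rt_of_ifam u.f₁ x.2).homP_iff.1 hφ) (zero_mem _)).imp fun _ h => ⟨h.1, h.2.1⟩
lemma uni_reg (u : Uni Sg p β₁ β₂ n₁ n₂ k₁ k₂ b) {x : Pt} (hx : x ∈ u.F.pts) (J : XL Sg Sg.F)
    (h1 : LeL J (OX Sg.V.X)) (h2 : Ty J β₁ n₁) : RegL J.toLat p := by
  obtain ⟨y, hy, e, -⟩ := u.ex J _ h1 (u.f₂.le hx) h2 (u.f₂.ty x hx)
  exact (FC.of_eqv e).regL (u.f₁.fam.reg y hy)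

/-- the data for the nested space -/
def nd {u : Uni Sg p β₁ β₂ n₁ n₂ k₁ k₂ b} {u' : Uni Sg p β₁ β₂ (n₁ + 1) n₂ k₁ k₂ b'} (h : u.Good)
    (h' : u'.Good) (hb : b ≠ b') {r : ℕ} (hr : r + 1 = Uni.rkU Sg p β₁ (n₁ + 1)) (z : (Sg.S 0).pts)
    {j : ℕ} (hj : 2 ≤ j) (hd : DltOK Sg 0 (j + 1) z) : ND (ad Sg p k₁) where
  F := u.F
  F' := u'.F
  b := b
  b' := b'
  hB := u.B
  hB' := u'.B
  ne := hb
  T := TT Sg p k₁ β₁ n₁
  T' := TT Sg p k₁ β₁ (n₁ + 1)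
  r := r
  h := hT Sg p β₁ n₁
  h' := hT Sg p β₁ (n₁ + 1)
  ok := stepOK u.f₁.fam.two hr (rt_of_ifam u'.f₁ h'.1.nonempty.choose_spec)
    (uni_reg u' h'.1.nonempty.choose_spec)
  U := fun x => (r1 Sg k₁).pc (u.I₁ x) p
  U' := fun x => (r1 Sg k₁).pc (u'.I₁ x) p
  fam := fam_of_ifam u.f₁ u.nb
  fam' := fam_of_ifam u'.f₁ u'.nb
  n := u.dim
  n' := u'.dim
  sm := h.2
  sm' := h'.2
  ts := uni_ts h
  ts' := uni_ts h'
  E := fun x x' => EqL (u.I₂ x) (u'.I₂ x')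
  gr := uni_graph u u'.f₂
  gr' := fun Z L q hb h => by
    obtain ⟨P, A, y, hP, hA, hm⟩ := uni_graph u' u.f₂ Z L q hb h
    exact ⟨P, A, y, hP, hA, fun z => (hm z).trans (and_congr_right' (and_congr_right'
      ⟨Ser_781.Eqv.symm, Ser_781.Eqv.symm⟩))⟩
  z := z
  k := j
  hk := hj
  hd := hd

/-- `v = O(-p) [O_z]` -/
structure PtCl (Sg : Surf) (p : ℕ) (z : (Sg.S 0).pts) (j : ℕ) (v : K (Sg.S 0)) : Prop where
  hj : 2 ≤ j
  hd : DltOK Sg 0 (j + 1) z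
  eq : v = lbK _ (-(p • eB 0)) * (1 - lbK _ (-((j + 1 + 1 : ℕ) • eB 0)) * Pcl Sg 0 (j + 1) z.1)
lemma exists_ptCl (Sg : Surf) (p : ℕ) (z : (Sg.S 0).pts) : ∃ j v, PtCl Sg p z j v := by
  obtain ⟨k₀, h⟩ := exists_dltOK Sg 0 z
  exact ⟨k₀ + 2, _, by omega, h _ (by omega), rfl⟩
lemma eB_S (Sg : Surf) : eB 0 ∈ DS (Sg.S 0).B := eB_mem (Finset.mem_singleton_self 0)
namespace PtCl
variable {z : (Sg.S 0).pts} {j : ℕ} {v : K (Sg.S 0)}
theorem smul_one (h : PtCl Sg p z j v) :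
    v • one (Sg.S 0) = Top.ptc _ (Sg.S_ttriv 0) z.1 z.2 := by
  obtain ⟨ρ, -, h0, -, e⟩ := h.hd.res
  rw [h.eq, ← e, mul_smul, ρ.cls_smul_one (base_S Sg 0) h0]
  have h1 : lbK (Sg.S 0) (eB 0) • Top.ptc _ (Sg.S_ttriv 0) z.1 z.2 =
      Top.ptc _ (Sg.S_ttriv 0) z.1 z.2 := by
    have hs := Spc.orb_sub (Sg.S 0) _ (Sg.S_ttriv 0) z.1 z.2
    have := (Spc.orb_isPt (Sg.S 0) _ (Sg.S_ttriv 0) z.1 z.2).sh_block
      (Finset.mem_singleton_self 0) (one _)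
    rw [zero_smul, add_zero] at this
    rw [lbK_smul (eB_S Sg), Top.ptc, ← incl_cl hs (GM.red_O _).on, ← incl_sh hs (eB_S Sg)]
    exact congrArg _ this
  have h2 : ∀ m : ℕ, lbK (Sg.S 0) (m • eB 0) • Top.ptc _ (Sg.S_ttriv 0) z.1 z.2 =
      Top.ptc _ (Sg.S_ttriv 0) z.1 z.2 := fun m => by
    induction m with
    | zero => rw [zero_smul, lbK_zero, one_smul]
    | succ m ih => rw [succ_nsmul, lbK_add, mul_smul, h1, ih]
  conv_lhs => rw [← h2 p, ← mul_smul, mul_comm, lbK_mul_neg, one_smul]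
variable (hX : 0 ∉ X.B)
theorem piK_mul (h : PtCl Sg p z j v) (u : K (X.fib (Sg.S 0))) :
    piK X _ 0 (u * K.pull (Spc.fib_snd X _) v) =
      K.atPt ((base_S Sg 0).disj hX) (Sg.S_ttriv 0) z.1 z.2 u := by
  obtain ⟨ρ, -, -, -, e⟩ := h.hd.res
  rw [h.eq, ← e, map_mul (K.pull _), ← mul_assoc, ρ.piK_mul_cls (base_S Sg 0) hX, map_mul,
    K.pull_lbK _ (neg_mem (nsmul_mem (eB_S Sg) _)), K.atPt_lbK, Sg1.lbK_eB hX, mul_one]
theorem piK_mul_dual (h : PtCl Sg p z j v) (u : K (X.fib (Sg.S 0))) :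
    piK X _ 0 (u * K.dual _ (K.pull (Spc.fib_snd X _) v)) =
      K.atPt ((base_S Sg 0).disj hX) (Sg.S_ttriv 0) z.1 z.2 u := by
  obtain ⟨ρ, ρ', -, e', e⟩ := h.hd.res
  rw [h.eq, ← e, map_mul (K.pull _), map_mul (K.dual _), ← mul_assoc, ← K.pull_dual _ ρ.cls, ← e',
    ρ'.piK_mul_cls (base_S Sg 0) hX, map_mul, K.atPt_dual,
    K.pull_lbK _ (neg_mem (nsmul_mem (eB_S Sg) _)), K.atPt_lbK, Sg1.lbK_eB hX, map_one, mul_one]
theorem atPt_eq (h : PtCl Sg p z j v) :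
    K.atPt ((base_S Sg 0).disj hX) (Sg.S_ttriv 0) z.1 z.2 (K.pull (Spc.fib_snd X _) v) = 0 := by
  obtain ⟨ρ, -, -, -, e⟩ := h.hd.res
  rw [h.eq, ← e, map_mul, map_mul, ρ.atPt_cls (base_S Sg 0) hX, mul_zero]
end PtCl

end Crest.Agent.N265.N
end
end

-- ▼ part N265/N/NestK
section

/-!
# Row 265, layer N: the classes on the nested space
-/

set_option autoImplicit false
noncomputable section
open MvPolynomial Module TensorProduct

namespace Crest.Agent.N265.N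
open Crest.Agent.R274
open Defs_781 Lat_781 SnapA_99 SnapB_99 SnapE_99 Gen7_750 Xs1_781 SkDefs_474
open Alg GV Br Bun Fib M _root_.Crest.Agent.N265.Pow

/-- the quotient line of `L' < L` -/
theorem exists_line {X : Spc} {V : GV} {L L' : Pt → Submodule ℂ V.V} (h : IsAB X V L)
    (h' : IsAB X V L') (le : ∀ x ∈ X.pts, L' x ≤ L x) {r : ℕ}
    (hr : ∀ x ∈ X.pts, finrank ℂ (L x) = r + 1) (hr' : ∀ x ∈ X.pts, finrank ℂ (L' x) = r) :
    ∃ l : Bun X, l.Rk 1 ∧ l.kl = kc X V L - kc X V L' ∧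
      kc X (lam (r + 1) V) (fun x => lamS (r + 1) (L x)) =
        kc X (lam r V) (fun x => lamS r (L' x)) * l.kl := by
  obtain ⟨W, φ, hφ, hm, hk, e⟩ := h.exists_sq h' le
  obtain ⟨A, hA⟩ := h.exists_pres
  obtain ⟨A', hA'⟩ := h'.exists_pres
  obtain ⟨l, hl⟩ := hm.exists_pres
  have rA : A.Rk (r + 1) := fun x hx => (hA.finrank hx).trans (hr x hx)
  have rA' : A'.Rk r := fun x hx => (hA'.finrank hx).trans (hr' x hx)
  have rl : l.Rk 1 := fun x hx => by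
    have := finrank_map_add_ker (L x) (φ x)
    rw [hk x hx, inf_eq_right.2 (le x hx), hr x hx, hr' x hx] at this
    rw [hl.finrank hx]; omega
  refine ⟨l, rl, hl.kl.trans e, ?_⟩
  rw [← hA.kl_det rA, ← hA'.kl_det rA', ← kl_det_one rl]
  exact kl_det_ses (hA'.ses hA hl IsRM.id hφ fun x hx => ⟨by simp, by
    rw [Submodule.map_id, hk x hx, inf_eq_right.2 (le x hx)], rfl⟩) rA' rl rA

variable {Sg : Surf} {p : ℕ} {k k' : ℤ} {β β' : Sg.V.G} {n n' : ℕ} {X : Spc}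
  {I I' J : Pt → XL Sg Sg.F} {z : (Sg.S 0).pts} {j : ℕ} {v : K (Sg.S 0)}
/-- restriction to the point `z` -/
abbrev atZ (hX : 0 ∉ X.B) (z : (Sg.S 0).pts) : K (X.fib (Sg.S 0)) →+* K X :=
  K.atPt ((base_S Sg 0).disj hX) (Sg.S_ttriv 0) z.1 z.2
lemma atZ_Acl (hX : 0 ∉ X.B) : atZ hX z (Acl (r1 Sg k) X p I) = ucl (r1 Sg k) X I p := by
  rw [Acl, map_mul, K.atPt_lbK, Sg1.lbK_eB hX, one_mul, K.atPt_pull_fst]
lemma atZ_Bcl (h : IFam X p β n k I) (hX : 0 ∉ X.B) (hj : 2 ≤ j) :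
    atZ hX z (Bcl (r1 Sg k) X p I) =
      kc X (WA Sg (ad Sg p k).W (j + 1)) (fun x => (ad Sg p k).KK ((r1 Sg k).pc (I x) p) (j + 1)) -
        kc X (WA Sg (ad Sg p k).W (j + 1)) fun x => (ad Sg p k).ZK ((r1 Sg k).pc (I x) p) j z.1 := by
  obtain ⟨r, hr⟩ := h.fam.exists_rk'
  have s := h.fam.syzF hX hr
  rw [Bcl, map_mul, K.atPt_lbK, Sg1.lbK_eB hX, one_mul, ← s.bcl_eq hj]
  exact s.atPt_bcl hj z.2
/-- `𝓢' = 𝓢 - ℓ ⊗ O_z` -/
theorem SS_step (hv : PtCl Sg p z j v) {r : ℕ}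
    (h : Step Sg 0 X ((r1 Sg k).G p) (fun x => (r1 Sg k).pc (I x) p) (fun x => (r1 Sg k).pc (I' x) p)
      (fun i x => (r1 Sg k).KK (I x) p i) (fun i x => (r1 Sg k).KK (I' x) p i) 2 r z.1) :
    SS (r1 Sg k) X p I' = SS (r1 Sg k) X p I - K.pull (Spc.fib_fst X _)
      (ucl (r1 Sg k) X I p - ucl (r1 Sg k) X I' p) * K.pull (Spc.fib_snd X _) v := by
  have := h.bcl_sub (hv.hj.trans (Nat.le_succ j)) hv.hd
  rw [hv.eq, map_mul (K.pull _), K.pull_lbK _ (neg_mem (nsmul_mem (eB_S Sg) _)), map_sub (K.pull _) 1,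
    map_one]
  simp only [SS, Acl, Bcl, ucl, map_sub] at this ⊢
  linear_combination lbK _ (-(p • eB 0)) * this

section chi
variable (hv : PtCl Sg p z j v) (hX : 0 ∉ X.B) {L : K X}
  (e : SS (r1 Sg k) X p I' = SS (r1 Sg k) X p I -
    K.pull (Spc.fib_fst X _) L * K.pull (Spc.fib_snd X _) v)
include hv e
lemma atZ_step : atZ hX z (SS (r1 Sg k) X p I') = atZ hX z (SS (r1 Sg k) X p I) := by
  rw [e, map_sub, map_mul, hv.atPt_eq hX, mul_zero, sub_zero]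
lemma chiK_left {T : K (X.fib (Sg.S 0))} :
    piK X _ 0 (K.dual _ (SS (r1 Sg k) X p I') * T) =
      piK X _ 0 (K.dual _ (SS (r1 Sg k) X p I) * T) - K.dual X L * atZ hX z T := by
  rw [← hv.piK_mul_dual hX, ← piK_mul (base_S Sg 0) hX, ← map_sub, e, K.pull_dual, map_sub (K.dual _),
    map_mul (K.dual _)]
  congr 1; ring
lemma chiK_right {T W : K (X.fib (Sg.S 0))} :
    piK X _ 0 (T * (W - SS (r1 Sg k) X p I')) =
      piK X _ 0 (T * (W - SS (r1 Sg k) X p I)) + L * atZ hX z T := by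
  rw [← hv.piK_mul hX, ← piK_mul (base_S Sg 0) hX, ← map_add, e]
  congr 1; ring
lemma chiK_mov : chiK (r1 Sg k) (r1 Sg k') X p I' J + chiK (r1 Sg k') (r1 Sg k) X p J I' =
    chiK (r1 Sg k) (r1 Sg k') X p I J + chiK (r1 Sg k') (r1 Sg k) X p J I +
      K.dual X L * (atZ hX z (SS (r1 Sg k') X p J) - Top.tK X k') +
      L * K.dual X (atZ hX z (SS (r1 Sg k') X p J)) := by
  simp only [chiK]
  rw [chiK_left hv hX e, chiK_right hv hX e, map_sub (atZ hX z), r1_V, K.atPt_lbK, K.atPt_dual]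
  ring
lemma chiK_fix : chiK (r1 Sg k) (r1 Sg k) X p I' I' = chiK (r1 Sg k) (r1 Sg k) X p I I +
    L * K.dual X (atZ hX z (SS (r1 Sg k) X p I)) +
      K.dual X L * (atZ hX z (SS (r1 Sg k) X p I) - Top.tK X k) := by
  simp only [chiK]
  rw [chiK_left hv hX e, chiK_right hv hX e, map_sub (atZ hX z), r1_V, K.atPt_lbK, K.atPt_dual,
    atZ_step hv hX e]
  ring
end chi

variable {β₁ β₂ : Sg.V.G} {n₁ n₂ : ℕ} {k₁ k₂ : ℤ} {b b' M₀ : ℕ}
  {u : Uni Sg p β₁ β₂ n₁ n₂ k₁ k₂ b} {u' : Uni Sg p β₁ β₂ (n₁ + 1) n₂ k₁ k₂ b'}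
theorem hasNestK {h : u.Good} {h' : u'.Good} (d : u.PData h M₀) (d' : u'.PData h' M₀) (hb : b ≠ b')
    (hv : PtCl Sg p z j v) : Top.HasNestK d.piece d'.piece z.1 v := by
  let ν := nd h h' hb d'.hr₁ z hv.hj hv.hd
  have U1 : (d.U1 z.1).kl = ν.u := (d.eU1 _ z.2).trans (atZ_Acl u.nb)
  have U1' : (d'.U1 z.1).kl = ν.u' := (d'.eU1 _ z.2).trans (atZ_Acl u'.nb)
  have B1 : (d.B1 z.1).kl = ν.s := (d.eB1 _ z.2).trans (atZ_Bcl u.f₁ u.nb (hv.hj.trans j.le_succ))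
  have B1' : (d'.B1 z.1).kl = ν.s' :=
    (d'.eB1 _ z.2).trans (atZ_Bcl u'.f₁ u'.nb (hv.hj.trans j.le_succ))
  obtain ⟨N, π, π', L, hL, hN, hm, z₂, z₁, ht⟩ : ∃ (N : Spc) (π : Proj N u.F) (π' : Proj N u'.F)
      (L : K N), L = K.pull π (ucl (r1 Sg k₁) u.F u.I₁ p) - K.pull π' (ucl (r1 Sg k₁) u'.F u'.I₁ p) ∧
      0 ∉ N.B ∧ (∀ y ∈ N.pts, (ad Sg p k₁).Mod ((r1 Sg k₁).pc (u.I₁ (restr u.F.B y)) p)
        ((r1 Sg k₁).pc (u'.I₁ (restr u'.F.B y)) p) z.1 ∧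
        EqL (u.I₂ (restr u.F.B y)) (u'.I₂ (restr u'.F.B y))) ∧
      ZData N u.F (K.dual _ (d.U1 z.1).kl) (K.dual _ (d.B1 z.1).kl) (d'.r₁ + 2) L ∧
      ZData N u'.F (d'.B1 z.1).kl (d'.U1 z.1).kl d'.r₁ (K.dual N L) ∧
      K.pull π' (tanK u'.F) = K.pull π (tanK u.F) +
        L * K.dual N (K.pull π ((d.U1 z.1).kl - (d.B1 z.1).kl)) +
        K.dual N L * K.pull π' ((d'.U1 z.1).kl - (d'.B1 z.1).kl) := by
    rw [U1, U1', B1, B1']; exact ν.exists_N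
  have hr : d.r₁ = d'.r₁ + 1 := by
    have := (rt_of_ifam u'.f₁ h'.1.nonempty.choose_spec).rkU_succ 0
    rw [Nat.zero_add, ← d.hr₁, ← d'.hr₁] at this; omega
  have f₁ := u.f₁.pull π
  have f₁' := u'.f₁.pull π'
  have f₂ := u.f₂.pull π
  have f₂' := u'.f₂.pull π'
  have e₂ : ∀ y ∈ N.pts, EqL (u.I₂ (restr u.F.B y)) (u'.I₂ (restr u'.F.B y)) := fun y hy => (hm y hy).2
  have le₁ : ∀ y ∈ N.pts, (r1 Sg k₁).pc (u'.I₁ (restr u'.F.B y)) p ≤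
      (r1 Sg k₁).pc (u.I₁ (restr u.F.B y)) p := fun y hy => (hm y hy).1.1
  have st := (fam_of_ifam f₁ hN).step (fam_of_ifam f₁' hN) ν.ok z.2 fun y hy => (hm y hy).1
  have eL : L = ucl (r1 Sg k₁) N (fun y => u.I₁ (restr u.F.B y)) p -
      ucl (r1 Sg k₁) N (fun y => u'.I₁ (restr u'.F.B y)) p := by
    rw [← u.f₁.fam.pull_ucl π le_rfl, ← u'.f₁.fam.pull_ucl π' le_rfl]; exact hL
  have eS := SS_step hv st
  rw [← eL] at eS
  have eS₂ := SS_congr (𝔞 := r1 Sg k₂) (p := p) e₂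
  obtain ⟨l, rl, el, edet⟩ := exists_line (f₁.fam.ab p le_rfl) (f₁'.fam.ab p le_rfl) le₁
    (r := d'.r₁ + 1) (fun y hy => by rw [f₁.finrank_pc hy, ← d.hr₁, hr])
    fun y hy => by rw [f₁'.finrank_pc hy, d'.hr₁]
  replace el : l.kl = L := el.trans eL.symm
  have a₁ : K.pull π ((d.U1 z.1).kl - (d.B1 z.1).kl) =
      atZ hN z (SS (r1 Sg k₁) N p fun y => u.I₁ (restr u.F.B y)) := by
    rw [← u.f₁.fam.pull_SS u.nb π hN, K.atPt_pull π u.dis, d.eU1 _ z.2, d.eB1 _ z.2, SS,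
      map_sub (K.atPt _ _ _ _)]; rfl
  have a₁' : K.pull π' ((d'.U1 z.1).kl - (d'.B1 z.1).kl) =
      atZ hN z (SS (r1 Sg k₁) N p fun y => u.I₁ (restr u.F.B y)) := by
    rw [← atZ_step hv hN eS, ← u'.f₁.fam.pull_SS u'.nb π' hN, K.atPt_pull π' u'.dis, d'.eU1 _ z.2,
      d'.eB1 _ z.2, SS, map_sub (K.atPt _ _ _ _)]; rfl
  have a₂ : K.pull π ((d.U2 z.1).kl - (d.B2 z.1).kl) =
      atZ hN z (SS (r1 Sg k₂) N p fun y => u.I₂ (restr u.F.B y)) := by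
    rw [← u.f₂.fam.pull_SS u.nb π hN, K.atPt_pull π u.dis, d.eU2 _ z.2, d.eB2 _ z.2, SS,
      map_sub (K.atPt _ _ _ _)]; rfl
  have a₂' : K.pull π' ((d'.U2 z.1).kl - (d'.B2 z.1).kl) =
      atZ hN z (SS (r1 Sg k₂) N p fun y => u.I₂ (restr u.F.B y)) := by
    rw [eS₂, ← u'.f₂.fam.pull_SS u'.nb π' hN, K.atPt_pull π' u'.dis, d'.eU2 _ z.2,
      d'.eB2 _ z.2, SS, map_sub (K.atPt _ _ _ _)]; rfl
  have l₁ : K.pull π d.l1.kl = K.pull π' d'.l1.kl := by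
    rw [d.el1, d'.el1, u.f₁.pull_lcl, u'.f₁.pull_lcl]
    exact kc_congr fun y hy => ((f₁'.ty y hy).lS_eq (f₁.ty y hy) (f₁.le hy)
      (Amb.le_of_pc (f₁'.fam.le y hy) (f₁'.fam.reg y hy) le_rfl (le₁ y hy))).symm
  have l₂ : K.pull π d.l2.kl = K.pull π' d'.l2.kl := by
    rw [d.el2, d'.el2, u.f₂.pull_lcl, u'.f₂.pull_lcl]
    exact kc_congr fun y hy => (f₂.ty y hy).lS_eq (f₂'.ty y hy) (f₂'.le hy) (e₂ y hy).le
  obtain ⟨P, A, δ, c, y, hP, Z, E, hZ, q, hA, rA, hE, hz, hq, hl⟩ := z₂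
  have Z₂ := z2_of (d.rU1 _ z.2) (d.rB1 _ z.2) hP hA (hr ▸ rA) hZ E hE hz q hq π l (el.trans hl)
  obtain ⟨P', A', δ', c', y', hP', Z', E', hZ', q', hA', rA', hE', hz', hq', hl'⟩ := z₁
  have Z₁ := z1_of (d'.rU1 _ z.2) (d'.rB1 _ z.2) d'.rl1 (d'.det1 _ z.2) hP' hA' rA' hZ' E' hE'
    hz' q' hq' π' l
    (by rw [el, ← K.dual_dual L, hl', K.dual_lbK, neg_sub])
  refine ⟨N, π, π', l, (base_S Sg 0).disj hN, rl, rfl, l₁, l₂, ?_, ?_, Z₂.1, Z₁, Z₂.2, ?_, ?_, ?_, ?_⟩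
  · have := a₁.trans a₁'.symm
    rw [map_sub, map_sub, sub_eq_sub_iff_add_eq_add] at this
    exact this
  · have := a₂.trans a₂'.symm
    rw [map_sub, map_sub, sub_eq_sub_iff_add_eq_add] at this
    exact this
  · change K.pull π' (d'.Nm.kl - d'.Em.kl) = K.pull π (d.Nm.kl - d.Em.kl) + K.dual N l.kl *
      (K.pull π ((d.U2 z.1).kl - (d.B2 z.1).kl) - Top.tK N k₂) +
      l.kl * K.dual N (K.pull π ((d.U2 z.1).kl - (d.B2 z.1).kl))
    rw [d.emov, d'.emov, a₂, el, Uni.movK, Uni.movK, map_add, map_add,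
      u.f₁.fam.pull_chiK u.f₂.fam u.nb π hN, u.f₂.fam.pull_chiK u.f₁.fam u.nb π hN,
      u'.f₁.fam.pull_chiK u'.f₂.fam u'.nb π' hN, u'.f₂.fam.pull_chiK u'.f₁.fam u'.nb π' hN,
      ← chiK_mov hv hN eS]
    simp only [chiK, eS₂]
  · change K.pull π' d'.Ob.kl = K.pull π d.Ob.kl + K.dual N l.kl * Top.tK N k₁
    have c₂ : chiK (r1 Sg k₂) (r1 Sg k₂) N p (fun y => u.I₂ (restr u.F.B y))
        (fun y => u.I₂ (restr u.F.B y)) = _ := chiK_congr e₂ e₂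
    rw [a₁, a₁'] at ht
    rw [d.eOb, d'.eOb, el, Uni.obK, Uni.obK, Uni.fixK, Uni.fixK, Uni.tcl, Uni.tcl, ← tanK_eq,
      ← tanK_eq]
    simp only [map_sub, map_add, map_one]
    rw [u.f₁.fam.pull_chiK u.f₁.fam u.nb π hN, u.f₂.fam.pull_chiK u.f₂.fam u.nb π hN,
      u'.f₁.fam.pull_chiK u'.f₁.fam u'.nb π' hN, u'.f₂.fam.pull_chiK u'.f₂.fam u'.nb π' hN,
      chiK_fix hv hN eS, c₂]
    exact by linear_combination ht
  · change Op.pull π' d'.X0 * op N l.kl ^ 2 = Op.pull π d.X0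
    have dd : K.pull π u.ddK = K.pull π' u'.ddK * l.kl := by
      rw [Uni.ddK, Uni.ddK, map_mul, map_mul, u.f₁.fam.pull_dcl, u.f₂.fam.pull_dcl,
        u'.f₁.fam.pull_dcl, u'.f₂.fam.pull_dcl, ← d.hr₁, ← d'.hr₁, hr, dcl_congr (𝔞 := r1 Sg k₂) e₂,
        mul_right_comm]
      exact congrArg (· * _) edet
    rw [d.eX0, d'.eX0]
    simp only [map_mul, map_pow, map_sub, map_one, Op.pull_op, dd, l₁, l₂,
      Op.pull_lb _ (zsmul_mem (eT_mem _) _)]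
    ring
  · change K.pull (π'.fib_map _) d'.σ = K.pull (π.fib_map _) d.σ -
      K.pull (Spc.fib_fst N _) l.kl * K.pull (Spc.fib_snd N _) v
    rw [d.eσ, d'.eσ, map_add, map_add, u.f₁.fam.pull_SS u.nb π hN, u.f₂.fam.pull_SS u.nb π hN,
      u'.f₁.fam.pull_SS u'.nb π' hN, u'.f₂.fam.pull_SS u'.nb π' hN, eS, eS₂, el]
    ring

/-- **the nested spaces** -/
theorem exists_nest (Sg : Surf) (p : ℕ) : ∃ v : Pt → K (Sg.S 0),
    (∀ q (hq : q ∈ (Sg.S 0).pts), v q • one (Sg.S 0) = Top.ptc _ (Sg.S_ttriv 0) q hq) ∧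
    ∀ {β₁ β₂ : Sg.V.G} {n₁ n₂ : ℕ} {k₁ k₂ : ℤ} {b b' N : ℕ}
      {u : Uni Sg p β₁ β₂ n₁ n₂ k₁ k₂ b} {u' : Uni Sg p β₁ β₂ (n₁ + 1) n₂ k₁ k₂ b'}
      {h : u.Good} {h' : u'.Good} (d : u.PData h N) (d' : u'.PData h' N), b ≠ b' →
      ∀ q ∈ (Sg.S 0).pts, Top.HasNestK d.piece d'.piece q (v q) := by
  classical
  choose j v hv using exists_ptCl Sg p
  refine ⟨fun q => if hq : q ∈ (Sg.S 0).pts then v ⟨q, hq⟩ else 0, fun q hq => ?_,
    fun d d' hb q hq => ?_⟩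
  · simp only [dif_pos hq]; exact (hv ⟨q, hq⟩).smul_one
  · simp only [dif_pos hq]; exact hasNestK d d' hb (hv ⟨q, hq⟩)

end Crest.Agent.N265.N
end
end

-- ▼ part N265/M/Nest

/-! # Row 265, tasks M-DIM (helper83) and M-NEST (helper92): one more point -/

set_option autoImplicit false
set_option linter.dupNamespace false
noncomputable section

namespace Crest.Agent.N265.M
open Br
variable {Sg : Surf} {p : ℕ} {β₁ β₂ : Sg.V.G} {n₁ n₂ : ℕ} {k₁ k₂ : ℤ} {b b' : ℕ}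

/-- **dimension induction** -/
theorem Uni.Good.step {u : Uni Sg p β₁ β₂ n₁ n₂ k₁ k₂ b} (h : u.Good)
    (u' : Uni Sg p β₁ β₂ (n₁ + 1) n₂ k₁ k₂ b') (hb : b ≠ b') : u'.Good :=
  N.Dim.good_step h u' hb

/-- **the nested spaces** -/
theorem exists_nest (Sg : Surf) (p : ℕ) : ∃ v : Pt → K (Sg.S 0),
    (∀ q (hq : q ∈ (Sg.S 0).pts), v q • one (Sg.S 0) = Top.ptc _ (Sg.S_ttriv 0) q hq) ∧
    ∀ {β₁ β₂ : Sg.V.G} {n₁ n₂ : ℕ} {k₁ k₂ : ℤ} {b b' N : ℕ}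
      {u : Uni Sg p β₁ β₂ n₁ n₂ k₁ k₂ b} {u' : Uni Sg p β₁ β₂ (n₁ + 1) n₂ k₁ k₂ b'}
      {h : u.Good} {h' : u'.Good} (d : u.PData h N) (d' : u'.PData h' N), b ≠ b' →
      ∀ q ∈ (Sg.S 0).pts, Top.HasNestK d.piece d'.piece q (v q) := N.exists_nest Sg p

end Crest.Agent.N265.M
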