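import Crest.Agent.N265.Q.Bnd_Mg
import Crest.Agent.N265.Formal.Hecke_Mg
import Crest.Agent.N265.Psi.Fld
import Crest.Agent.N265.M.Nest

-- ▼ part N265/M/Quot
section

/-! # Row 265, task M-QUOT (helper68): the Quot schemes -/

set_option autoImplicit false
set_option linter.dupNamespace false
noncomputable section
open MvPolynomial

namespace Crest.Agent.N265.M
open Br

theorem QL_of_par {Sg : Surf} (C : Ch.Choice Sg.V) {l : ℕ} (P : Par (r2 Sg)) (hd : P.d = dQ C)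
    (hc : P.c = cQ C l) : Nonempty (QL C P.p l P.b) := by
  obtain ⟨Q, hQ, r, E, s, c, hE, hm, tv, hδ⟩ := P.exists_cone (4 * C.N + 4 - 2 * (l : ℤ))
  have ex : ∀ {β₁ β₂ n₁ n₂}, OK C l β₁ β₂ n₁ n₂ → ∃ u : Uni Sg P.p β₁ β₂ n₁ n₂ 0 1 P.b, P.IsU u :=
    fun h => Par.exists_uni ((fit_iff C hd hc).2 h.hilb)
  have sub : ∀ {β₁ β₂ n₁ n₂} (h : OK C l β₁ β₂ n₁ n₂), (ex h).choose.F.Sub Q := fun h =>
    ⟨(ex h).choose_spec.sub.1.trans hQ.1.symm, fun x hx =>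
      (hm x ((ex h).choose_spec.sub.2 hx)).2 (((ex h).choose_spec.rk_chiK hx).trans h.vd)⟩
  refine ⟨{
    Y := P.Γ.Y, Q := Q, n := _, r := r, V := _, hY := GrD.sm, hV := GrD.vars, E := E, hE := hE
    s := s, cone := c, B := hQ.1.trans P.Qa_B, L := P.Lq, fam := Par.lfam.mono hQ, tv := tv
    U := fun h => (ex h).choose, sub := sub, eqv := fun h => (ex h).choose_spec.eqv
    mem := fun h x hx => (ex h).choose_spec.mem x (hQ.2 hx)
    cover := fun x hx w hw => ?_, ht := fun h z hz => ?_ }⟩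
  · obtain ⟨J₁, J₂, β₁, β₂, n₁, n₂, hf, s₁, s₂, t₁, t₂, e⟩ := Par.cover (hQ.2 hx) hw
    obtain ⟨u, hu⟩ := Par.exists_uni hf
    exact ⟨J₁, J₂, β₁, β₂, n₁, n₂, ⟨s₁, s₂, (fit_iff C hd hc).1 hf,
      (hu.rk_chiK (hu.mem x (hQ.2 hx) J₁ J₂ t₁ t₂ e)).symm.trans ((hm x (hQ.2 hx)).1 hx)⟩, t₁, t₂, e⟩
  · have hzQ := (sub h).2 hz
    have e : z ∈ Q.Tan z := by
      have := Spc.euler_mem hzQ Q.B
      rwa [Q.restr_eq hzQ] at this
    refine (ex h).choose_spec.ht hz inf_le_left ⟨⟨c.sub.tan_le z e, ?_⟩, ?_⟩ fun φ hφ =>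
      hδ z hzQ φ (Submodule.comap_mono (Submodule.map_mono (inf_le_inf_right _ inf_le_left)) hφ)
    · exact N265.V.mem_fixS.2 fun v hv => by_contra fun h0 => hv ((ex h).choose.tt z hz v h0)
    · exact N265.V.mem_ker_dS.2 fun i => e (s i) fun y hy => (c.zero y (c.sub.2 hy)).1 hy i

/-- one regularity bound `p` for all levels -/
theorem exists_QL (Sg : Surf) (C : Ch.Choice Sg.V) :
    ∃ p : ℕ, ∀ l b : ℕ, b ≠ 0 → Nonempty (QL C p l b) := by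
  obtain ⟨m, hm⟩ := exists_lmax C
  choose m₀ _ h using fun l => exists_par Sg (dQ C) (cQ C l)
  refine ⟨max 2 ((Finset.range (m + 1)).sup m₀), fun l b hb => ?_⟩
  by_cases hl : l ≤ m
  · obtain ⟨P, h1, h2, h3, rfl⟩ := h l _ ((Finset.le_sup (f := m₀)
      (Finset.mem_range.2 (Nat.lt_succ_of_le hl))).trans (le_max_right 2 _)) b hb
    exact h1 ▸ QL_of_par C P h2 h3
  · exact QL_of_empty C (le_max_left _ _) fun _ _ _ _ h => hl (hm h)

end Crest.Agent.N265.M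
end
end

-- ▼ part N265/Top/Main
section

/-! # Row 265: `ModelStmt → TorsStmt` -/

set_option autoImplicit false
noncomputable section
open Polynomial

namespace Crest.Agent.N265.Top
open Bun Formal
variable {S : Spc} {hS : S.TTriv fun _ => 0}

lemma ev1_T (k : ℤ) : ev1 (LaurentPolynomial.T k) = 1 := by
  rw [ev1, LaurentPolynomial.eval₂_T]; simp

theorem Model.tors (M : Model S hS) {b : ℕ} (hb : S.B = {b}) : ∃ n : ℤ, n ≠ 0 ∧
    ∀ p (hp : p ∈ S.pts) p' (hp' : p' ∈ S.pts), n • (ptc S hS p hp - ptc S hS p' hp') = 0 := by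
  classical
  let _ := M.fin
  let good : M.Φ → Prop := fun φ => M.ν φ = 2 ∧ ∃ h1 h2 d P hP, Eval (M.x φ 0) M.N h1 h2 d P hP
  let c0 : ℤ := (-1) ^ (M.N + 1) * 1800 * (2 * M.N - 2).choose (M.N - 1)
  have hN := M.hN
  refine ⟨(Finset.univ.filter good).card * c0, mul_ne_zero ?_ ?_, fun p hp p' hp' => ?_⟩
  · obtain ⟨φ, hφ⟩ := M.good
    exact_mod_cast (Finset.card_pos.2 ⟨φ, Finset.mem_filter.2 ⟨Finset.mem_univ _, hφ⟩⟩).ne'
  · refine mul_ne_zero (mul_ne_zero (pow_ne_zero _ (by norm_num)) (by norm_num)) ?_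
    exact_mod_cast (Nat.choose_pos (by omega)).ne'
  set a := ptc S hS p hp
  set a' := ptc S hS p' hp'
  let tot : M.Φ → Mh (G S) := fun φ =>
    total (M.ν φ) (fun n => (M.x φ n).lev p) (fun n => (M.x φ n).lev p') (vv a) (vv a')
  have H1 : ∃ γ : G S, ∑ φ, tot φ = toMh (G S) γ := by
    have : ∀ k ∈ Finset.range 4, ∃ γ : G S, ∑ φ, (if k ≤ M.ν φ then
        ∑ n ∈ Finset.HasAntidiagonal.antidiagonal (M.ν φ - k), term ((M.x φ n).lev p)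
          ((M.x φ n).lev p') (vv a) (vv a') k else 0) = toMh (G S) γ := fun k hk => by
      obtain ⟨γ, hγ⟩ := (M.glob k (Finset.mem_range.1 hk)).sum_term hp hp' a a' k
      refine ⟨γ, Eq.trans ?_ hγ⟩
      rw [Fintype.sum_sigma, ← Finset.sum_filter, Finset.sum_subtype (p := fun φ => k ≤ M.ν φ)
        (F := inferInstance) _ (by simp)]
      refine Finset.sum_congr rfl fun φ _ => ?_
      exact (Finset.sum_coe_sort _ _).symm
    choose! γ hγ using this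
    refine ⟨∑ k ∈ Finset.range 4, γ k, ?_⟩
    rw [map_sum, ← Finset.sum_congr rfl hγ, Finset.sum_comm]; rfl
  have H2 : ∀ φ, ∃ e : ℤ, ((1 - LaurentPolynomial.T 1 : La) ^ (2 * M.N)) • tot φ =
      if good φ then toMh (G S) ((c0 • LaurentPolynomial.T e : La) • (a - a')) else 0 := fun φ => by
    obtain ⟨J, hJ⟩ := M.hecke φ hp
    obtain ⟨J', hJ'⟩ := M.hecke φ hp'
    obtain ⟨f1, f2, f3, f4⟩ := family (M.ν φ) (J + J') (fun n => Oh (M.x φ n).F)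
      (fun n => (M.x φ n).lev p) (fun n => (M.x φ n).lev p') (vv a) (vv a')
      (hJ _ (by omega)) (hJ' _ (by omega)) fun n _ => Piece.same _ p p'
    have kill : ∀ (x : Piece S) (u : Op x.F), u * eu x.Ob = 0 → ∀ r, x.L (oh _ u * r) = 0 :=
      fun x u hu r => by
        have : oh _ u * x.W = 0 := by
          rw [Piece.W, ← mul_assoc, ← map_mul, show u * (x.X0 * eu x.Em * eu x.Ob) =
            x.X0 * eu x.Em * (u * eu x.Ob) by ring, hu]; simp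
        rw [x.L_apply, mul_right_comm, this, zero_mul, map_zero]
    by_cases hg : good φ
    · obtain ⟨h2, h1', h2', d, P, hP, hE⟩ := hg
      obtain ⟨J0, h0⟩ := (M.x φ 0).ok hp
      obtain ⟨δ, hδ⟩ := h0.ud.exists_left_inv
      obtain ⟨e, he⟩ := eval_value (M.k1 φ 0) hN hE p δ hδ
      refine ⟨e, ?_⟩
      rw [if_pos ⟨h2, h1', h2', d, P, hP, hE⟩]
      change _ • total _ _ _ _ _ = _
      rw [f4 h2 δ hδ, AddMonoidHom.sub_apply, smul_sub]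
      change _ • vhat a _ - _ • vhat a' _ = _
      rw [← map_smul (vhat a), ← map_smul (vhat a'), he, vhat_toMh, vhat_toMh, ← map_sub, smul_sub]
    · refine ⟨0, ?_⟩
      rw [if_neg hg]
      change _ • total _ _ _ _ _ = _
      rcases M.cases φ with h | h | h | h
      · rw [f1 fun n hn r => ?_, smul_zero]
        have := kill _ (-(1 - op _ (M.x φ n).l1.kl)) (by rw [neg_mul, h n hn, neg_zero]) r
        rwa [neg_sub, map_sub, map_one] at this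
      · rw [f2 fun n hn r => ?_, smul_zero]
        have := kill _ (op _ (M.x φ n).l2.kl - tO _ 1) (by
          linear_combination (-tO (M.x φ n).F 1) * h n hn - op _ (M.x φ n).l2.kl *
            eu (M.x φ n).Ob * tO_one_mul (X := (M.x φ n).F)) r
        rwa [map_sub] at this
      · rw [f3 h, smul_zero]
      · exact absurd h hg
  obtain ⟨γ, hγ⟩ := H1
  choose e he using H2
  have H3 : toMh (G S) ((∑ φ ∈ Finset.univ.filter good, c0 • LaurentPolynomial.T (e φ) : La) •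
      (a - a')) = toMh (G S) (((1 - LaurentPolynomial.T 1 : La) ^ (2 * M.N)) • γ) := by
    rw [map_smul _ _ γ, ← hγ, Finset.smul_sum, Finset.sum_congr rfl fun φ _ => he φ,
      ← Finset.sum_filter, Finset.sum_smul, map_sum]
  obtain ⟨q, hq⟩ := (IsLocalizedModule.eq_iff_exists Mov (toMh (G S))).1 H3
  obtain ⟨-, o1, w1⟩ := isPt_O_orb hS hb p hp
  obtain ⟨-, o2, w2⟩ := isPt_O_orb hS hb p' hp'
  have := ev1_cancel hS o1 o2 w1 w2 q.2
    (∑ φ ∈ Finset.univ.filter good, c0 • LaurentPolynomial.T (e φ))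
    ((1 - LaurentPolynomial.T 1) ^ (2 * M.N - 1)) γ (by
      rw [mul_smul, mul_smul, ← pow_succ', show 2 * M.N - 1 + 1 = 2 * M.N by omega]; exact hq)
  rw [map_sum] at this
  simp only [map_zsmul, ev1_T, Finset.sum_const] at this
  rw [smul_eq_mul, mul_one, nsmul_eq_mul] at this
  exact this

/-- the geometric model gives uniform torsion -/
theorem tors_of_model (H : ModelStmt) : Br.TorsStmt := fun Sg => by
  obtain ⟨M⟩ := H Sg
  obtain ⟨n, hn, h⟩ := M.tors (Sg.S_B 0)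
  obtain ⟨A, _, κ, hκ, hψ⟩ := Psi.psi_of_surfOK (Sg.surfOK 0)
  obtain ⟨ψ, hψ⟩ := hψ (fun _ => 1) fun _ => rfl
  refine ⟨n, hn, fun p hp p' hp' => hκ ?_⟩
  obtain ⟨i1, o1, -⟩ := isPt_O_orb (Sg.S_ttriv 0) (Sg.S_B 0) p hp
  obtain ⟨i2, o2, -⟩ := isPt_O_orb (Sg.S_ttriv 0) (Sg.S_B 0) p' hp'
  have := congrArg ψ (h p hp p' hp')
  rw [map_zsmul, map_sub, ptc, ptc, hψ _ p 0 hp o1 i1, hψ _ p' 0 hp' o2 i2, one_smul, one_smul,
    map_zero] at this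
  rw [AddMonoidHom.mem_ker, map_zsmul, map_sub, this]

end Crest.Agent.N265.Top
end
end

-- ▼ part N265/M/Asm1
section

/-! # Row 265, assembly I: the bundles of a piece, the vanishing cases and the surviving case -/

set_option autoImplicit false
set_option linter.dupNamespace false
noncomputable section
open MvPolynomial Module TensorProduct

namespace Crest.Agent.N265.M
open Crest.Agent.R274
open Defs_781 Lat_781 SnapA_99 SnapB_99 SnapE_99 Gen7_750 Xs1_781 SkDefs_474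
open Alg GV Br N Fib _root_.Crest.Agent.N265.Pow
variable {X Y : Spc}

/-- classes of bundles -/
def Hon (u : K X) : Prop := ∃ A : Bun X, A.kl = u
lemma Hon.kl (A : Bun X) : Hon A.kl := ⟨A, rfl⟩
lemma Hon.add {u v : K X} : Hon u → Hon v → Hon (u + v)
  | ⟨A, h⟩, ⟨B, h'⟩ => ⟨A.sum B, by rw [kl_sum, h, h']⟩
lemma Hon.mul {u v : K X} : Hon u → Hon v → Hon (u * v)
  | ⟨A, h⟩, ⟨B, h'⟩ => ⟨A.tens B, by rw [kl_tens, h, h']⟩
lemma Hon.dual {u : K X} : Hon u → Hon (K.dual X u)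
  | ⟨A, h⟩ => (A.exists_dual.imp fun _ e => by rw [e.1, h])
lemma Hon.nsmul {u : K X} (h : Hon u) : ∀ n : ℕ, Hon (n • u)
  | 0 => ⟨Bun.zero X, by rw [kl_zero, zero_smul]⟩
  | n + 1 => by rw [succ_nsmul]; exact (h.nsmul n).add h
lemma Hon.lbK (d : D) : Hon (lbK X d) := ⟨_, rfl⟩

lemma rk_pull (q : Proj Y X) {y : Pt} (hy : y ∈ Y.pts) (u : K X) :
    K.rk hy (K.pull q u) = K.rk (q.map y hy) u := by
  obtain ⟨z, rfl⟩ := K.mk_surj u
  induction z using FreeAbelianGroup.induction_on with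
  | zero => simp
  | of A => rw [K.mk_of, K.pull_kl, K.rk_kl, K.rk_kl]; rfl
  | neg _ h => simp only [map_neg, h]
  | add _ _ h h' => simp only [map_add, h, h']

lemma op_det_add {A B C : Bun X} {m n k : ℕ} (hA : A.Rk m) (hC : C.Rk n) (hB : B.Rk k)
    (hk : k = m + n) (h : B.kl = A.kl + C.kl) :
    op X (B.det k hB).kl = op X (A.det m hA).kl * op X (C.det n hC).kl := by
  subst hk
  have e := congrArg (Polynomial.coeff · 0) (chp_add hA hC h)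
  simp only [Polynomial.mul_coeff_zero, chp_coeff_zero hA, chp_coeff_zero hB,
    chp_coeff_zero hC] at e
  rw [mul_mul_mul_comm, ← pow_add] at e
  exact (isUnit_neg_one.pow _).mul_left_cancel e

lemma pure_chiK {Sg : Surf} {p : ℕ} {k k' : ℤ} {I J : Pt → XL Sg Sg.F} {w : ℕ → ℤ}
    (h : LFam (r1 Sg k) X p I) (h' : LFam (r1 Sg k') X p J) (hw : X.TTriv w) (hX : 0 ∉ X.B) :
    K.Pure hw (k' - k) (chiK (r1 Sg k) (r1 Sg k') X p I J) := by
  obtain ⟨A, B, pA, pB, eA, eB⟩ := exists_hm_hb h h' hw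
  rw [h.chiK_eq h' hX, ← eA, ← eB]
  exact pA.kpure.sub pB.kpure

namespace Uni
variable {Sg : Surf} {p : ℕ} {β₁ β₂ : Sg.V.G} {n₁ n₂ : ℕ} {k₁ k₂ : ℤ} {b : ℕ}
  {u : Uni Sg p β₁ β₂ n₁ n₂ k₁ k₂ b}

theorem Good.exists_pdata (h : u.Good) (hk : (k₁ = 0 ∧ k₂ = 1) ∨ (k₁ = 1 ∧ k₂ = 0)) (N : ℕ) :
    Nonempty (u.PData h N) := by
  obtain ⟨x, hx⟩ := h.1.nonempty
  have p1 := (u.f₁.ty x hx).rkU_pos (u.f₁.le hx) (u.f₁.fam.reg x hx)
  have p2 := (u.f₂.ty x hx).rkU_pos (u.f₂.le hx) (u.f₂.fam.reg x hx)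
  obtain ⟨r₁, hr₁⟩ : ∃ r, r + 1 = rkU Sg p β₁ n₁ := ⟨_, Nat.sub_add_cancel p1⟩
  obtain ⟨r₂, hr₂⟩ : ∃ r, r + 1 = rkU Sg p β₂ n₂ := ⟨_, Nat.sub_add_cancel p2⟩
  obtain ⟨U1, B1, l1, rU1, rB1, rl1, pl1, el1, H1⟩ := u.f₁.exists_pt u.nb h.2 u.tt hr₁
  obtain ⟨U2, B2, l2, rU2, rB2, rl2, pl2, el2, H2⟩ := u.f₂.exists_pt u.nb h.2 u.tt hr₂
  obtain ⟨A, B, pA, pB, eA, eB⟩ := exists_hm_hb u.f₁.fam u.f₂.fam u.tt
  obtain ⟨A', B', pA', pB', eA', eB'⟩ := exists_hm_hb u.f₂.fam u.f₁.fam u.tt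
  obtain ⟨C, -, hC⟩ := h.ob_split
  obtain ⟨Ob, eOb⟩ : Hon (u.obK h) := by
    rw [hC, ← el1, ← el2]
    exact ((((Hon.kl l1).dual.mul (Hon.lbK _)).nsmul _).add
      (((Hon.kl l2).dual.mul (Hon.lbK _)).nsmul _)).add (Hon.kl C)
  have hne : ∀ {E E' : Bun u.F}, E.Pure (fun _ => u.w) (k₂ - k₁) →
      E'.Pure (fun _ => u.w) (k₁ - k₂) →
      ∀ i, Bun.nwt u.F.B (fun _ => u.w) ((E.sum E').deg i) ≠ 0 := by
    rintro E E' hE hE' (i | i)
    · exact (Bun.pure_iff.1 hE i).trans_ne (by omega)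
    · exact (Bun.pure_iff.1 hE' i).trans_ne (by omega)
  exact ⟨{
    hk := hk, r₁ := r₁, r₂ := r₂, U1 := U1, B1 := B1, U2 := U2, B2 := B2, l1 := l1, l2 := l2
    Nm := A.sum A', Em := B.sum B', Ob := Ob, σ := _, X0 := _, hr₁ := hr₁, hr₂ := hr₂
    rl1 := rl1, rl2 := rl2, pl1 := pl1, pl2 := pl2, rU1 := rU1, rB1 := rB1, rU2 := rU2, rB2 := rB2
    pU1 := fun q hq => (H1 q hq).1, pB1 := fun q hq => (H1 q hq).2.1
    pU2 := fun q hq => (H2 q hq).1, pB2 := fun q hq => (H2 q hq).2.1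
    det1 := fun q hq => (H1 q hq).2.2.2.2, det2 := fun q hq => (H2 q hq).2.2.2.2
    hNm := hne pA pA', hEm := hne pB pB'
    eU1 := fun q hq => (H1 q hq).2.2.1, eB1 := fun q hq => (H1 q hq).2.2.2.1
    eU2 := fun q hq => (H2 q hq).2.2.1, eB2 := fun q hq => (H2 q hq).2.2.2.1
    el1 := el1, el2 := el2, eOb := eOb, eσ := rfl, eX0 := rfl
    emov := by
      rw [movK, u.f₁.fam.chiK_eq u.f₂.fam u.nb, u.f₂.fam.chiK_eq u.f₁.fam u.nb, kl_sum, kl_sum, eA,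
        eB, eA', eB']
      ring }⟩

namespace PData
variable {h : u.Good} {N : ℕ}

theorem bot {u : Uni Sg p β₁ β₂ 0 n₂ k₁ k₂ b} {h : u.Good} (d : u.PData h N) {q : Pt}
    (hq : q ∈ (Sg.S 0).pts) : (d.U1 q).kl = d.l1.kl + (d.B1 q).kl := by
  have := u.f₁.bot u.nb q hq
  rw [SS, map_sub] at this
  rw [d.eU1 q hq, d.eB1 q hq, d.el1, ← this]
  exact (sub_add_cancel _ _).symm

theorem kill (d : u.PData h N) (hs : Ch.HasSec Sg.V β₁) (hc : Sg.V.chi β₁ ≤ 1) :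
    (1 - op _ d.l1.kl * Top.tO u.F (-k₁)) * eu d.Ob = 0 := by
  obtain ⟨C, -, hC⟩ := h.ob_split
  obtain ⟨C', hC'⟩ : Hon (Sg.V.hh β₂ 1 • (K.dual _ d.l2.kl * Top.tK u.F k₂) + C.kl) :=
    (((Hon.kl d.l2).dual.mul (Hon.lbK _)).nsmul _).add (Hon.kl C)
  have hl : (d.l1.tens (Bun.line u.F (-k₁ • eT))).Rk 1 := d.rl1.tens (Bun.rk_line _)
  have e : (d.l1.tens (Bun.line u.F (-k₁ • eT))).kl = d.l1.kl * Top.tK u.F (-k₁) := kl_tens _ _
  have := (pgq Sg).chi_eff hs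
  have := kill_of (Ob := d.Ob) (C := C') hl (h0 := Sg.V.hh β₁ 0) (h1 := Sg.V.hh β₁ 1) (by omega)
    (by rw [d.eOb, hC, hC', e, map_mul, K.dual_lbK, neg_smul, neg_neg, d.el1, d.el2, add_assoc])
    (by rw [e, map_mul, d.el1]; exact u.f₁.nil)
  rwa [e, map_mul] at this

theorem eval {C : Ch.Choice Sg.V} {u : Uni Sg p β₁ β₂ 0 0 0 1 b} {h : u.Good} (d : u.PData h C.N)
    (h₁ : Ch.HasSec Sg.V β₁) (h₂ : Ch.HasSec Sg.V β₂) (T : C.Top β₁ β₂) :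
    ∃ h1 h2 e P hP, Top.Eval d.piece C.N h1 h2 e P hP := by
  obtain ⟨P, hP, hpt, htop⟩ := u.top_zero h₁ h₂
  obtain ⟨x, hx, -⟩ := hpt.2
  have c₁ := (pgq Sg).chi_eff h₁
  have c₂ := (pgq Sg).chi_eff h₂
  have e₁ : C.N + Sg.V.hh β₁ 1 + 1 = Sg.V.hh β₁ 0 := by have := T.chi₁; omega
  have e₂ : C.N + Sg.V.hh β₂ 1 + 1 = Sg.V.hh β₂ 0 := by have := T.chi₂; omega
  have t0 : Top.tO u.F (-0) = 1 := by rw [neg_zero, Top.tO, zero_smul, lb_zero]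
  have hx' := hP.proj.map x hx
  have hdc : ∀ {β : Sg.V.G} {k : ℤ} {I : Pt → XL Sg Sg.F}, IFam u.F p β 0 k I →
      K.rk hx' (dcl (r1 Sg k) u.F p I (rkU Sg p β 0)) = 1 := fun f => by
    rw [dcl, rk_kc ((f.fam.ab p le_rfl).lamS _), finrank_lamS, f.finrank_pc hx', Nat.choose_self]
    rfl
  refine ⟨Sg.V.hh β₁ 1, Sg.V.hh β₂ 1, u.ddK, P, hP, ?_, d.eX0, ?_, ?_, ?_, hpt, ?_, ?_⟩
  · have := ((((pure_dcl u.f₁.fam u.tt (rkU Sg p β₁ 0)).mul
      (pure_dcl u.f₂.fam u.tt (rkU Sg p β₂ 0))).pull hpt.1 hP.proj).eq_of_isPt hpt hx)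
    rw [rk_pull, map_mul (K.rk _), hdc u.f₁, hdc u.f₂, mul_one, one_smul] at this
    exact ⟨_, this⟩
  · obtain ⟨E, hE, hC⟩ := h.ob_split
    have : E.kl = 0 := kl_of_bot fun y hy => Submodule.finrank_eq_zero.1 (hE y hy)
    change d.Ob.kl = _ • K.dual _ d.l1.kl + _ • (K.dual _ d.l2.kl * _)
    rw [d.eOb, hC, this, add_zero, d.el1, d.el2, Top.tK, zero_smul, lbK_zero, mul_one]; rfl
  · have := u.f₁.nil
    rw [t0, mul_one, ← d.el1, ← e₁] at this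
    exact this
  · have := u.f₂.nil
    rw [← d.el2, ← e₂] at this
    exact this
  · rw [t0, mul_one, ← d.el1, ← d.el2, ← e₁, ← e₂] at htop
    exact htop
  · change K.pull hP.proj (d.Nm.kl - d.Em.kl) = _
    have a₁ := ((pure_chiK u.f₁.fam u.f₂.fam u.tt u.nb).pull hpt.1 hP.proj).eq_of_isPt hpt hx
    have a₂ := ((pure_chiK u.f₂.fam u.f₁.fam u.tt u.nb).pull hpt.1 hP.proj).eq_of_isPt hpt hx
    rw [rk_pull, u.f₁.rk_chiK u.f₂ u.nb, T.chi₁, T.chi₁₂] at a₁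
    rw [rk_pull, u.f₂.rk_chiK u.f₁ u.nb, T.chi₂, T.chi₂₁] at a₂
    rw [d.emov, movK, map_add, a₁, a₂]
    simp [Top.tK]
end PData
end Uni

end Crest.Agent.N265.M
end
end

-- ▼ part N265/M/Asm2

/-! # Row 265, assembly II: the index sets, the pieces and the Quot schemes -/

set_option autoImplicit false
set_option linter.dupNamespace false
noncomputable section
open MvPolynomial Module TensorProduct

namespace Crest.Agent.N265.M
open Crest.Agent.R274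
open Defs_781 Lat_781 SnapA_99 SnapB_99 SnapE_99 Gen7_750 Xs1_781 SkDefs_474
open Alg GV Br N Fib _root_.Crest.Agent.N265.Pow
variable {Sg : Surf} {β β' β₁ β₂ : Sg.V.G} {n₁ n₂ l p : ℕ} {C : Ch.Choice Sg.V}

/-- a representative of the linear equivalence class -/
def rep (β : Sg.V.G) : Sg.V.G := (Quotient.mk ⟨Lin Sg, lin_equiv Sg⟩ β).out
lemma lin_rep (β : Sg.V.G) : Lin Sg β (rep β) :=
  (lin_equiv Sg).symm (Quotient.mk_out (s := ⟨Lin Sg, lin_equiv Sg⟩) β)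
lemma Lin.rep_eq (h : Lin Sg β β') : rep β = rep β' :=
  congrArg Quotient.out (Quotient.sound (s := ⟨Lin Sg, lin_equiv Sg⟩) h)
lemma rep_rep (β : Sg.V.G) : rep (rep β) = rep β := (lin_rep β).rep_eq.symm

lemma OK.nTop (h : OK C l β₁ β₂ n₁ n₂) : C.nTop β₁ β₂ = (n₁ + n₂ + l : ℕ) := by
  have := (C.hilb_iff.1 h.hilb).2
  push_cast at this ⊢; omega
lemma OK.phi (h : OK C l β₁ β₂ n₁ n₂) : Ch.Phi Sg.V β₁ β₂ = Ch.Phi Sg.V C.b0 C.b0 :=
  (C.vdim_iff (pgq Sg)).1 ((C.hilb_iff.1 h.hilb).2 ▸ h.vd)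
lemma OK.move (h : OK C l β₁ β₂ n₁ n₂) {l' m₁ m₂ : ℕ} (e : m₁ + m₂ + l' = n₁ + n₂ + l) :
    OK C l' β₁ β₂ m₁ m₂ := by
  have e' : ((m₁ + m₂ : ℕ) : ℤ) = C.nTop β₁ β₂ - l' := by rw [h.nTop, ← e]; push_cast; ring
  exact ⟨h.s₁, h.s₂, C.hilb_iff.2 ⟨(C.hilb_iff.1 h.hilb).1, e'⟩,
    e' ▸ (C.vdim_iff (pgq Sg)).2 h.phi⟩
lemma ok_self (C : Ch.Choice Sg.V) : OK C 2 C.b0 C.b0 0 0 :=
  ⟨C.hasSec, C.hasSec, C.hilb_self 2, C.vdim_self (pgq Sg) 2⟩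

/-- the families of fixed pieces -/
def Fm (C : Ch.Choice Sg.V) : Type :=
  {φ : Sg.V.G × Sg.V.G × ℕ // rep φ.1 = φ.1 ∧ rep φ.2.1 = φ.2.1 ∧ OK C φ.2.2 φ.1 φ.2.1 0 0}
namespace Fm
variable (φ : Fm C)
/-- number of points on the top level -/
def ν : ℕ := φ.1.2.2
lemma ok {n : ℕ × ℕ} (e : n.1 + n.2 + l = φ.ν) : OK C l φ.1.1 φ.1.2.1 n.1 n.2 :=
  φ.2.2.2.move (e.trans (zero_add _).symm)
lemma ext' {φ ψ : Fm C} (h₁ : Lin Sg φ.1.1 ψ.1.1) (h₂ : Lin Sg φ.1.2.1 ψ.1.2.1) : φ = ψ := by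
  have e₁ := φ.2.1.symm.trans (h₁.rep_eq.trans ψ.2.1)
  have e₂ := φ.2.2.1.symm.trans (h₂.rep_eq.trans ψ.2.2.1)
  have a := φ.2.2.2.nTop
  have b := ψ.2.2.2.nTop
  rw [e₁, e₂, b] at a
  exact Subtype.ext (Prod.ext e₁ (Prod.ext e₂ (by push_cast at a; omega)))
end Fm
/-- the family of an admissible type -/
def OK.fm (h : OK C l β₁ β₂ n₁ n₂) : Fm C := ⟨(rep β₁, rep β₂, n₁ + n₂ + l), rep_rep _, rep_rep _,
  (h.lin (lin_rep _) (lin_rep _)).move (zero_add _)⟩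

variable (Q : ∀ l, QL C p l (l + 1))

theorem good_all : ∀ (m : ℕ) {l n₁ n₂ : ℕ} (h : OK C l β₁ β₂ n₁ n₂), n₁ + n₂ = m →
    ((Q l).U h).Good
  | _, _, 0, 0, h, _ => Uni.good_zero _ h.s₁ h.s₂
  | 0, _, _ + 1, _, _, e => by omega
  | 0, _, _, _ + 1, _, e => by omega
  | m + 1, l, n₁ + 1, n₂, h, e =>
    (good_all m (h.move (l' := l + 1) (m₁ := n₁) (m₂ := n₂) (by omega)) (by omega)).step _
      (by omega)
  | m + 1, l, 0, n₂ + 1, h, e =>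
    ((good_all m (h.move (l' := l + 1) (m₁ := 0) (m₂ := n₂) (by omega)) (by omega)).swap.step
      ((Q l).U h).swap (by omega)).swap
theorem good (h : OK C l β₁ β₂ n₁ n₂) : ((Q l).U h).Good := good_all Q _ h rfl

include Q in
theorem finite_Fm : Finite (Fm C) := by
  classical
  obtain ⟨T, hT⟩ := finite_classes Sg p
  have H : ∀ φ : Fm C, ∃ γ : T × T, Lin Sg φ.1.1 γ.1 ∧ Lin Sg φ.1.2.1 γ.2 := fun φ => by
    obtain ⟨x, hx⟩ := (good Q φ.2.2.2).1.nonempty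
    have f₁ := ((Q _).U φ.2.2.2).f₁
    have f₂ := ((Q _).U φ.2.2.2).f₂
    obtain ⟨γ₁, h₁, e₁⟩ := hT _ _ _ (f₁.ty x hx) (f₁.le hx) (f₁.fam.reg x hx)
    obtain ⟨γ₂, h₂, e₂⟩ := hT _ _ _ (f₂.ty x hx) (f₂.le hx) (f₂.fam.reg x hx)
    exact ⟨(⟨γ₁, h₁⟩, ⟨γ₂, h₂⟩), e₁, e₂⟩
  choose γ hγ using H
  refine Finite.of_injective γ fun φ ψ e => Fm.ext' ?_ ?_
  · exact (lin_equiv Sg).trans (hγ φ).1 ((lin_equiv Sg).symm (e ▸ (hγ ψ).1))
  · exact (lin_equiv Sg).trans (hγ φ).2 ((lin_equiv Sg).symm (e ▸ (hγ ψ).2))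

/-- the data of a piece -/
def pd (h : OK C l β₁ β₂ n₁ n₂) : ((Q l).U h).PData (good Q h) C.N :=
  ((good Q h).exists_pdata (.inl ⟨rfl, rfl⟩) C.N).some
/-- the pieces -/
def xx (φ : Fm C) (n : ℕ × ℕ) : Top.Piece (Sg.S 0) :=
  if h : n.1 + n.2 ≤ φ.ν then (pd Q (φ.ok (Nat.add_sub_cancel' h))).piece else (pd Q φ.2.2.2).piece
lemma xx_eq (φ : Fm C) {n : ℕ × ℕ} (e : n.1 + n.2 + l = φ.ν) : xx Q φ n = (pd Q (φ.ok e)).piece := by
  obtain rfl : l = φ.ν - (n.1 + n.2) := by omega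
  rw [xx, dif_pos (by omega)]

/-- index set of level `k` -/
abbrev Ix (C : Ch.Choice Sg.V) (k : ℕ) : Type := Top.Idx (Fm.ν (C := C)) k
lemma Ix.e {k : ℕ} (i : Ix C k) : i.2.1.1 + i.2.1.2 + k = i.1.1.ν := by
  have := Finset.HasAntidiagonal.mem_antidiagonal.1 i.2.2
  have := i.1.2
  omega
lemma Ix.ok {k : ℕ} (i : Ix C k) : OK C k i.1.1.1.1 i.1.1.1.2.1 i.2.1.1 i.2.1.2 := i.1.1.ok i.e
lemma Ix.ext' {k : ℕ} {i j : Ix C k} (h : i.1.1 = j.1.1) (h' : i.2.1 = j.2.1) : i = j := by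
  obtain ⟨⟨φ, _⟩, n, _⟩ := i
  obtain ⟨⟨ψ, _⟩, m, _⟩ := j
  dsimp only at h h'
  subst h h'
  rfl

namespace QL
variable {b : ℕ} (q : QL C p l b)
lemma disj {k : ℕ} (q : QL C p k b) {i j : Ix C k} (h : i ≠ j) :
    Disjoint (q.U i.ok).F.pts (q.U j.ok).F.pts := by
  refine Set.disjoint_left.2 fun x hi hj => h ?_
  obtain ⟨e₁, e₂⟩ := eqv_of_pair fun I hI => (q.eqv i.ok x hi I hI).symm.trans (q.eqv j.ok x hj I hI)
  have t₁ := (((q.U i.ok).f₁.ty x hi).congr e₁).uniq ((q.U j.ok).f₁.ty x hj)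
  have t₂ := (((q.U i.ok).f₂.ty x hi).congr e₂).uniq ((q.U j.ok).f₂.ty x hj)
  exact Ix.ext' (Fm.ext' t₁.1 t₂.1) (Prod.ext t₁.2 t₂.2)
lemma cov {k : ℕ} (q : QL C p k b) {x : Pt} (hx : x ∈ q.Q.pts) (w : ℕ → ℤ)
    (hw : ∀ v : Var, x v ≠ 0 → v.2.2 = w v.1) : ∃ i : Ix C k, x ∈ (q.U i.ok).F.pts := by
  obtain ⟨J₁, J₂, β₁, β₂, n₁, n₂, h, t₁, t₂, e⟩ := q.cover x hx w hw
  refine ⟨⟨⟨h.fm, Nat.le_add_left _ _⟩, (n₁, n₂), Finset.HasAntidiagonal.mem_antidiagonal.2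
    (Nat.add_sub_cancel _ _).symm⟩, q.mem _ x hx J₁ J₂ (t₁.lin (lin_rep _)) (t₂.lin (lin_rep _)) e⟩

variable (hb : 0 ∉ q.Q.B) (h : OK C l β₁ β₂ n₁ n₂)
lemma eqv' {x : Pt} (hx : x ∈ (q.U h).F.pts) :
    EqL (q.L (restr q.Q.B x)) (piX ![(q.U h).I₁ x, (q.U h).I₂ x]) := by
  rw [q.Q.restr_eq ((q.sub h).2 hx)]; exact q.eqv h x hx
lemma pull_A : K.pull ((q.sub h).proj.fib_map _) (Acl (r2 Sg) q.Q p q.L) =
    Acl (r1 Sg 0) _ p (q.U h).I₁ + Acl (r1 Sg 1) _ p (q.U h).I₂ := by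
  rw [q.fam.pull_Acl (q.sub h).proj, Acl_congr fun x hx => q.eqv' h hx,
    Acl_pair (q.U h).f₁.fam (q.U h).f₂.fam]
include hb in
lemma pull_B : K.pull ((q.sub h).proj.fib_map _) (Bcl (r2 Sg) q.Q p q.L) =
    Bcl (r1 Sg 0) _ p (q.U h).I₁ + Bcl (r1 Sg 1) _ p (q.U h).I₂ := by
  rw [q.fam.pull_Bcl hb (q.sub h).proj (q.U h).nb, Bcl_congr fun x hx => q.eqv' h hx,
    Bcl_pair (q.U h).f₁.fam (q.U h).f₂.fam (q.U h).nb]
include hb in
lemma pull_chi : K.pull (q.sub h).proj (chiK (r2 Sg) (r2 Sg) q.Q p q.L q.L) =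
    (q.U h).fixK + (q.U h).movK := by
  rw [q.fam.pull_chiK q.fam hb _ (q.U h).nb, chiK_congr (fun x hx => q.eqv' h hx)
    fun x hx => q.eqv' h hx, chiK_pair (q.U h).f₁.fam (q.U h).f₂.fam (q.U h).nb]; rfl
lemma pull_d : K.pull (q.sub h).proj (dcl (r2 Sg) q.Q p q.L
    (Uni.rkU Sg p β₁ n₁ + Uni.rkU Sg p β₂ n₂)) = (q.U h).ddK := by
  rw [q.fam.pull_dcl, dcl_congr fun x hx => q.eqv' h hx, dcl_pair (q.U h).f₁.fam (q.U h).f₂.fam
    (fun x hx => (q.U h).f₁.finrank_pc hx) fun x hx => (q.U h).f₂.finrank_pc hx]; rfl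
include hb in
lemma tan_eq {g : (q.U h).Good} {N : ℕ} (d : (q.U h).PData g N) :
    ((Bun.tan q.Y q.V q.hV q.n q.hY).pull ((q.sub h).trans q.cone.sub).proj).kl +
      (d.Em.sum d.Ob).kl = (q.E.pull (q.sub h).proj).kl + (Bun.tan _ q.V
        (N265.V.vars_sub q.hV ((q.sub h).trans q.cone.sub)) _ g.2).kl + d.Nm.kl := by
  have := congrArg (K.pull (q.sub h).proj) q.tv
  rw [← K.pull_kl, K.pull_pull, K.pull_kl, map_add, map_add, K.pull_kl, map_one,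
    q.pull_chi hb h] at this
  rw [this, kl_sum, d.eOb, ← tanK_eq g.2, tanK_eq g.2 (q.U h).hvars, ← d.emov, Uni.obK, Uni.tcl]
  ring
end QL

theorem exists_glob [Fintype (Fm C)] {k b : ℕ} (q : QL C p k b) (b0 : b ≠ 0)
    (g : ∀ i : Ix C k, (q.U i.ok).Good) (d : ∀ i, (q.U i.ok).PData (g i) C.N) :
    Nonempty (Top.Glob (Sg.S 0) fun i => (d i).piece) := by
  classical
  have hb : 0 ∉ q.Q.B := by rw [q.B, Finset.mem_singleton]; omega
  have dis : Disjoint q.Q.B (Sg.S 0).B := (base_S Sg 0).disj hb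
  obtain ⟨r, hr⟩ := q.fam.exists_rk'
  obtain ⟨A, B, eA, eB, rA, rB⟩ := q.fam.exists_AB hb hr
  let at' (E : Bun (q.Q.fib (Sg.S 0))) (z : Pt) : Bun q.Q :=
    if hz : z ∈ (Sg.S 0).pts then E.atPt dis (Sg.S_ttriv 0) z hz else Bun.zero _
  have rk : ∀ {E m}, E.Rk m → ∀ z ∈ (Sg.S 0).pts, (at' E z).Rk m := fun h z hz => by
    simp only [at', dif_pos hz]; exact fun x hx => h _ (Spc.add_mem_fib dis hx hz).1
  have kl : ∀ E z hz (i : Ix C k), K.pull (q.sub i.ok).proj (at' E z).kl =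
      (q.U i.ok).atP z hz (K.pull ((q.sub i.ok).proj.fib_map _) E.kl) := fun E z hz i => by
    simp only [at', dif_pos hz]
    rw [Uni.atP, K.atPt_pull _ dis, K.atPt_kl]
  have pU : ∀ z hz (i : Ix C k), K.pull (q.sub i.ok).proj (at' A z).kl =
      ((d i).U1 z).kl + ((d i).U2 z).kl := fun z hz i => by
    rw [kl A z hz, eA, q.pull_A, map_add, (d i).eU1 z hz, (d i).eU2 z hz]
  have pB : ∀ z hz (i : Ix C k), K.pull (q.sub i.ok).proj (at' B z).kl =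
      ((d i).B1 z).kl + ((d i).B2 z).kl := fun z hz i => by
    rw [kl B z hz, eB, q.pull_B hb, map_add, (d i).eB1 z hz, (d i).eB2 z hz]
  obtain ⟨z, hz⟩ := (Sg.S_irred 0).nonempty
  have hrk : ∀ i : Ix C k, r = (d i).r₁ + (d i).r₂ := fun i => by
    obtain ⟨x, hx⟩ := (g i).1.nonempty
    have := congrArg (K.rk hx) (pB z hz i)
    rw [K.pull_kl, map_add, K.rk_kl, K.rk_kl, K.rk_kl, (rk rB z hz).pull _ x hx,
      (d i).rB1 z hz x hx, (d i).rB2 z hz x hx] at this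
    exact_mod_cast this
  have rU : ∀ z ∈ (Sg.S 0).pts, (at' A z).Rk (r + 2) := rk rA
  obtain ⟨vir, u, a, hu, h1, h2⟩ := N265.V.loc q.hY q.hV q.hE q.cone
    (fun i : Ix C k => (q.U i.ok).F) (fun i _ => (q.U i.ok).w) (fun i => (q.U i.ok).dim)
    (fun i => q.sub i.ok) (fun i => (q.U i.ok).tt) (fun _ _ => q.disj) (fun _ hx => q.cov hx)
    (fun i => (g i).2) fun i => q.ht i.ok
  refine ⟨{
    Q := q.Q, dis := dis, pr := fun i => (q.sub i.ok).proj, rB := r, U := at' A, B := at' B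
    hU := rU, hB := rk rB
    res := fun i z hz => ?_
    X0 := op _ (dcl (r2 Sg) q.Q p q.L (r + 2)) ^ 2 * (1 - op _ ((at' A z).det _ (rU z hz)).kl *
      op _ (K.dual _ ((at' B z).det _ (rk rB z hz)).kl) * Top.tO _ (-1)) ^ (2 * C.N - 2)
    hX0 := fun i => ?_
    σ := SS (r2 Sg) q.Q p q.L
    hσ := fun i => ?_
    loc := ⟨vir, u, a, hu, h1, fun i => ?_⟩ }⟩
  · refine ((map_sub _ _ _).trans (congrArg₂ _ (pU z hz i) (pB z hz i))).trans ?_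
    exact (sub_add_sub_comm _ _ _ _).symm
  · have e : r + 2 = Uni.rkU Sg p i.1.1.1.1 i.2.1.1 + Uni.rkU Sg p i.1.1.1.2.1 i.2.1.2 := by
      rw [← (d i).hr₁, ← (d i).hr₂, hrk i]; ring
    have dU := op_det_add ((d i).rU1 z hz) ((d i).rU2 z hz) ((rU z hz).pull (q.sub i.ok).proj)
      (by rw [hrk i]; ring) ((K.pull_kl _ _).symm.trans (pU z hz i))
    have dB := op_det_add ((d i).rB1 z hz) ((d i).rB2 z hz) ((rk rB z hz).pull (q.sub i.ok).proj)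
      (hrk i) ((K.pull_kl _ _).symm.trans (pB z hz i))
    have dd := congrArg (op _) (Bun.rk_det _ _ ((rk rB z hz).pull (q.sub i.ok).proj)).mul_dual
    rw [map_mul, map_one, dB] at dd
    rw [(d i).det1 z hz, (d i).det2 z hz, map_mul, map_mul] at dU
    change Op.pull (q.sub i.ok).proj _ = (d i).X0
    rw [(d i).eX0]
    simp only [map_mul, map_pow, map_sub, map_one, Op.pull_op, K.pull_dual, kl_det_pull,
      Top.pull_tO]
    rw [congrArg (dcl (r2 Sg) q.Q p q.L) e, q.pull_d, dU]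
    congr 3
    rw [← mul_one (op _ (d i).l1.kl * op _ (d i).l2.kl), ← dd]
    ring
  · change K.pull ((q.sub i.ok).proj.fib_map _) _ = (d i).σ
    rw [(d i).eσ, SS, SS, SS, map_sub, q.pull_A, q.pull_B hb]
    ring
  · refine (h2 i _ _ (q.tan_eq hb i.ok (d i))).trans ?_
    rw [eu_add (kl_sum _ _), mul_smul]
    rfl

end Crest.Agent.N265.M
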